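import Mathlib

/-! A linear bound on the signed area of Lipschitz images of loops implies the four-point
condition. -/

set_option autoImplicit false

namespace Crest.Agent.R184

open Finset

variable {X : Type}

/-- twice the trapezoid rule for `∫ f dg` on an edge -/
def hypW (f g : X → ℤ) (u v : X) : ℤ := (f u + f v) * (g v - g u)

/-- there is a path of length at most `n` with `2 ∫ f dg = I` -/
inductive HypReach (d : X → X → ℕ) (f g : X → ℤ) : X → X → ℕ → ℤ → Prop
  | refl (x : X) (n : ℕ) : HypReach d f g x x n 0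
  | step {x y z : X} {n : ℕ} {I : ℤ} : d x y ≤ 1 → HypReach d f g y z n I →
      HypReach d f g x z (n + 1) (hypW f g x y + I)

/-- geodesic spaces with a linear bound on areas -/
structure HypSp (d : X → X → ℕ) (C : ℕ) : Prop where
  self : ∀ x, d x x = 0
  symm : ∀ x y, d x y = d y x
  tri : ∀ x y z, d x z ≤ d x y + d y z
  geo : ∀ x y, ∃ γ : ℕ → X, γ 0 = x ∧ γ (d x y) = y ∧ ∀ i, d (γ i) (γ (i + 1)) ≤ 1
  area : ∀ f g : X → ℤ, (∀ u v, |f u - f v| ≤ d u v) → (∀ u v, |g u - g v| ≤ 3 * d u v) →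
    ∀ x n I, HypReach d f g x x n I → I ≤ C * n

variable {d : X → X → ℕ} {f g : X → ℤ} {C : ℕ}

theorem HypReach.mono {x y : X} {n : ℕ} {I : ℤ} (h : HypReach d f g x y n I) :
    ∀ m, n ≤ m → HypReach d f g x y m I := by
  induction h with
  | refl x n => exact fun m _ => .refl x m
  | step h _ ih =>
    intro m hm
    obtain ⟨m, rfl⟩ : ∃ k, m = k + 1 := ⟨m - 1, by omega⟩
    exact .step h (ih m (by omega))

theorem HypReach.trans {x y z : X} {n m : ℕ} {I J : ℤ} (h : HypReach d f g x y n I)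
    (h' : HypReach d f g y z m J) : HypReach d f g x z (n + m) (I + J) := by
  induction h with
  | refl x n => rw [zero_add]; exact h'.mono _ (by omega)
  | step h _ ih => rw [add_right_comm, add_assoc (hypW _ _ _ _)]; exact .step h (ih h')

theorem HypReach.single {x y : X} (h : d x y ≤ 1) : HypReach d f g x y 1 (hypW f g x y) := by
  simpa using HypReach.step (f := f) (g := g) h (.refl y 0)

theorem HypReach.symm (hs : ∀ x y, d x y = d y x) {x y : X} {n : ℕ} {I : ℤ}
    (h : HypReach d f g x y n I) : HypReach d f g y x n (-I) := by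
  induction h with
  | refl x n => exact .refl x n
  | @step x y z n I h _ ih =>
    have := ih.trans (.single (hs x y ▸ h))
    rwa [show -I + hypW f g y x = -(hypW f g x y + I) by unfold hypW; ring] at this

theorem HypReach.path (v : ℕ → X) (hv : ∀ i, d (v i) (v (i + 1)) ≤ 1) {a b : ℕ} (hab : a ≤ b) :
    HypReach d f g (v a) (v b) (b - a) (∑ i ∈ Ico a b, hypW f g (v i) (v (i + 1))) := by
  induction b, hab using Nat.le_induction with
  | base => simpa using HypReach.refl _ _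
  | succ b hab ih =>
    rw [sum_Ico_succ_top hab]
    exact (ih.trans (.single (hv b))).mono _ (by omega)

theorem HypReach.path0 (v : ℕ → X) (hv : ∀ i, d (v i) (v (i + 1)) ≤ 1) {a b : ℕ} (hab : a ≤ b)
    (h0 : ∀ i, a ≤ i → i ≤ b → f (v i) = 0) : HypReach d f g (v a) (v b) (b - a) 0 := by
  have := HypReach.path (d := d) (f := f) (g := g) v hv hab
  rwa [sum_eq_zero fun i hi => by
    rw [mem_Ico] at hi
    rw [hypW, h0 i (by omega) (by omega), h0 (i + 1) (by omega) (by omega)]; simp] at this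

theorem HypSp.path_le (h : HypSp d C) (v : ℕ → X) (hv : ∀ i, d (v i) (v (i + 1)) ≤ 1) {a b : ℕ}
    (hab : a ≤ b) : d (v a) (v b) ≤ b - a := by
  induction b, hab using Nat.le_induction with
  | base => rw [h.self]; omega
  | succ b hab ih =>
    have := h.tri (v a) (v b) (v (b + 1))
    have := hv b
    omega

theorem HypSp.geo' (h : HypSp d C) (x y : X) : ∃ γ : ℕ → X, γ 0 = x ∧ γ (d x y) = y ∧
    (∀ i, d (γ i) (γ (i + 1)) ≤ 1) ∧ ∀ i j, i ≤ j → j ≤ d x y → d (γ i) (γ j) = j - i := by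
  obtain ⟨γ, h0, h1, h2⟩ := h.geo x y
  refine ⟨γ, h0, h1, h2, fun i j hij hj => ?_⟩
  have a1 := h.path_le γ h2 hij
  have a2 := h.path_le γ h2 (Nat.zero_le i)
  have a3 := h.path_le γ h2 hj
  have a4 := h.tri x (γ i) y
  have a5 := h.tri (γ i) (γ j) y
  rw [h0] at a2
  rw [h1] at a3
  omega

theorem hyp_near (d : X → X → ℕ) (α : ℕ → X) (m : ℕ) : ∃ π : X → ℕ, ∀ v, π v ≤ m ∧
    ∀ j ≤ m, d v (α (π v)) ≤ d v (α j) := by
  have : ∀ v, ∃ j, j ≤ m ∧ ∀ j' ≤ m, d v (α j) ≤ d v (α j') := fun v => by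
    obtain ⟨j, hj, H⟩ := exists_min_image (range (m + 1)) (fun j => d v (α j)) ⟨0, by simp⟩
    exact ⟨j, by simpa [Nat.lt_succ_iff] using hj, fun j' hj' => H j' (by simp; omega)⟩
  choose π hπ using this
  exact ⟨π, hπ⟩

theorem HypSp.morse (h : HypSp d C) (α β : ℕ → X) (m n : ℕ) (hα : ∀ i, d (α i) (α (i + 1)) ≤ 1)
    (hα' : ∀ i j, i ≤ j → j ≤ m → d (α i) (α j) = j - i) (hβ : ∀ i, d (β i) (β (i + 1)) ≤ 1)
    (e0 : β 0 = α 0) (e1 : β n = α m) (g : X → ℤ) (hg : ∀ u v, |g u - g v| ≤ 3 * d u v)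
    (hm : ∀ i < n, g (β i) + 1 ≤ g (β (i + 1))) (i : ℕ) (hi : i ≤ n) :
    ∃ j ≤ m, d (β i) (α j) ≤ 168 * C + 1 := by
  obtain ⟨π, hπ⟩ := hyp_near d α m
  obtain ⟨i₀, hi₀, hD⟩ := exists_max_image (range (n + 1)) (fun i => d (β i) (α (π (β i))))
    ⟨0, by simp⟩
  simp only [mem_range, Nat.lt_succ_iff] at hi₀ hD
  refine ⟨_, (hπ _).1, (hD i hi).trans ?_⟩
  have far := (hπ (β i₀)).2
  generalize d (β i₀) (α (π (β i₀))) = D at hD far
  set f : X → ℤ := fun v => ((D - d (β i₀) v : ℕ) : ℤ) with hf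
  have f0 : ∀ v, D ≤ d (β i₀) v → f v = 0 := fun v hv => by simp only [hf]; omega
  have hf1 : ∀ u v, |f u - f v| ≤ d u v := fun u v => by
    have := h.tri (β i₀) u v
    have := h.tri (β i₀) v u
    have := h.symm u v
    simp only [hf]; rw [abs_le]; omega
  have qg : ∀ a b, a ≤ b → b ≤ n → b - a ≤ 3 * d (β a) (β b) := fun a b hab hb => by
    have : g (β a) + (b - a : ℕ) ≤ g (β b) := by
      induction b, hab using Nat.le_induction with
      | base => simp
      | succ b hab ih =>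
        have := ih (by omega)
        have := hm b (by omega)
        omega
    have := abs_le.1 (hg (β a) (β b))
    omega
  have con : ∀ k ≤ n, (k = 0 ∨ k = n ∨ 2 * D ≤ d (β i₀) (β k)) →
      ∃ j ≤ m, d (β k) (α j) ≤ D ∧ HypReach d f g (β k) (α j) D 0 := by
    rintro k hk (rfl | rfl | hk')
    · exact ⟨0, Nat.zero_le _, by rw [e0, h.self]; omega, e0 ▸ .refl _ _⟩
    · exact ⟨m, le_rfl, by rw [e1, h.self]; omega, e1 ▸ .refl _ _⟩
    · refine ⟨_, (hπ _).1, hD k hk, ?_⟩
      obtain ⟨γ, h0, h1, h2, h3⟩ := h.geo' (β k) (α (π (β k)))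
      have := HypReach.path0 (d := d) (f := f) (g := g) γ h2 (Nat.zero_le _) fun i _ hi => f0 _ (by
        have a1 := h3 0 i (Nat.zero_le _) hi
        have a2 := h.tri (β i₀) (γ i) (β k)
        have a3 := h.symm (γ i) (β k)
        have a4 := hD k hk
        rw [h0] at a1
        omega)
      rw [h0, h1] at this
      exact this.mono _ (by have := hD k hk; omega)
  obtain ⟨j₁, a1, a2, a3⟩ := con (i₀ - 6 * D) (by omega) (by
    have := qg (i₀ - 6 * D) i₀ (by omega) hi₀
    have := h.symm (β (i₀ - 6 * D)) (β i₀)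
    omega)
  obtain ⟨i₂, c1, c2, c3⟩ : ∃ i₂, i₂ ≤ n ∧ i₂ ≤ i₀ + 6 * D ∧ (i₂ = n ∨ i₂ = i₀ + 6 * D) :=
    ⟨min n (i₀ + 6 * D), by omega, by omega, by omega⟩
  obtain ⟨j₂, b1, b2, b3⟩ := con i₂ c1 (by
    have := qg i₀ i₂ (by omega) c1
    omega)
  have c4 : i₀ + D ≤ i₂ := by
    have := far m le_rfl
    have := h.path_le β hβ hi₀
    rw [e1] at this
    omega
  have dj : d (α j₁) (α j₂) ≤ 14 * D := by
    have := h.path_le β hβ (show i₀ - 6 * D ≤ i₂ by omega)
    have := h.tri (α j₁) (β (i₀ - 6 * D)) (α j₂)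
    have := h.tri (β (i₀ - 6 * D)) (β i₂) (α j₂)
    have := h.symm (α j₁) (β (i₀ - 6 * D))
    omega
  have mid : HypReach d f g (α j₂) (α j₁) (14 * D) 0 := by
    rcases le_total j₁ j₂ with q | q
    · have := hα' j₁ j₂ q b1
      exact ((HypReach.path0 α hα q fun i _ _ => f0 _ (far i (by omega))).symm h.symm).mono _
        (by omega)
    · have := hα' j₂ j₁ q a1
      have := h.symm (α j₁) (α j₂)
      exact (HypReach.path0 α hα q fun i _ _ => f0 _ (far i (by omega))).mono _ (by omega)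
  have H := h.area f g hf1 hg _ _ _ (((((HypReach.path β hβ (show i₀ - 6 * D ≤ i₂ by omega)).trans
    b3).trans mid).trans (a3.symm h.symm)).mono (28 * D) (by omega))
  have low : ∑ _i ∈ Ico i₀ (i₀ + D / 2), ((D / 2 : ℕ) : ℤ) ≤
      ∑ i ∈ Ico (i₀ - 6 * D) i₂, hypW f g (β i) (β (i + 1)) := by
    have pos : ∀ i < i₂, f (β i) ≤ hypW f g (β i) (β (i + 1)) := fun i hi => by
      have q1 : 0 ≤ f (β i) := Int.natCast_nonneg _
      have q2 : 0 ≤ f (β (i + 1)) := Int.natCast_nonneg _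
      have q3 := hm i (by omega)
      unfold hypW
      nlinarith
    refine (sum_le_sum fun i hi => ?_).trans (sum_le_sum_of_subset_of_nonneg
      (Ico_subset_Ico (by omega) (by omega)) fun i hi _ =>
        (Int.natCast_nonneg _).trans (pos i (mem_Ico.1 hi).2))
    rw [mem_Ico] at hi
    refine le_trans ?_ (pos i (by omega))
    have := h.path_le β hβ hi.1
    simp only [hf]
    omega
  rw [sum_const, Nat.card_Ico, add_tsub_cancel_left, nsmul_eq_mul] at low
  have k : D / 2 * (D / 2) ≤ C * (28 * D) := by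
    have : ((D / 2 : ℕ) : ℤ) * (D / 2 : ℕ) ≤ C * (28 * D : ℕ) := by linarith
    exact_mod_cast this
  by_contra hc
  have k1 : C * (28 * D) ≤ C * (84 * (D / 2)) := Nat.mul_le_mul_left _ (by omega)
  have k2 : (84 * C + 1) * (D / 2) ≤ D / 2 * (D / 2) := Nat.mul_le_mul_right _ (by omega)
  have k3 : 0 < D / 2 := by omega
  nlinarith

theorem HypSp.proj (h : HypSp d C) (γ : ℕ → X) (k : ℕ) (c : X)
    (hγ : ∀ i j, i ≤ j → j ≤ k → d (γ i) (γ j) = j - i)
    (hc : ∀ j ≤ k, d c (γ k) ≤ d c (γ j)) :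
    k + d (γ k) c ≤ d (γ 0) c + 2 * (168 * C + 1) := by
  obtain ⟨σ, s0, s1, s2, s3⟩ := h.geo' (γ k) c
  obtain ⟨α, a0, a1, a2, a3⟩ := h.geo' (γ 0) c
  obtain ⟨π, hπ⟩ := hyp_near d γ k
  have p0 : ∀ j ≤ k, d (γ j) (γ (π (γ j))) = 0 := fun j hj => by
    have := (hπ (γ j)).2 j hj
    rw [h.self] at this
    omega
  have p1 : ∀ i ≤ d (γ k) c, d (σ i) (γ (π (σ i))) = i := fun i hi => by
    have b1 := (hπ (σ i)).2 k le_rfl
    have b2 := hc _ (hπ (σ i)).1
    have b3 := s3 0 i (Nat.zero_le _) hi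
    have b4 := s3 i _ hi le_rfl
    have b5 := h.tri c (σ i) (γ (π (σ i)))
    have := h.symm c (σ i)
    have := h.symm c (γ k)
    have := h.symm (σ i) (γ k)
    rw [s0] at b3
    rw [s1] at b4
    omega
  have st : ∀ i, d (if i ≤ k then γ i else σ (i - k))
      (if i + 1 ≤ k then γ (i + 1) else σ (i + 1 - k)) ≤ 1 := fun i => by
    split_ifs with h1 h2 h2
    · rw [hγ i (i + 1) (by omega) h2]; omega
    · obtain rfl : i = k := by omega
      simpa [s0] using s2 0
    · omega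
    · rw [show i + 1 - k = i - k + 1 by omega]; exact s2 _
  obtain ⟨j, hj, H⟩ := h.morse α (fun i => if i ≤ k then γ i else σ (i - k)) _ (k + d (γ k) c)
    a2 a3 st (by simp [a0]) (by
      rw [a1]
      split_ifs with h1
      · have e : d (γ k) c = 0 := by omega
        rw [e] at s1 ⊢
        rw [← s1, s0, add_zero]
      · rw [add_tsub_cancel_left, s1])
    (fun v => 2 * d v (γ (π v)) + d (γ 0) v) (fun u v => by
      have := (hπ u).2 _ (hπ v).1
      have := (hπ v).2 _ (hπ u).1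
      have := h.tri u v (γ (π v))
      have := h.tri v u (γ (π u))
      have := h.tri (γ 0) u v
      have := h.tri (γ 0) v u
      have := h.symm u v
      rw [abs_le]; omega) (fun i hi => by
      have b1 := st i
      split_ifs at b1 ⊢ with h1 h2 h2
      · rw [p0 i h1, p0 _ h2, hγ 0 i (by omega) h1, hγ 0 _ (by omega) h2]; omega
      · have := h.tri (γ 0) (σ (i + 1 - k)) (γ i)
        have := h.symm (σ (i + 1 - k)) (γ i)
        rw [p0 i h1, p1 _ (by omega)]; omega
      · omega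
      · have := h.tri (γ 0) (σ (i + 1 - k)) (σ (i - k))
        have := h.symm (σ (i + 1 - k)) (σ (i - k))
        rw [p1 _ (by omega), p1 _ (by omega)]; omega) k (by omega)
  simp only [le_refl, if_true] at H
  have b1 := a3 0 j (Nat.zero_le _) hj
  have b2 := a3 j _ hj le_rfl
  have b3 := hγ 0 k (Nat.zero_le _) le_rfl
  have := h.tri (γ 0) (α j) (γ k)
  have := h.tri (γ k) (α j) c
  have := h.symm (α j) (γ k)
  rw [a0] at b1
  rw [a1] at b2
  omega

theorem HypSp.four (h : HypSp d C) (w x y z : X) :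
    d x w + d y w + d x z ≤ d x w + d z w + d x y + 6 * (168 * C + 1) ∨
    d y w + d z w + d x z ≤ d x w + d z w + d y z + 6 * (168 * C + 1) := by
  obtain ⟨γ, g0, g1, -, g3⟩ := h.geo' x z
  obtain ⟨π, hπ⟩ := hyp_near d γ (d x z)
  have P : ∀ c, π c + d (γ (π c)) c ≤ d x c + 2 * (168 * C + 1) ∧
      d x z - π c + d (γ (π c)) c ≤ d z c + 2 * (168 * C + 1) := fun c => by
    have b := hπ c
    have b1 := h.proj γ (π c) c (fun i j hij hj => g3 i j hij (by omega))
      fun j hj => b.2 j (by omega)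
    have b2 := h.proj (fun i => γ (d x z - i)) (d x z - π c) c (fun i j hij hj => by
      rw [h.symm, g3 _ _ (by omega) (by omega)]; omega) fun j hj => by
        rw [Nat.sub_sub_self b.1]; exact b.2 _ (by omega)
    simp only [Nat.sub_sub_self b.1, Nat.sub_zero, g0, g1] at b1 b2
    exact ⟨b1, b2⟩
  have Pw := P w
  have Py := P y
  have w1 := (hπ w).1
  have y1 := (hπ y).1
  have := h.tri y (γ (π w)) w
  have := h.tri y (γ (π y)) (γ (π w))
  have := h.symm y (γ (π y))
  have := h.symm y z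
  rcases le_total (π w) (π y) with q | q
  · left
    have := g3 _ _ q y1
    have := h.symm (γ (π w)) (γ (π y))
    have b := g3 0 _ (Nat.zero_le _) w1
    have := h.tri x (γ (π w)) w
    rw [g0] at b
    omega
  · right
    have := g3 _ _ q w1
    have b := g3 _ _ w1 le_rfl
    have := h.tri z (γ (π w)) w
    have := h.symm z (γ (π w))
    rw [g1] at b
    omega

end Crest.Agent.R184
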