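import Crest.Agent.R184.CICode

/-! The weights. -/

set_option autoImplicit false

namespace Crest.Agent.R184.CI

open Finset Classical Real

variable {S : Type} (isY : S × Bool → Prop)

/-- probabilities of marks -/
noncomputable def wm (q : ℝ) (b : Bool) : ℝ := if b then (8 * q)⁻¹ else 1 - (8 * q)⁻¹

/-- probabilities of letters -/
noncomputable def we (q y : ℝ) (b : Bool) (l : S × Bool) : ℝ :=
  if b then (if isY l ∨ isY (flp l) then 1 else 0) / (2 * y)
  else (if isY l ∨ isY (flp l) then 2 else 1) / (q ^ 2 + q + 1 + 3 * y)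

/-- numbers of vertices -/
noncomputable def wn (q n : ℝ) (l l' : S × Bool) : ℝ :=
  if isY l ∧ isY l' then n + 1 else if isY l ∨ isY l' then n / q + 1 else n / (q + 1) + 1

/-- shares -/
noncomputable def ws (q : ℝ) (l l' : S × Bool) : ℝ :=
  if isY l then (if isY l' then -log (8 * q) / 4 else log q - log (q + 1) / 2 - (10 * q)⁻¹)
  else log (q + 1) / 2 - (10 * q)⁻¹

lemma log_sav {n r : ℝ} (hn : 0 < n) (hr : 1 ≤ r) :
    log r - r / n ≤ log (n + 1) - log (n / r + 1) ∧ 0 ≤ log (n + 1) - log (n / r + 1) ∧
      log (n + 1) - log (n / r + 1) ≤ r := by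
  have e : log (n / r + 1) = log (n + r) - log r := by
    rw [← log_div (by linarith) (by linarith)]; congr 1; field_simp
  have h1 : log (n + r) - log (n + 1) ≤ r / n := by
    rw [← log_div (by linarith) (by linarith)]
    refine (log_le_sub_one_of_pos (by positivity)).trans ?_
    rw [div_sub_one (by linarith), div_le_div_iff₀ (by linarith) hn]
    nlinarith
  have h2 : log (n + 1) ≤ log (n + r) := log_le_log (by linarith) (by linarith)
  have h3 : log (n / r + 1) ≤ log (n + 1) :=
    log_le_log (by positivity) (by linarith [div_le_self hn.le hr])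
  have h4 := log_le_sub_one_of_pos (show 0 < r by linarith)
  exact ⟨by linarith, by linarith, by linarith⟩

lemma num {q y n : ℝ} (hy : 1 ≤ y) (hq : 1000 * y ^ 2 ≤ q) (hn : 100 * q ^ 2 ≤ n)
    (hY : ∀ l, isY l → ¬ isY (flp l)) :
    Num isY (wm q) (we isY q y) (wn isY q n) (n + 1) (ws isY q) (11 / (50 * q))
      (q ^ 2 + 9 * q + 1 + 3 * y) := by
  have hy2 : y ≤ y ^ 2 := by nlinarith
  have hq1 : 1000 ≤ q := by nlinarith
  have hn0 : 0 < n := by nlinarith
  set u := q⁻¹ with hu
  have hu0 : 0 < u := by positivity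
  have hqu : q * u = 1 := mul_inv_cancel₀ (by linarith)
  have hu1 : u ≤ 1 / 1000 := by nlinarith
  have i8 : (8 * q)⁻¹ = u / 8 := by rw [hu]; field_simp
  have i10 : (10 * q)⁻¹ = u / 10 := by rw [hu]; field_simp
  have i50 : 11 / (50 * q) = 11 * u / 50 := by rw [hu]; field_simp
  obtain ⟨a1, a2, a3⟩ := log_sav hn0 (show 1 ≤ q by linarith)
  obtain ⟨b1, b2, b3⟩ := log_sav hn0 (show 1 ≤ q + 1 by linarith)
  have c1 : (q + 1) / n ≤ u / 50 := by
    rw [div_le_iff₀ hn0]; nlinarith
  have c2 : q / n ≤ u / 50 := le_trans (by gcongr; linarith) c1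
  have d1 : -(u / 4) ≤ log (1 - u / 8) := by
    refine le_trans ?_ (one_sub_inv_le_log_of_pos (by linarith))
    rw [le_sub_comm, inv_eq_one_div, div_le_iff₀ (by linarith)]
    nlinarith
  have d2 : log (1 - u / 8) ≤ 0 := log_nonpos (by linarith) (by linarith)
  have e0 : log (u / 8) = -log (8 * q) := by rw [← i8, log_inv]
  have e1 : 0 ≤ log (8 * q) := log_nonneg (by linarith)
  have e2 : log (8 * q) ≤ 8 * q := (log_le_sub_one_of_pos (by linarith)).trans (by linarith)
  set Dd := q ^ 2 + q + 1 + 3 * y with hD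
  have hD2 : 2 ≤ Dd := by nlinarith
  have f0 : log Dd ≤ Dd := (log_le_sub_one_of_pos (by linarith)).trans (by linarith)
  have f1 : log (2 * y) ≤ 2 * y := (log_le_sub_one_of_pos (by linarith)).trans (by linarith)
  have f2 : 0 ≤ log (2 * y) := log_nonneg (by linarith)
  have f3 : log 2 ≤ log Dd := log_le_log two_pos hD2
  have f4 := log_two_gt_d9
  have f5 : 0 ≤ log q := log_nonneg (by linarith)
  have f6 : 0 ≤ log (q + 1) := log_nonneg (by linarith)
  have f7 : log (q + 1) ≤ q := (log_le_sub_one_of_pos (by linarith)).trans (by linarith)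
  have g1 : log Dd ≤ 2 * log (q + 1) - 9 * u / 10 := by
    have h1 := log_le_sub_one_of_pos (show 0 < Dd / (q + 1) ^ 2 by positivity)
    rw [log_div (by linarith) (by positivity), log_pow] at h1
    have h2 : Dd / (q + 1) ^ 2 ≤ 1 - 9 * u / 10 := by
      rw [div_le_iff₀ (by positivity)]; nlinarith
    push_cast at h1; linarith
  have g2 : log Dd ≤ 2 * log q + 1 / 2 := by
    have h1 := log_le_sub_one_of_pos (show 0 < Dd / q ^ 2 by positivity)
    rw [log_div (by linarith) (by positivity), log_pow] at h1
    have h2 : Dd / q ^ 2 ≤ 3 / 2 := by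
      rw [div_le_iff₀ (by positivity)]; nlinarith
    push_cast at h1; linarith
  have g3 : log (8 * q) + 2 * log (2 * y) + log 2 ≤ 2 * log (q + 1) := by
    have h1 : log (8 * q * (2 * y) ^ 2 * 2) ≤ log ((q + 1) ^ 2) :=
      log_le_log (by positivity) (by nlinarith)
    rw [log_mul (by positivity) (by positivity), log_mul (by positivity) (by positivity),
      log_pow, log_pow] at h1
    push_cast at h1; linarith
  have k1 : log (1 / (2 * y)) = -log (2 * y) := by rw [one_div, log_inv]
  have k2 : log (1 / Dd) = -log Dd := by rw [one_div, log_inv]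
  have k3 : log (2 / Dd) = log 2 - log Dd := log_div (by norm_num) (by linarith)
  refine ⟨by linarith, fun l l' => ?_, fun l l' => ?_, fun l l' => ?_, fun l l' => ?_, fun b => ?_,
    fun b => ?_, fun b => ?_, fun b l h => ?_, fun b l => ?_, fun b l => ?_, fun b l => ?_,
    fun l l' => ?_, fun l l1 l2 => ?_, fun l l' => ?_, by positivity, by positivity⟩
  · unfold wn; split_ifs <;> positivity
  · simp only [wn, and_comm, or_comm]
  · unfold wn; split_ifs <;> nlinarith
  · unfold wn; split_ifs <;> linarith
  · unfold wm; split_ifs <;> rw [i8] <;> linarith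
  · unfold wm; split_ifs <;> rw [i8] <;> linarith
  · unfold wm; split_ifs <;> rw [i8] <;> nlinarith
  · unfold we; split_ifs with h1 h2
    · positivity
    · exact absurd (h h1) h2
    · positivity
    · positivity
  · unfold we; split_ifs
    · linarith
    · simp
    · linarith
    · linarith
  · unfold we; split_ifs
    · nlinarith
    · simp only [zero_div, log_zero, neg_zero]; positivity
    · linarith
    · linarith
  · simp only [we, flp_flp, or_comm]
  · by_cases h : isY l <;> by_cases h' : isY l' <;>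
      simp only [ws, wn, wm, h, h', i8, i10, and_self, and_false, false_and, or_self, or_false,
        false_or, if_true, if_false, decide_true, decide_false, Bool.false_eq_true] <;> linarith
  · have := hY l
    by_cases h : isY l <;> by_cases h' : isY (flp l) <;> by_cases h1 : isY l1 <;>
      by_cases h2 : isY l2 <;> first
      | exact absurd h' (this h)
      | (simp only [ws, we, h, h', h1, h2, i10, i50, and_self, and_false, false_and, or_self,
          or_false, false_or, if_true, if_false, decide_true, decide_false, Bool.false_eq_true,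
          ← hD, k1, k2, k3]; linarith)
  · unfold ws; split_ifs <;> (try rw [i10]) <;> nlinarith

lemma ev_lin (C1 C2 η : ℝ) (h1 : 0 ≤ C1) (hη : 0 < η) :
    ∃ L₀ : ℕ, ∀ L : ℕ, L₀ ≤ L → C1 * log (L + 2) + C2 ≤ η * L := by
  set δ := η / (2 * (C1 + 1)) with hδ
  have h0 : 0 < δ := by positivity
  have h2 : C1 * δ ≤ η / 2 := by
    rw [hδ, ← mul_div_assoc, div_le_div_iff₀ (by positivity) (by positivity)]; nlinarith
  obtain ⟨L₀, h3⟩ := exists_nat_ge ((η + C2 - C1 * log δ) / (η / 2))
  refine ⟨L₀, fun L hL => ?_⟩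
  have h4 : (L₀ : ℝ) ≤ L := by exact_mod_cast hL
  rw [div_le_iff₀ (by positivity)] at h3
  have h5 := log_le_sub_one_of_pos (show 0 < δ * (L + 2) by positivity)
  rw [log_mul h0.ne' (by positivity)] at h5
  have h6 : C1 * log (L + 2) ≤ C1 * (δ * (L + 2) - log δ) :=
    mul_le_mul_of_nonneg_left (by linarith) h1
  have h7 : (0 : ℝ) ≤ L := Nat.cast_nonneg _
  nlinarith

end Crest.Agent.R184.CI
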