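import Crest.Agent.R184.Pattern
import Crest.Agent.R184.CINum

/-! A configuration all of whose bounded pieces satisfy the inequality. -/

set_option autoImplicit false

namespace Crest.Agent.R184

open Finset Classical CI Real

lemma DesignOK.sum_we {V S C H : Type} [Fintype V] [Fintype S] [Fintype H] {D : HES V S C H}
    {isY : S × Bool → Prop} {q y n : ℕ} (h : DesignOK D isY q y n) (hy : 0 < y) (b : Bool) :
    ∑ l, we isY q y b l ≤ 1 := by
  have h1 : cn (fun l => isY l ∨ isY (flp l)) ≤ 2 * y := by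
    have a : cn (fun l => isY (flp l)) ≤ cn isY :=
      cn_le_of_inj (fun l l' => l = flp l') (fun l hl => ⟨_, hl, (flp_flp l).symm⟩)
        fun _ _ _ h h' => h.trans h'.symm
    have b : cn isY = y := h.card_Y
    have c := cn_or_le (p := fun l => isY l ∨ isY (flp l)) fun _ h => h
    omega
  have h2 : (∑ l, if isY l ∨ isY (flp l) then (1 : ℝ) else 0) ≤ 2 * y := by
    have := (Nat.cast_le (α := ℝ)).mpr h1
    rw [cn_real] at this
    push_cast at this
    exact (sum_congr rfl fun _ _ => by congr).trans_le this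
  have hy' : (0 : ℝ) < y := by exact_mod_cast hy
  cases b
  · simp only [we, Bool.false_eq_true, if_false]
    rw [← sum_div, div_le_one (by positivity)]
    have : ∀ l, (if isY l ∨ isY (flp l) then (2 : ℝ) else 1) =
        (if isY l ∨ isY (flp l) then (1 : ℝ) else 0) + 1 := fun l => by split_ifs <;> norm_num
    simp only [this]
    rw [sum_add_distrib, sum_const, card_univ, h.card_let, nsmul_eq_mul]
    push_cast; linarith
  · simp only [we, if_true]
    rw [← sum_div, div_le_one (by positivity)]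
    exact h2

lemma DesignOK.pair_le {V S C H : Type} [Fintype V] [Fintype S] [Fintype H] {D : HES V S C H}
    {isY : S × Bool → Prop} {q y n : ℕ} (h : DesignOK D isY q y n) (hq : 0 < q) (c : C)
    (l l' : S × Bool) (hl : l ≠ l') : ((D.pairV c l l').card : ℝ) ≤ wn isY q n l l' := by
  have hq' : (0 : ℝ) < q := by exact_mod_cast hq
  have a : ∀ l l', ¬ isY l → isY l' → ((D.pairV c l l').card : ℝ) ≤ n / q + 1 := by
    intro l l' h1 h2
    rw [div_add_one hq'.ne', le_div_iff₀ hq', mul_comm]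
    exact_mod_cast h.pairPY c l l' h1 h2
  unfold wn
  split_ifs with h1 h2
  · have : (D.pairV c l l').card ≤ (D.cls c l).card := by
      refine card_le_card_of_forall_subsingleton (fun v h => D.vert h = v) (fun v hv => ?_)
        fun _ _ _ h _ h' => h.2.symm.trans h'.2
      simp only [HES.pairV, mem_filter, mem_univ, true_and] at hv
      obtain ⟨a1, ⟨x, rfl, a2⟩, -⟩ := hv
      exact ⟨x, by simp [HES.cls, a1, a2], rfl⟩
    exact_mod_cast this.trans (h.cls_le c l)
  · by_cases h3 : isY l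
    · have : D.pairV c l l' = D.pairV c l' l := by
        ext v; simp only [HES.pairV, mem_filter, mem_univ, true_and]; tauto
      rw [this]
      exact a l' l (fun h => h1 ⟨h3, h⟩) h3
    · exact a l l' h3 (h2.resolve_left h3)
  · rw [div_add_one (by positivity), le_div_iff₀ (by positivity), mul_comm]
    exact_mod_cast h.pairPP c l l' hl (fun h => h2 (Or.inl h)) fun h => h2 (Or.inr h)

theorem exists_compIneq (q y : ℕ) (hy : 0 < y) (hq : 1000 * y ^ 2 ≤ q) :
    ∃ κ : ℝ, 0 < κ ∧ ∃ Cq : ℝ, 0 ≤ Cq ∧ ∃ M : ℕ, 0 < M ∧ ∀ (K : ℕ) (η : ℝ), 0 < η →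
      ∃ L₀ : ℕ, ∀ L, L₀ ≤ L → ∀ (V S H : Type) [Fintype V] [Fintype S] [Fintype H]
        (D : HES V S (Fin 5) H) (isY : S × Bool → Prop) (n : ℕ), DesignOK D isY q y n →
        M * (q ^ 2 + q + 1 + y) ^ (2 * L + 4) ≤ n → ∀ j0 : V,
        ∃ rev, D.IsConf rev ∧ D.Girth rev (2 * L) ∧
          CompIneq D rev j0 K L κ (η * L) (Real.log (n + 1)) Cq := by
  have hq0 : 1000 ≤ q := by nlinarith
  have hq1 : (1000 : ℝ) ≤ q := by exact_mod_cast hq0
  set Cb : ℝ := q ^ 2 + 9 * q + 1 + 3 * y with hCb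
  set Cq : ℝ := 7 * Cb + 2 * (11 / (50 * q)) with hCq
  have hCb0 : 0 ≤ Cb := by positivity
  have hCq0 : 0 ≤ Cq := by positivity
  refine ⟨1 / (10 * q), by positivity, Cq, hCq0, 100 * q ^ 2, by positivity, fun K η hη => ?_⟩
  set C1 : ℝ := K * (3 * K ^ 2 + 6 * K + 5) with hC1
  obtain ⟨L₀, hL₀⟩ := ev_lin C1 (C1 * log (K + 2) + Cb + Cq * (4 * K ^ 2 + 1)) η (by positivity) hη
  refine ⟨L₀ + K + 1, fun L hL V S H _ _ _ D isY n hD hn j0 => ?_⟩
  have : NeZero L := ⟨by omega⟩
  set P := (q ^ 2 + q + 1 + y) ^ (2 * L + 4) with hP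
  have hP1 : 2 * (K * L) + 1 ≤ P := by
    have h1 : L < 2 ^ L := Nat.lt_two_pow_self
    calc 2 * (K * L) + 1 ≤ 16 * (2 ^ L * 2 ^ L) := by nlinarith
      _ = 2 ^ (2 * L + 4) := by ring
      _ ≤ P := Nat.pow_le_pow_left (by omega) _
  have hP2 : 100 * P ≤ n := le_trans (Nat.mul_le_mul_right _ (by nlinarith)) hn
  have hn1 : 100 * q ^ 2 ≤ n := le_trans (Nat.le_mul_of_pos_right _ (by omega)) hn
  obtain ⟨m, hm⟩ : ∃ m, m + 2 * (K * L) + P = n := ⟨n - 2 * (K * L) - P, by omega⟩
  have hge : ∀ h, n ≤ (D.cls (D.col (D.vert h)) (D.lett h)).card := fun h => hD.cls_ge _ _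
  have hN := num isY (q := q) (y := y) (n := n) (by exact_mod_cast hy) (by exact_mod_cast hq)
    (by exact_mod_cast hn1) hD.Y_flp
  obtain ⟨rev, h1, h2⟩ := exists_avoid_raw (K := K) (L := L)
    (D.omega_nonempty n (2 * L) hge hD.cls_flp (by rw [hD.card_let]; omega))
    (fun a R t rev => (R.pat t).WF ∧ ∃ η vx, (R.pat t).Real D isY j0 rev η vx ∧
      1 ≤ eps K L a * (m : ℝ) ^ (R.pat t).J.card *
        (R.pat t).wt isY (wm q) (we isY q y) (wn isY q n) (n + 1) fun x => D.lett (η x))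
    (fun a R t => by
      by_cases hw : (R.pat t).WF
      · have := pattern_bound D isY j0 (R.pat t) hw (wm q) (we isY q y) (wn isY q n) (n + 1)
          (fun b => (hN.pm0 b).le) (by simp [wm]) (fun b l => by
            unfold we; split_ifs <;> positivity) (hD.sum_we hy) hN.nb0
          (hD.pair_le (by omega)) (by positivity) (fun c l => by exact_mod_cast hD.cls_le c l)
          n (2 * L) m hge (by
            have : (R.pat t).J.card ≤ K * L := by simpa using card_le_univ (R.pat t).J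
            rw [hD.card_let]; omega) (eps_pos K L a).le
        simp only [hw, true_and]
        convert this
      · simp only [hw, false_and, filter_false, card_empty, Nat.cast_zero]
        exact mul_nonneg (eps_pos K L a).le (Nat.cast_nonneg _))
  simp only [HES.Omega, mem_filter, mem_univ, true_and] at h1
  refine ⟨rev, h1.1, h1.2, compIneq_of_nc h1.1 h1.2 (by positivity) fun c => ?_⟩
  have ha : cn c.exc ≤ K * L := by simpa [cn] using card_le_univ (univ.filter c.exc)
  have hm0 : (0 : ℝ) < m := by exact_mod_cast (by omega : 0 < m)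
  have h3 := c.det j0 hN (eps_pos K L (cn c.exc)) hm0 fun t ht => not_le.mp fun h =>
    h2 _ ha _ (c.raw_mem j0) t ht ⟨c.pat_wf j0 t, c.θ, c.vx, c.pat_real j0 isY t, h⟩
  have h4 : log (n + 1) - log m ≤ 3 / (25 * q) := by
    rw [← log_div (by positivity) hm0.ne']
    refine (log_le_sub_one_of_pos (by positivity)).trans ?_
    rw [div_sub_one hm0.ne', div_le_div_iff₀ hm0 (by positivity)]
    have a1 : (n : ℝ) + 1 - m ≤ 2 * P := by
      have : n + 1 ≤ 2 * P + m := by omega
      have : (n : ℝ) + 1 ≤ 2 * P + m := by exact_mod_cast this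
      linarith
    have a2 : (100 : ℝ) * q ^ 2 * P ≤ n := by exact_mod_cast hn
    have a3 : (0 : ℝ) ≤ P := Nat.cast_nonneg _
    have a4 : (50 * q + 6) * (P : ℝ) ≤ 100 * q ^ 2 * P :=
      mul_le_mul_of_nonneg_right (by nlinarith) a3
    have a5 : (0 : ℝ) ≤ n := Nat.cast_nonneg _
    nlinarith
  have h5 : (1 : ℝ) / (10 * q) ≤ 11 / (50 * q) - (log (n + 1) - log m) := by
    have : (1 : ℝ) / (10 * q) = 11 / (50 * q) - 3 / (25 * q) := by field_simp; norm_num
    linarith
  have h6 := mul_le_mul_of_nonneg_right h5 (Nat.cast_nonneg (cn c.val))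
  have h7 := hL₀ L (by omega)
  have h8 : -log (eps K L (cn c.exc)) =
      (3 * K ^ 2 + 6 * K + 3 + 2 * cn c.exc) * (log (K + 2) + log (L + 2)) := by
    rw [eps, log_inv, neg_neg, log_pow]
    push_cast
    rw [log_mul (by positivity) (by positivity)]
  have hK : (0 : ℝ) ≤ K := Nat.cast_nonneg _
  have h9 : 0 ≤ log (K + 2) + log (L + 2) :=
    add_nonneg (log_nonneg (by linarith)) (log_nonneg (by linarith [Nat.cast_nonneg (α := ℝ) L]))
  rw [h8, ← hCb, ← hCq] at h3
  generalize log ((K : ℝ) + 2) = A at *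
  generalize log ((L : ℝ) + 2) = B at *
  have ha0 : (0 : ℝ) ≤ cn c.exc := Nat.cast_nonneg _
  generalize (cn c.exc : ℝ) = a at *
  have k1 : K * ((3 * K ^ 2 + 6 * K + 3 + 2 * a) * (A + B)) ≤ (a + 1) * (C1 * (A + B)) := by
    rw [← mul_assoc, ← mul_assoc]
    refine mul_le_mul_of_nonneg_right ?_ h9
    have : 0 ≤ a * (K * (3 * K ^ 2 + 6 * K + 3)) := by positivity
    rw [hC1]; nlinarith
  have k2 : Cb + Cq * (4 * K ^ 2 + a) ≤ (a + 1) * (Cb + Cq * (4 * K ^ 2 + 1)) := by
    have : 0 ≤ a * (Cb + Cq * (4 * K ^ 2)) := by positivity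
    nlinarith
  have k3 := mul_le_mul_of_nonneg_left h7 (show 0 ≤ a + 1 by linarith)
  nlinarith

end Crest.Agent.R184
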