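import Crest.Agent.R184.CIDet

/-! Counting the shadows. -/

set_option autoImplicit false
set_option linter.unusedSectionVars false

namespace Crest.Agent.R184.CI

open Finset Classical Lay

variable {K L : ℕ} [NeZero L]

/-- the previous position -/
def prd (x : PE K L) : Option (PE K L) := if (x.2 : ℕ) = 0 then none else some (inE (tl x))

/-- exceptions of a matching -/
def Ex (mu : PE K L → Option (PE K L)) (x : PE K L) : Prop := mu x ≠ ((prd x).bind mu).bind prd

lemma inE_tl_snd (x : PE K L) : ((inE (tl x)).2 : ℕ) = x.2 - 1 :=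
  Nat.mod_eq_of_lt (lt_of_le_of_lt (Nat.sub_le _ _) x.2.2)

lemma prd_eq_some {x y : PE K L} : prd y = some x ↔ hd x = tl y := by
  have := inE_tl_snd y
  unfold prd
  split_ifs with h
  · simp [hd_eq_tl, h]
  · rw [Option.some_inj]
    exact ⟨fun e => e ▸ hd_eq_tl.mpr ⟨rfl, by omega⟩, fun e => by rw [← e, inE_hd]⟩

lemma card_mu (b : ℕ) : cn (fun mu : PE K L → Option (PE K L) => cn (Ex mu) ≤ b) ≤
    (K * L * (K * L + 1) + 1) ^ b := by
  refine (cn_le_of_inj (q := fun _ : Fin b → Option (PE K L × Option (PE K L)) => True)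
    (fun mu f => ∀ z : PE K L × Option (PE K L), (∃ i, f i = some z) ↔ Ex mu z.1 ∧ z.2 = mu z.1)
    (fun mu h => ?_) fun mu mu' f h h' => ?_).trans (by simp [cn])
  · set l := ((univ.filter (Ex mu)).image fun x => (x, mu x)).toList with hl
    have h1 : l.length ≤ b := by
      rw [hl, length_toList]; exact card_image_le.trans h
    refine ⟨fun i => l[(i : ℕ)]?, trivial, fun z => ?_⟩
    have h2 : z ∈ l ↔ Ex mu z.1 ∧ z.2 = mu z.1 := by
      simp only [hl, mem_toList, mem_image, mem_filter, mem_univ, true_and]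
      exact ⟨fun ⟨x, h1, h2⟩ => h2 ▸ ⟨h1, rfl⟩, fun h => ⟨z.1, h.1, Prod.ext rfl h.2.symm⟩⟩
    rw [← h2, List.mem_iff_getElem?]
    refine ⟨fun ⟨i, hi⟩ => ⟨i, hi⟩, fun ⟨i, hi⟩ => ⟨⟨i, ?_⟩, hi⟩⟩
    exact lt_of_lt_of_le (List.getElem?_eq_some_iff.mp hi).1 h1
  · have : ∀ n (x : PE K L), (x.2 : ℕ) = n → mu x = mu' x := by
      intro n
      induction n using Nat.strong_induction_on with
      | _ n ih =>
        intro x hx
        by_cases h1 : Ex mu x
        · exact ((h' (x, mu x)).mp ((h (x, mu x)).mpr ⟨h1, rfl⟩)).2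
        · by_cases h2 : Ex mu' x
          · exact ((h (x, mu' x)).mp ((h' (x, mu' x)).mpr ⟨h2, rfl⟩)).2.symm
          · rw [not_not.mp h1, not_not.mp h2]
            rcases e : prd x with _ | y
            · rfl
            · have := (hd_eq_tl.mp (prd_eq_some.mp e)).2
              simp only [Option.bind_some]
              rw [ih y.2 (by omega) y rfl]
    exact funext fun x => this _ x rfl

/-- the possible shadows -/
noncomputable def Raws (K L : ℕ) [NeZero L] (b : ℕ) : Finset (Raw K L) :=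
  ((univ : Finset (Fin K → Fin K → OV L)) ×ˢ
    (univ.filter fun mu : PE K L → Option (PE K L) => cn (Ex mu) ≤ b) ×ˢ
    (univ : Finset ((Fin K → Fin 5) × Option (PV K L)))).image fun z =>
      ⟨fun u u' => ovd (z.1 u.1 u'.1) u.2 u'.2, z.2.1, z.2.2.1, z.2.2.2⟩

lemma card_Raws (a : ℕ) : #(Raws K L (a + 2 * K)) * K * (K * L + 2) ≤
    ((K + 2) * (L + 2)) ^ (3 * K ^ 2 + 6 * K + 3 + 2 * a) := by
  set T := (K + 2) * (L + 2) with hT
  have h1 := card_mu (K := K) (L := L) (a + 2 * K)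
  rw [cn_eq] at h1
  have h2 : #(Raws K L (a + 2 * K)) ≤ (T ^ 3) ^ (K ^ 2) * ((T ^ 2) ^ (a + 2 * K) *
      ((T ^ 2) ^ K * T)) := by
    refine card_image_le.trans ?_
    rw [card_product, card_product]
    have t1 : 2 * (L + 1) ≤ T := by nlinarith
    have t2 : K * L + 1 ≤ T := by nlinarith
    have t3 : 4 ≤ T := by nlinarith
    refine Nat.mul_le_mul ?_ (Nat.mul_le_mul (h1.trans (Nat.pow_le_pow_left ?_ _)) ?_)
    · simp only [card_univ, Fintype.card_fun, Fintype.card_prod, Fintype.card_fin,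
        Fintype.card_bool]
      rw [← pow_mul, ← sq]
      refine Nat.pow_le_pow_left (le_trans ?_ (Nat.pow_le_pow_left t1 3)) _
      nlinarith [Nat.zero_le ((L + 1) ^ 3)]
    · exact le_trans (by nlinarith [Nat.zero_le (K * L)]) (Nat.pow_le_pow_left t2 2)
    · simp only [card_univ, Fintype.card_fun, Fintype.card_prod, Fintype.card_fin,
        Fintype.card_option]
      exact Nat.mul_le_mul (Nat.pow_le_pow_left (by nlinarith) _) (by nlinarith)
  calc _ ≤ (T ^ 3) ^ (K ^ 2) * ((T ^ 2) ^ (a + 2 * K) * ((T ^ 2) ^ K * T)) * T * T :=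
        Nat.mul_le_mul (Nat.mul_le_mul h2 (by nlinarith)) (by nlinarith)
    _ = _ := by generalize T = T'; ring

lemma NC.raw_mem {V S H : Type} {D : HES V S (Fin 5) H} {rev : H → H} (c : NC D rev K L)
    (j0 : V) : c.raw j0 ∈ Raws K L (cn c.exc + 2 * K) := by
  obtain ⟨ov, h, -⟩ := c.exists_ov j0
  refine mem_image.mpr ⟨(ov, c.mu, (c.raw j0).colr, (c.raw j0).root), ?_, ?_⟩
  · simp only [mem_product, mem_univ, mem_filter, true_and, and_true]
    have hK : cn (fun _ : Fin K => True) = K := by simp [cn]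
    have h1 : cn (fun x : PE K L => (x.2 : ℕ) = 0) ≤ cn fun _ : Fin K => True :=
      cn_le_of_inj (fun x k => x.1 = k ∧ (x.2 : ℕ) = 0) (fun x h => ⟨_, trivial, rfl, h⟩)
        fun _ _ _ h h' => pe_ext (h.1.trans h'.1.symm) (h.2.trans h'.2.symm)
    have h2 : cn (fun y : PE K L => ¬ c.val y ∧ ∃ x, c.val x ∧ hd x = tl y) ≤
        cn fun _ : Fin K => True := by
      refine cn_le_of_inj (fun y k => y.1 = k ∧ ¬ c.val y ∧ ∃ x, c.val x ∧ hd x = tl y)
        (fun x h => ⟨_, trivial, rfl, h⟩) ?_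
      rintro y y' _ ⟨rfl, a1, x, a2, a3⟩ ⟨b0, b1, x', b2, b3⟩
      rw [hd_eq_tl] at a3 b3
      have c1 := mt (c.val_mono a2 (y := y') (b0.trans a3.1.symm)) b1
      have c2 := mt (c.val_mono b2 (y := y) (b0.symm.trans b3.1.symm)) a1
      exact pe_ext b0.symm (by omega)
    have h3 : cn (fun y : PE K L => ∃ x, c.exc x ∧ hd x = tl y) ≤ cn c.exc :=
      cn_le_of_inj (fun y x => hd x = tl y) (fun _ h => h) fun _ _ _ h h' => tl_inj (h.symm.trans h')
    have h4 : cn (Ex c.mu) ≤ _ := (cn_or_le (q := fun x : PE K L => (x.2 : ℕ) = 0)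
      (r := fun y => Ex c.mu y ∧ (y.2 : ℕ) ≠ 0) fun x hx => by tauto).trans (Nat.add_le_add_left
      (cn_or_le (q := fun y : PE K L => ¬ c.val y ∧ ∃ x, c.val x ∧ hd x = tl y)
        (r := fun y : PE K L => ∃ x, c.exc x ∧ hd x = tl y) fun y hy => by
          have e : prd y = some (inE (tl y)) := if_neg hy.2
          have e' := prd_eq_some.mp e
          have h5 := hy.1
          rw [Ex, e, Option.bind_some] at h5
          by_cases hv : c.val y
          · refine Or.inr ⟨_, ⟨y, hv, e', ?_⟩, e'⟩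
            rintro (⟨a, b⟩ | ⟨x', y', a, b, d⟩)
            · exact h5 (by rw [a, b]; rfl)
            · exact h5 (by rw [a, b, Option.bind_some, prd_eq_some.mpr d])
          · refine Or.inl ⟨hv, _, ?_, e'⟩
            rcases a : c.mu (inE (tl y)) with _ | z
            · rcases b : c.mu y with _ | z
              · exact absurd (by rw [a, b]; rfl) h5
              · exact absurd (c.mu_val _ _ b) hv
            · exact c.mu_val _ _ a) _)
    omega
  · have : (fun u u' : PV K L => ovd (ov u.1 u'.1) u.2 u'.2) = (c.raw j0).ev :=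
      funext fun u => funext fun u' => propext (h u u').symm
    simp only [this]
    rfl

lemma exists_avoid {X ι : Type} {Ω : Finset X} (hΩ : Ω.Nonempty) (s : Finset ι) (B : ι → X → Prop)
    (ε : ι → ℝ) (hB : ∀ i ∈ s, (#{x ∈ Ω | B i x} : ℝ) ≤ ε i * #Ω) (hs : ∑ i ∈ s, ε i < 1) :
    ∃ x ∈ Ω, ∀ i ∈ s, ¬ B i x := by
  by_contra hn
  push Not at hn
  have h1 : #Ω ≤ ∑ i ∈ s, #{x ∈ Ω | B i x} :=
    le_trans (card_le_card fun x hx => by
      obtain ⟨i, h1, h2⟩ := hn x hx
      exact mem_biUnion.mpr ⟨i, h1, mem_filter.mpr ⟨hx, h2⟩⟩) card_biUnion_le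
  have h2 : (#Ω : ℝ) ≤ (∑ i ∈ s, ε i) * #Ω := by
    rw [sum_mul]
    exact le_trans (by exact_mod_cast h1) (sum_le_sum hB)
  have h3 : (0 : ℝ) < #Ω := by exact_mod_cast hΩ.card_pos
  nlinarith

/-- the probabilities -/
noncomputable def eps (K L a : ℕ) : ℝ :=
  ((((K + 2) * (L + 2) : ℕ) : ℝ) ^ (3 * K ^ 2 + 6 * K + 3 + 2 * a))⁻¹

lemma eps_pos (K L a : ℕ) : 0 < eps K L a := by unfold eps; positivity

lemma exists_avoid_raw {X : Type} {Ω : Finset X} (hΩ : Ω.Nonempty)
    (B : ℕ → Raw K L → ℕ → X → Prop)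
    (hB : ∀ a R t, (#{x ∈ Ω | B a R t x} : ℝ) ≤ eps K L a * #Ω) :
    ∃ x ∈ Ω, ∀ a ≤ K * L, ∀ R ∈ Raws K L (a + 2 * K), ∀ t ∈ Icc 1 K, ¬ B a R t x := by
  obtain ⟨x, h1, h2⟩ := exists_avoid hΩ
    ((range (K * L + 1)).sigma fun a => Raws K L (a + 2 * K) ×ˢ Icc 1 K)
    (fun i => B i.1 i.2.1 i.2.2) (fun i => eps K L i.1) (fun i _ => hB _ _ _) (by
      rw [sum_sigma]
      have : ∀ a ∈ range (K * L + 1), ∑ _z ∈ Raws K L (a + 2 * K) ×ˢ Icc 1 K, eps K L a ≤
          ((K * L + 2 : ℕ) : ℝ)⁻¹ := by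
        intro a _
        rw [sum_const, card_product, Nat.card_Icc, add_tsub_cancel_right, nsmul_eq_mul, eps,
          ← div_eq_mul_inv, ← one_div, div_le_div_iff₀ (by positivity) (by positivity), one_mul]
        exact_mod_cast card_Raws a
      refine (sum_le_sum this).trans_lt ?_
      rw [sum_const, card_range, nsmul_eq_mul, ← div_eq_mul_inv, div_lt_one (by positivity)]
      exact_mod_cast Nat.lt_succ_self _)
  exact ⟨x, h1, fun a ha R hR t ht => h2 ⟨a, R, t⟩
    (mem_sigma.mpr ⟨mem_range.mpr (Nat.lt_succ_of_le ha), mem_product.mpr ⟨hR, ht⟩⟩)⟩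

end Crest.Agent.R184.CI
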