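import Crest.Agent.R184.CILayer

/-! Normalised pieces, their combinatorial shadow, and the patterns of the layers. -/

set_option autoImplicit false
set_option linter.unusedSectionVars false

namespace Crest.Agent.R184.CI

open Finset Classical Lay

/-- edge positions -/
abbrev PE (K L : ℕ) : Type := Fin K × Fin L
/-- vertex positions -/
abbrev PV (K L : ℕ) : Type := Fin K × Fin (L + 1)

variable {K L : ℕ}

/-- tail -/
def tl (x : PE K L) : PV K L := (x.1, x.2.castSucc)
/-- head -/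
def hd (x : PE K L) : PV K L := (x.1, x.2.succ)
/-- incoming edge -/
def inE [NeZero L] (u : PV K L) : PE K L := (u.1, Fin.ofNat L (u.2 - 1))
/-- outgoing edge -/
def outE [NeZero L] (u : PV K L) : PE K L := (u.1, Fin.ofNat L u.2)

@[simp] lemma tl_fst (x : PE K L) : (tl x).1 = x.1 := rfl
@[simp] lemma hd_fst (x : PE K L) : (hd x).1 = x.1 := rfl
@[simp] lemma tl_snd (x : PE K L) : ((tl x).2 : ℕ) = x.2 := rfl
@[simp] lemma hd_snd (x : PE K L) : ((hd x).2 : ℕ) = x.2 + 1 := rfl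
@[simp] lemma inE_fst [NeZero L] (u : PV K L) : (inE u).1 = u.1 := rfl
@[simp] lemma outE_fst [NeZero L] (u : PV K L) : (outE u).1 = u.1 := rfl

lemma pe_ext {x y : PE K L} (h1 : x.1 = y.1) (h2 : (x.2 : ℕ) = y.2) : x = y :=
  Prod.ext h1 (Fin.ext h2)

lemma pv_ext {x y : PV K L} (h1 : x.1 = y.1) (h2 : (x.2 : ℕ) = y.2) : x = y :=
  Prod.ext h1 (Fin.ext h2)

lemma tl_inj : Function.Injective (tl : PE K L → PV K L) := fun x y h =>
  pe_ext (congr_arg (fun u : PV K L => u.1) h) (by simpa using congr_arg (fun u : PV K L => (u.2 : ℕ)) h)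

lemma hd_inj : Function.Injective (hd : PE K L → PV K L) := fun x y h =>
  pe_ext (congr_arg (fun u : PV K L => u.1) h) (by simpa using congr_arg (fun u : PV K L => (u.2 : ℕ)) h)

lemma hd_eq_tl {x y : PE K L} : hd x = tl y ↔ x.1 = y.1 ∧ (x.2 : ℕ) + 1 = y.2 :=
  ⟨fun h => ⟨congr_arg (fun u : PV K L => u.1) h, congr_arg (fun u : PV K L => (u.2 : ℕ)) h⟩,
    fun h => pv_ext h.1 h.2⟩

@[simp] lemma inE_hd [NeZero L] (x : PE K L) : inE (hd x) = x :=
  pe_ext rfl (by simp [inE])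

@[simp] lemma outE_tl [NeZero L] (x : PE K L) : outE (tl x) = x :=
  pe_ext rfl (by simp [outE])

/-- the combinatorial shadow of a piece -/
structure Raw (K L : ℕ) where
  ev : PV K L → PV K L → Prop
  mu : PE K L → Option (PE K L)
  colr : Fin K → Fin 5
  root : Option (PV K L)

namespace Raw

variable [NeZero L] (R : Raw K L)

/-- valid edges -/
def val (x : PE K L) : Prop := R.ev (hd x) (hd x)

/-- equal edges -/
def eqE (x y : PE K L) : Prop :=
  (R.ev (tl x) (tl y) ∧ R.ev (hd x) (hd y)) ∨ (R.ev (tl x) (hd y) ∧ R.ev (hd x) (tl y))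

/-- interior vertices -/
def Inn (u : PV K L) : Prop := hd (inE u) = u ∧ tl (outE u) = u ∧ R.val (outE u)

/-- regular vertices -/
def Reg (u : PV K L) : Prop :=
  R.ev u u ∧ ∀ u', R.ev u u' → R.Inn u' ∧
    ((R.ev (tl (inE u')) (tl (inE u)) ∧ R.ev (hd (outE u')) (hd (outE u))) ∨
      (R.ev (tl (inE u')) (hd (outE u)) ∧ R.ev (hd (outE u')) (tl (inE u))))

/-- matched vertices -/
def Good (u u' : PV K L) : Prop :=
  R.Reg u ∧ R.Reg u' ∧ R.mu (inE u) = some (outE u') ∧ R.mu (outE u) = some (inE u')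

/-- good vertices -/
def Gd (u : PV K L) : Prop := ∃ u', R.Good u u'

/-- the partner of a vertex -/
noncomputable def nuV (u : PV K L) : Option (PV K L) :=
  if R.Gd u then (R.mu (inE u)).map tl else none

/-- the partner of an edge -/
noncomputable def nuE (x : PE K L) : Option (PE K L) :=
  if R.Gd (tl x) ∧ R.Gd (hd x) then R.mu x else none

/-- the half of (the representative of) `x` at `w` -/
noncomputable def half (x : PE K L) (w : PV K L) : PE K L × Bool :=
  (rep R.eqE x, decide (R.ev (hd (rep R.eqE x)) w))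

/-- the pattern of the layer `t` -/
noncomputable def pat (t : ℕ) : Pat (PE K L) (PV K L) (Fin 5) where
  J := lay R.eqE t R.val
  W := (lay R.eqE t R.val).image (fun x => rep R.ev (tl x)) ∪
    (lay R.eqE t R.val).image fun x => rep R.ev (hd x)
  tv x := rep R.ev (tl x)
  hv x := rep R.ev (hd x)
  colr w := R.colr w.1
  Rg := lay R.ev t R.Reg
  RT := if t = 1 then (R.root.map (rep R.ev)).toFinset else ∅
  h1 w := R.half (inE w) w
  h2 w := R.half (outE w) w
  FE := lay R.eqE t fun x => R.val x ∧ ¬ Con R.eqE R.nuE x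
  FV := lay R.ev t fun u => R.Reg u ∧ ¬ Con R.ev R.nuV u
  pE x := (rep R.eqE (wit R.eqE R.nuE x).2,
    decide (R.ev (tl x) (tl (wit R.eqE R.nuE x).1) ↔
      R.ev (tl (wit R.eqE R.nuE x).2) (tl (rep R.eqE (wit R.eqE R.nuE x).2))))
  pV w := rep R.ev (wit R.ev R.nuV w).2
  rkE := rank R.eqE
  rkV := rank R.ev

lemma nuV_eq_some {u u' : PV K L} : R.nuV u = some u' ↔ R.Good u u' := by
  unfold nuV
  constructor
  · intro h
    split_ifs at h with hg
    obtain ⟨v, hv⟩ := hg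
    rw [hv.2.2.1] at h
    obtain rfl : tl (outE v) = u' := by simpa using h
    rwa [(hv.2.1.2 v hv.2.1.1).1.2.1]
  · intro h
    rw [if_pos ⟨u', h⟩, h.2.2.1, Option.map_some, (h.2.1.2 u' h.2.1.1).1.2.1]

lemma nuV_eq_none {u : PV K L} : R.nuV u = none ↔ ¬ R.Gd u := by
  constructor
  · rintro h ⟨u', hu⟩
    rw [R.nuV_eq_some.mpr hu] at h; cases h
  · intro h; simp [nuV, h]

lemma Reg.inn {R : Raw K L} {u : PV K L} (h : R.Reg u) : R.Inn u := (h.2 u h.1).1

lemma good_of_nuE {x y : PE K L} (h : R.nuE x = some y) :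
    R.mu x = some y ∧ R.Good (tl x) (hd y) ∧ R.Good (hd x) (tl y) := by
  unfold nuE at h
  split_ifs at h with hg
  obtain ⟨⟨u, hu⟩, u', hu'⟩ := hg
  have h1 := hu.2.2.2
  have h2 := hu'.2.2.1
  rw [outE_tl, h] at h1
  rw [inE_hd, h] at h2
  refine ⟨h, ?_, ?_⟩
  · rwa [Option.some.inj h1, hu.2.1.inn.1]
  · rwa [Option.some.inj h2, hu'.2.1.inn.2.1]

lemma nuE_ne_none {x : PE K L} (h1 : R.Gd (tl x)) (h2 : R.Gd (hd x)) : R.nuE x ≠ none := by
  obtain ⟨u, hu⟩ := h1
  have := hu.2.2.2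
  rw [outE_tl] at this
  rw [nuE, if_pos ⟨⟨u, hu⟩, h2⟩, this]; simp

lemma eqE_per (h : PER R.ev) : PER R.eqE where
  symm := by
    rintro x y (⟨h1, h2⟩ | ⟨h1, h2⟩)
    · exact Or.inl ⟨h.symm h1, h.symm h2⟩
    · exact Or.inr ⟨h.symm h2, h.symm h1⟩
  trans := by
    rintro x y z (⟨h1, h2⟩ | ⟨h1, h2⟩) (⟨h3, h4⟩ | ⟨h3, h4⟩)
    · exact Or.inl ⟨h.trans h1 h3, h.trans h2 h4⟩
    · exact Or.inr ⟨h.trans h1 h3, h.trans h2 h4⟩
    · exact Or.inr ⟨h.trans h1 h4, h.trans h2 h3⟩
    · exact Or.inl ⟨h.trans h1 h4, h.trans h2 h3⟩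

lemma Reg.of_ev {R : Raw K L} (h : PER R.ev) {u v : PV K L} (hu : R.Reg u) (huv : R.ev u v) :
    R.Reg v := by
  refine ⟨h.right huv, fun w hw => ⟨(hu.2 w (h.trans huv hw)).1, ?_⟩⟩
  rcases (hu.2 v huv).2 with ⟨h1, h2⟩ | ⟨h1, h2⟩ <;>
    rcases (hu.2 w (h.trans huv hw)).2 with ⟨h3, h4⟩ | ⟨h3, h4⟩
  · exact Or.inl ⟨h.trans h3 (h.symm h1), h.trans h4 (h.symm h2)⟩
  · exact Or.inr ⟨h.trans h3 (h.symm h2), h.trans h4 (h.symm h1)⟩
  · exact Or.inr ⟨h.trans h3 (h.symm h2), h.trans h4 (h.symm h1)⟩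
  · exact Or.inl ⟨h.trans h3 (h.symm h1), h.trans h4 (h.symm h2)⟩

end Raw

/-- normalised pieces -/
structure NC {V S H : Type} (D : HES V S (Fin 5) H) (rev : H → H) (K L : ℕ) where
  conf : D.IsConf rev
  girth : D.Girth rev (2 * L)
  val : PE K L → Prop
  θ : PE K L → H
  nx : PE K L → Option (PE K L)
  mu : PE K L → Option (PE K L)
  nx_val : ∀ x y, nx x = some y → val y
  nx_inj : ∀ x x' y, nx x = some y → nx x' = some y → x = x'
  nx_spec : ∀ x y, nx x = some y → D.vert (θ y) = D.vert (rev (θ x)) ∧ θ y ≠ rev (θ x)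
  prev : ∀ x y, val y → hd x = tl y → val x ∧ nx x = some y
  mu_val : ∀ x y, mu x = some y → val x
  mu_symm : ∀ x y, mu x = some y → mu y = some x
  mu_spec : ∀ x y, mu x = some y → D.lett (θ y) = flp (D.lett (θ x)) ∧ θ y ≠ rev (θ x)

namespace NC

variable {V S H : Type} {D : HES V S (Fin 5) H} {rev : H → H} (c : NC D rev K L)

/-- exceptional positions -/
def exc (x : PE K L) : Prop :=
  ∃ y, c.val y ∧ hd x = tl y ∧ ¬ ((c.mu x = none ∧ c.mu y = none) ∨
    ∃ x' y', c.mu x = some x' ∧ c.mu y = some y' ∧ hd y' = tl x')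

/-- valid vertices -/
def valid (u : PV K L) : Prop := ∃ x, c.val x ∧ (tl x = u ∨ hd x = u)

variable [NeZero L]

/-- the vertex at a position -/
def vx (u : PV K L) : V :=
  if (u.2 : ℕ) = 0 then D.vert (c.θ (outE u)) else D.vert (rev (c.θ (inE u)))

/-- the shadow -/
noncomputable def raw (j0 : V) : Raw K L where
  ev u u' := c.valid u ∧ c.valid u' ∧ c.vx u = c.vx u'
  mu := c.mu
  colr k := D.col (c.vx (k, 0))
  root := if h : ∃ x, c.val x ∧ D.vert (c.θ x) = j0 then some (tl h.choose) else none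

end NC

/-- counting -/
noncomputable def cn {X : Type} [Fintype X] (p : X → Prop) : ℕ := #(univ.filter p)

lemma cn_eq {X : Type} [Fintype X] (p : X → Prop) [DecidablePred p] : cn p = #(univ.filter p) := by
  unfold cn; convert rfl

/-- the inequality for normalised pieces -/
def NCIneq {V S H : Type} (D : HES V S (Fin 5) H) (rev : H → H) (j0 : V) (K L : ℕ)
    (κ X Λ Cq : ℝ) : Prop :=
  ∀ c : NC D rev K L,
    κ * cn c.val + (if ∃ x, c.val x ∧ D.vert (c.θ x) = j0 then Λ else 0) ≤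
      X * (cn c.exc + 1) + Λ * cn (fun x => c.val x ∧ c.nx x = none) +
        Cq * cn fun x => c.val x ∧ c.mu x = none

theorem compIneq_of_nc {V S H : Type} {D : HES V S (Fin 5) H} {rev : H → H} {j0 : V}
    {κ X Λ Cq : ℝ} (hc : D.IsConf rev) (hg : D.Girth rev (2 * L)) (hX : 0 ≤ X)
    (h : NCIneq D rev j0 K L κ X Λ Cq) : CompIneq D rev j0 K L κ X Λ Cq := by
  intro I _ c
  rcases isEmpty_or_nonempty I with hI | hI
  · simpa using hX
  set e : I → PE K L := fun t => (c.cell t, c.idx t) with he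
  have hei : Function.Injective e := fun t t' h =>
    c.inj t t' (congr_arg Prod.fst h) (congr_arg Prod.snd h)
  set ι := Function.invFun e with hι
  have hιe : ∀ t, ι (e t) = t := Function.leftInverse_invFun hei
  have hsucc : ∀ t s, hd (e t) = tl (e s) ↔ c.succ t s := fun t s => hd_eq_tl
  have key : ∀ (f : I → Option I) (x y : PE K L),
      (if x ∈ Set.range e then (f (ι x)).map e else none) = some y ↔
        ∃ t s, e t = x ∧ e s = y ∧ f t = some s := by
    intro f x y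
    constructor
    · intro h
      split_ifs at h with hx
      obtain ⟨t, rfl⟩ := hx
      rw [hιe] at h
      obtain ⟨s, h1, h2⟩ := Option.map_eq_some_iff.mp h
      exact ⟨t, s, rfl, h2, h1⟩
    · rintro ⟨t, s, rfl, rfl, h⟩
      rw [if_pos ⟨t, rfl⟩, hιe, h]; rfl
  have key0 : ∀ (f : I → Option I) (t : I),
      (if e t ∈ Set.range e then (f (ι (e t))).map e else none) = none ↔ f t = none := by
    intro f t
    rw [if_pos ⟨t, rfl⟩, hιe, Option.map_eq_none_iff]
  let c' : NC D rev K L :=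
    { conf := hc
      girth := hg
      val := fun x => x ∈ Set.range e
      θ := fun x => c.θ (ι x)
      nx := fun x => if x ∈ Set.range e then (c.nx (ι x)).map e else none
      mu := fun x => if x ∈ Set.range e then (c.mu (ι x)).map e else none
      nx_val := fun x y h => by
        obtain ⟨t, s, -, rfl, -⟩ := (key _ _ _).mp h; exact ⟨s, rfl⟩
      nx_inj := fun x x' y h h' => by
        obtain ⟨t, s, rfl, rfl, h1⟩ := (key _ _ _).mp h
        obtain ⟨t', s', rfl, h2, h3⟩ := (key _ _ _).mp h'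
        rw [hei h2] at h3
        rw [c.nx_inj _ _ _ h1 h3]
      nx_spec := fun x y h => by
        obtain ⟨t, s, rfl, rfl, h1⟩ := (key _ _ _).mp h
        simpa [hιe] using c.nx_spec _ _ h1
      prev := by
        rintro x _ ⟨s, rfl⟩ h
        rw [hd_eq_tl] at h
        obtain ⟨t, h1, h2, h3⟩ := c.prev s (by have := h.2; simp only [he] at this; omega)
        obtain rfl : e t = x := pe_ext (h1.trans h.1.symm) (by
          have := h.2; simp only [he] at this ⊢; omega)
        exact ⟨⟨t, rfl⟩, (key _ _ _).mpr ⟨t, s, rfl, rfl, h3⟩⟩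
      mu_val := fun x y h => by
        obtain ⟨t, s, rfl, -, -⟩ := (key _ _ _).mp h; exact ⟨t, rfl⟩
      mu_symm := fun x y h => by
        obtain ⟨t, s, rfl, rfl, h1⟩ := (key _ _ _).mp h
        exact (key _ _ _).mpr ⟨s, t, rfl, rfl, c.mu_symm _ _ h1⟩
      mu_spec := fun x y h => by
        obtain ⟨t, s, rfl, rfl, h1⟩ := (key _ _ _).mp h
        simpa [hιe] using c.mu_spec _ _ h1 }
  have cnt : ∀ (p : I → Prop) (p' : PE K L → Prop), (∀ x, p' x → x ∈ Set.range e) →
      (∀ t, p' (e t) ↔ p t) → cn p' = cn p := by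
    intro p p' h1 h2
    unfold cn
    rw [← card_image_of_injective (univ.filter p) hei]
    congr 1
    ext x
    simp only [mem_filter, mem_univ, true_and, mem_image]
    constructor
    · intro hx
      obtain ⟨t, rfl⟩ := h1 x hx
      exact ⟨t, (h2 t).mp hx, rfl⟩
    · rintro ⟨t, ht, rfl⟩; exact (h2 t).mpr ht
  have e1 : cn c'.val = Fintype.card I := by
    rw [cnt (fun _ => True) c'.val (fun x hx => hx) fun t => by simp [c']]
    simp [cn]
  have e2 : (∃ x, c'.val x ∧ D.vert (c'.θ x) = j0) ↔ ∃ t, D.vert (c.θ t) = j0 := by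
    constructor
    · rintro ⟨x, -, h⟩; exact ⟨_, h⟩
    · rintro ⟨t, h⟩; exact ⟨e t, ⟨t, rfl⟩, by simpa [c', hιe] using h⟩
  have e3 : cn c'.exc = cn c.exc := by
    refine cnt c.exc c'.exc (fun x hx => ?_) fun t => ?_
    · obtain ⟨y, h1, h2, -⟩ := hx
      exact (c'.prev x y h1 h2).1
    · have aux : ∀ s, ((c'.mu (e t) = none ∧ c'.mu (e s) = none) ∨
          ∃ x' y', c'.mu (e t) = some x' ∧ c'.mu (e s) = some y' ∧ hd y' = tl x') ↔
          ((c.mu t = none ∧ c.mu s = none) ∨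
          ∃ t' s', c.mu t = some t' ∧ c.mu s = some s' ∧ c.succ s' t') := by
        intro s
        refine or_congr (and_congr (key0 _ _) (key0 _ _)) ⟨?_, ?_⟩
        · rintro ⟨x', y', h1, h2, h3⟩
          obtain ⟨a, b, e1, rfl, h4⟩ := (key _ _ _).mp h1
          obtain ⟨a', b', e2, rfl, h5⟩ := (key _ _ _).mp h2
          rw [hei e1] at h4
          rw [hei e2] at h5
          exact ⟨b, b', h4, h5, (hsucc _ _).mp h3⟩
        · rintro ⟨a, b, h1, h2, h3⟩
          exact ⟨e a, e b, (key _ _ _).mpr ⟨_, _, rfl, rfl, h1⟩,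
            (key _ _ _).mpr ⟨_, _, rfl, rfl, h2⟩, (hsucc _ _).mpr h3⟩
      constructor
      · rintro ⟨_, ⟨s, rfl⟩, h2, h3⟩
        exact ⟨s, (hsucc _ _).mp h2, fun h => h3 ((aux s).mpr h)⟩
      · rintro ⟨s, h2, h3⟩
        exact ⟨e s, ⟨s, rfl⟩, (hsucc _ _).mpr h2, fun h => h3 ((aux s).mp h)⟩
  have e4 := cnt (fun t => c.nx t = none) (fun x => c'.val x ∧ c'.nx x = none) (fun x hx => hx.1)
      fun t => ⟨fun h => (key0 _ _).mp h.2, fun h => ⟨⟨t, rfl⟩, (key0 _ _).mpr h⟩⟩
  have e5 := cnt (fun t => c.mu t = none) (fun x => c'.val x ∧ c'.mu x = none) (fun x hx => hx.1)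
      fun t => ⟨fun h => (key0 _ _).mp h.2, fun h => ⟨⟨t, rfl⟩, (key0 _ _).mpr h⟩⟩
  have := h c'
  rw [e1, e3, e4, e5, cn_eq, cn_eq, cn_eq] at this
  simp only [e2] at this
  convert this

end Crest.Agent.R184.CI
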