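import Crest.Agent.R184.CIReal

/-! The deterministic inequality. -/

set_option autoImplicit false
set_option linter.unusedSectionVars false

namespace Crest.Agent.R184.CI

open Finset Classical Lay Real

/-- the numerical properties of the weights -/
structure Num {S : Type} (isY : S × Bool → Prop) (pm : Bool → ℝ) (pe : Bool → S × Bool → ℝ)
    (nb : S × Bool → S × Bool → ℝ) (nh : ℝ) (shr : S × Bool → S × Bool → ℝ) (κ Cb : ℝ) :
    Prop where
  nh1 : 1 ≤ nh
  nb0 : ∀ l l', 0 < nb l l'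
  nb_symm : ∀ l l', nb l l' = nb l' l
  sav_le : ∀ l l', log nh - log (nb l l') ≤ Cb
  sav_ge : ∀ l l', 0 ≤ log nh - log (nb l l')
  pm0 : ∀ b, 0 < pm b
  pm1 : ∀ b, log (pm b) ≤ 0
  pmC : ∀ b, -log (pm b) ≤ Cb
  pe0 : ∀ b l, (b = true → isY l ∨ isY (flp l)) → 0 < pe b l
  pe1 : ∀ b l, log (pe b l) ≤ 0
  peC : ∀ b l, -log (pe b l) ≤ Cb
  pe_flp : ∀ b l, pe b (flp l) = pe b l
  vtx : ∀ l l', shr l l' + shr l' l ≤
    log nh - log (nb l l') + log (pm (decide (isY l ∧ isY l'))) / 2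
  edge : ∀ l l1 l2, κ ≤ shr (flp l) l2 + shr l l1 +
    log (pe (decide ((isY l1 ∧ isY l) ∨ (isY (flp l) ∧ isY l2))) l) / 2
  shr_ge : ∀ l l', -Cb ≤ shr l l'
  κ0 : 0 ≤ κ
  Cb0 : 0 ≤ Cb

lemma cn_real {X : Type} [Fintype X] (p : X → Prop) :
    (cn p : ℝ) = ∑ x, if p x then (1 : ℝ) else 0 := by
  simp [cn]

lemma cn_le_of_inj {X Y : Type} [Fintype X] [Fintype Y] {p : X → Prop} {q : Y → Prop}
    (r : X → Y → Prop) (h1 : ∀ x, p x → ∃ y, q y ∧ r x y)
    (h2 : ∀ x x' y, r x y → r x' y → x = x') : cn p ≤ cn q := by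
  choose f hf using h1
  unfold cn
  refine card_le_card_of_forall_subsingleton r (fun x hx => ?_) fun y _ x hx x' hx' =>
    h2 x x' y hx.2 hx'.2
  have hx := (mem_filter.mp hx).2
  exact ⟨f x hx, mem_filter.mpr ⟨mem_univ _, (hf x hx).1⟩, (hf x hx).2⟩

lemma cn_or_le {X : Type} [Fintype X] {p q r : X → Prop} (h : ∀ x, p x → q x ∨ r x) :
    cn p ≤ cn q + cn r := by
  unfold cn
  refine le_trans (card_le_card fun x hx => ?_) (card_union_le _ _)
  simpa using h x (by simpa using hx)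

lemma sum_cn_fiber {X Y : Type} [Fintype X] [Fintype Y] (p : X → Prop) (g : X → Y) :
    ∑ y, cn (fun x => p x ∧ g x = y) = cn p := by
  unfold cn
  rw [card_eq_sum_card_fiberwise (f := g) (t := univ) (fun _ _ => mem_coe.mpr (mem_univ _))]
  refine sum_congr rfl fun y _ => ?_
  rw [filter_filter]
  convert rfl

namespace NC

variable {K L : ℕ} [NeZero L] {V S H : Type} {D : HES V S (Fin 5) H} {rev : H → H}
  (c : NC D rev K L) (j0 : V)

lemma class_le {w : PV K L} (hw : Rep (c.raw j0).ev w) {h : H} (e : D.vert h = c.vx w) :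
    cn (fun y => c.val y ∧ (c.θ y = h ∨ c.θ y = rev h)) ≤
      cn (fun x => c.val x ∧ rep (c.raw j0).ev (tl x) = w) +
        cn fun x => (c.val x ∧ c.nx x = none) ∧ rep (c.raw j0).ev (hd x) = w := by
  have a1 : ∀ s, c.val s → D.vert (c.θ s) = D.vert h → rep (c.raw j0).ev (tl s) = w :=
    fun s hs e' => (rep_eq_iff (c.ev_per j0) ((c.ev_self j0).mpr (c.valid_tl hs)) hw).mpr
      ⟨hw.1.1, c.valid_tl hs, by rw [c.vx_tl hs, e', e]⟩
  refine (cn_or_le (q := fun y => c.val y ∧ (c.θ y = h ∨ (c.θ y = rev h ∧ c.nx y ≠ none)))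
    (r := fun x => (c.val x ∧ c.nx x = none) ∧ rep (c.raw j0).ev (hd x) = w) ?_).trans
    (Nat.add_le_add_right (cn_le_of_inj (fun y s => (c.θ y = h ∧ s = y) ∨
      (c.θ y = rev h ∧ c.nx y = some s)) ?_ ?_) _)
  · rintro y ⟨hy, h1 | h1⟩
    · exact Or.inl ⟨hy, Or.inl h1⟩
    · by_cases h2 : c.nx y = none
      · refine Or.inr ⟨⟨hy, h2⟩, ?_⟩
        exact (rep_eq_iff (c.ev_per j0) ((c.ev_self j0).mpr (c.valid_hd.mpr hy)) hw).mpr
          ⟨hw.1.1, c.valid_hd.mpr hy, by rw [c.vx_hd, h1, c.conf.invol, e]⟩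
      · exact Or.inl ⟨hy, Or.inr ⟨h1, h2⟩⟩
  · rintro y ⟨hy, h1 | ⟨h1, h2⟩⟩
    · exact ⟨y, ⟨hy, a1 y hy (by rw [h1])⟩, Or.inl ⟨h1, rfl⟩⟩
    · obtain ⟨s, hs⟩ := Option.ne_none_iff_exists'.mp h2
      exact ⟨s, ⟨c.nx_val _ _ hs, a1 s (c.nx_val _ _ hs)
        (by rw [(c.nx_spec _ _ hs).1, h1, c.conf.invol])⟩, Or.inr ⟨h1, hs⟩⟩
  · rintro y y' s (⟨h1, rfl⟩ | ⟨h1, h2⟩) (⟨h3, h4⟩ | ⟨h3, h4⟩)
    · exact h4
    · exact absurd (by rw [h1, h3, c.conf.invol]) (c.nx_spec _ _ h4).2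
    · exact absurd (by rw [h1, h4, h3, c.conf.invol]) (c.nx_spec _ _ h2).2
    · exact c.nx_inj _ _ _ h2 h4

lemma sum_W : ∑ t ∈ Icc 1 K, #((c.raw j0).pat t).W ≤
    cn c.val + cn fun x => c.val x ∧ c.nx x = none := by
  rw [← sum_cn_fiber c.val fun x => rep (c.raw j0).ev (tl x),
    ← sum_cn_fiber (fun x => c.val x ∧ c.nx x = none) fun x => rep (c.raw j0).ev (hd x),
    ← sum_add_distrib]
  have : ∀ t, #((c.raw j0).pat t).W = ∑ w, if w ∈ ((c.raw j0).pat t).W then 1 else 0 := by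
    intro t; simp
  simp only [this]
  rw [sum_comm]
  refine sum_le_sum fun w _ => ?_
  rw [← card_filter]
  refine le_trans (card_le_card (t := Icc 1 _) fun t ht => ?_) (by rw [Nat.card_Icc]; rfl)
  obtain ⟨h1, h2⟩ := mem_filter.mp ht
  refine mem_Icc.mpr ⟨(mem_Icc.mp h1).1, ?_⟩
  obtain ⟨x, hx, hw⟩ := mem_W.mp h2
  obtain ⟨-, h3, h4⟩ := mem_J.mp hx
  have a : ∀ h, (h = c.θ x ∨ h = rev (c.θ x)) → m (c.raw j0).eqE x ≤
      cn (fun y => c.val y ∧ (c.θ y = h ∨ c.θ y = rev h)) := by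
    intro h hh
    rw [cn_eq]
    refine card_le_card fun y hy => ?_
    obtain ⟨-, b1, b2⟩ := (c.eqE_iff j0).mp ((c.eqE_per j0).symm (mem_filter.mp hy).2)
    refine mem_filter.mpr ⟨mem_univ _, ((c.eqE_iff j0).mp (mem_filter.mp hy).2).2.1, ?_⟩
    rcases hh with rfl | rfl
    · exact b2
    · rw [c.conf.invol]; exact b2.symm
  rcases hw with rfl | rfl
  · have v := c.valid_tl h4
    exact h3.trans ((a _ (Or.inl rfl)).trans (c.class_le j0
      (rep_spec (c.ev_per j0) ((c.ev_self j0).mpr v)).2 ((c.vx_tl h4).symm.trans (repV v).2.2)))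
  · have v := c.valid_hd.mpr h4
    exact h3.trans ((a _ (Or.inr rfl)).trans (c.class_le j0
      (rep_spec (c.ev_per j0) ((c.ev_self j0).mpr v)).2 ((c.vx_hd x).symm.trans (repV v).2.2)))

lemma card_notGd : cn (fun u => c.valid u ∧ ¬ (c.raw j0).Gd u) ≤
    4 * K ^ 2 + cn c.exc + cn fun x => c.val x ∧ c.mu x = none := by
  have h0 := c.card_nonReg j0
  have h1 : cn (fun u => (c.raw j0).Inn u ∧ c.exc (inE u)) ≤ cn c.exc :=
    cn_le_of_inj (fun u x => hd x = u) (fun u hu => ⟨_, hu.2, hu.1.1⟩)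
      fun _ _ _ h h' => h.symm.trans h'
  have h2 : cn (fun u => (c.raw j0).Inn u ∧ c.mu (inE u) = none) ≤
      cn fun x => c.val x ∧ c.mu x = none :=
    cn_le_of_inj (fun u x => hd x = u) (fun u hu => ⟨_, ⟨(inn_nx hu.1).1, hu.2⟩, hu.1.1⟩)
      fun _ _ _ h h' => h.symm.trans h'
  have h3 : cn (fun u => (c.raw j0).Inn u ∧ ∃ x, c.mu (inE u) = some x ∧ ¬ (c.raw j0).Reg (tl x)) ≤
      cn fun u => c.valid u ∧ ¬ (c.raw j0).Reg u := by
    refine cn_le_of_inj (fun u v => hd (inE u) = u ∧ ∃ x, c.mu (inE u) = some x ∧ tl x = v)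
      ?_ ?_
    · rintro u ⟨a, x, b, d⟩
      exact ⟨tl x, ⟨c.valid_tl (c.mu_val _ _ (c.mu_symm _ _ b)), d⟩, a.1, x, b, rfl⟩
    · rintro u u' v ⟨a, x, b, rfl⟩ ⟨a', x', b', e⟩
      obtain rfl := tl_inj e
      have := (c.mu_symm _ _ b).symm.trans (c.mu_symm _ _ b')
      rw [← a, ← a', Option.some.inj this]
  have h4 : cn (fun u => c.valid u ∧ ¬ (c.raw j0).Gd u) ≤ _ :=
    (cn_or_le (q := fun u => c.valid u ∧ ¬ (c.raw j0).Reg u) (r := fun u => (c.raw j0).Reg u ∧
      ¬ (c.raw j0).Gd u) fun u hu => by tauto).trans (Nat.add_le_add_left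
    ((cn_or_le (q := fun u => (c.raw j0).Inn u ∧ c.exc (inE u)) (r := fun u => (c.raw j0).Reg u ∧
      ¬ (c.raw j0).Gd u ∧ ¬ c.exc (inE u)) fun u hu => by have := hu.1.inn; tauto).trans
      (Nat.add_le_add_left (cn_or_le (q := fun u => (c.raw j0).Inn u ∧ c.mu (inE u) = none)
        (r := fun u => (c.raw j0).Inn u ∧ ∃ x, c.mu (inE u) = some x ∧ ¬ (c.raw j0).Reg (tl x))
        fun u hu => by
          have i := hu.1.inn
          have : (c.mu (inE u) = none ∧ c.mu (outE u) = none) ∨ ∃ x' y', c.mu (inE u) = some x' ∧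
              c.mu (outE u) = some y' ∧ hd y' = tl x' := by
            by_contra hn
            exact hu.2.2 ⟨outE u, inn_out i, i.1.trans i.2.1.symm, hn⟩
          rcases this with h | ⟨x, y, a, b, d⟩
          · exact Or.inl ⟨i, h.1⟩
          · refine Or.inr ⟨i, x, a, fun hr => hu.2.1 ⟨tl x, hu.1, hr, ?_, ?_⟩⟩
            · rw [outE_tl]; exact a
            · rw [← d, inE_hd]; exact b) _)) _)
  omega

variable {isY : S × Bool → Prop} {pm : Bool → ℝ} {pe : Bool → S × Bool → ℝ}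
  {nb : S × Bool → S × Bool → ℝ} {nh : ℝ} {shr : S × Bool → S × Bool → ℝ} {κ Cb : ℝ}

/-- the cost of a vertex -/
noncomputable def gV (isY : S × Bool → Prop) (pm : Bool → ℝ) (u : PV K L) : ℝ :=
  -log (pm (decide (c.mkd j0 isY u)))

/-- the cost of an edge -/
noncomputable def fE (isY : S × Bool → Prop) (pe : Bool → S × Bool → ℝ) (x : PE K L) : ℝ :=
  -log (pe (decide (c.mkd j0 isY (tl x) ∨ c.mkd j0 isY (hd x))) (c.lb x))

/-- the saving at a vertex -/
noncomputable def sav (nb : S × Bool → S × Bool → ℝ) (nh : ℝ) (u : PV K L) : ℝ :=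
  log nh - log (nb (D.lett (c.A u)) (D.lett (c.B u)))

lemma layer (hN : Num isY pm pe nb nh shr κ Cb) {ε m' : ℝ} (hε : 0 < ε) (hm : 0 < m') {t : ℕ}
    (h : ε * m' ^ #((c.raw j0).pat t).J * ((c.raw j0).pat t).wt isY pm pe nb nh c.lb < 1) :
    log ε + ∑ _x ∈ ((c.raw j0).pat t).J, log m' + ∑ w ∈ ((c.raw j0).pat t).Rg, c.sav nb nh w +
      (if t = 1 ∧ ∃ x, c.val x ∧ D.vert (c.θ x) = j0 then log nh - Cb else 0) ≤
      ∑ w ∈ ((c.raw j0).pat t).FV, c.gV j0 isY pm w + ∑ x ∈ ((c.raw j0).pat t).FE, c.fE j0 isY pe x +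
        #((c.raw j0).pat t).W * log nh := by
  have wf := c.pat_wf j0 t
  set P := (c.raw j0).pat t with hP
  have hNh : ∀ w, 0 < P.Nh nb nh c.lb w := fun w => by
    unfold Pat.Nh; split_ifs
    exacts [one_pos, hN.nb0 _ _, by linarith [hN.nh1]]
  have e1 : P.wt isY pm pe nb nh c.lb = exp (-(∑ w ∈ P.FV, c.gV j0 isY pm w) -
      ∑ x ∈ P.FE, c.fE j0 isY pe x - ∑ w ∈ P.W, log (P.Nh nb nh c.lb w)) := by
    rw [sub_eq_add_neg, sub_eq_add_neg, exp_add, exp_add, ← sum_neg_distrib, ← sum_neg_distrib,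
      ← sum_neg_distrib, exp_sum, exp_sum, exp_sum, Pat.wt]
    congr 1
    congr 1
    · refine prod_congr rfl fun w hw => ?_
      rw [gV, neg_neg, exp_log (hN.pm0 _)]
      congr 1
      simp only [decide_eq_decide]
      rw [mark_iff, and_iff_right (wf.FV_sub hw)]
    · refine prod_congr rfl fun x hx => ?_
      obtain ⟨-, a1, a2⟩ := mem_J.mp (wf.FE_sub hx)
      rw [fE, neg_neg, exp_log (hN.pe0 _ _ fun e => ?_)]
      · congr 1
        simp only [decide_eq_decide]
        exact or_congr (mark_rep isY (c.valid_tl a2) (a1.trans (mE_le_tl x)))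
          (mark_rep isY (c.valid_hd.mpr a2) (a1.trans (mE_le_hd x)))
      · rcases of_decide_eq_true e with e | e
        · exact Or.inl (by simpa [B, lb] using e.2.2)
        · exact Or.inr (by simpa [A, lb, c.conf.lett_rev] using e.2.1)
    · refine prod_congr rfl fun w _ => ?_
      rw [exp_neg, exp_log (hNh w)]
  have e2 : log ε + ∑ _x ∈ P.J, log m' + (-(∑ w ∈ P.FV, c.gV j0 isY pm w) -
      ∑ x ∈ P.FE, c.fE j0 isY pe x - ∑ w ∈ P.W, log (P.Nh nb nh c.lb w)) < 0 := by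
    rw [← exp_lt_one_iff, exp_add, exp_add, exp_log hε, sum_const, nsmul_eq_mul, exp_nat_mul,
      exp_log hm, ← e1]
    exact h
  have e3 : ∑ w ∈ P.W, log (P.Nh nb nh c.lb w) ≤ ∑ w ∈ P.W, (log nh -
      (if w ∈ P.Rg then c.sav nb nh w else 0) - if w ∈ P.RT then log nh - Cb else 0) := by
    refine sum_le_sum fun w _ => ?_
    unfold Pat.Nh
    split_ifs with h1 h2 h2
    · have := hN.sav_le (D.lett (c.A w)) (D.lett (c.B w))
      rw [log_one, sav]; linarith
    · rw [log_one]; linarith [hN.Cb0]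
    · have hr := (mem_Rg.mp h2).2.2
      rw [lett_hf, lett_hf, (h1_spec t hr).1, (h2_spec t hr).1, sav]; linarith
    · linarith
  have e4 : ∑ w ∈ P.W, (if w ∈ P.RT then log nh - Cb else 0) =
      if t = 1 ∧ ∃ x, c.val x ∧ D.vert (c.θ x) = j0 then log nh - Cb else 0 := by
    rw [← sum_filter]
    split_ifs with h1
    · obtain ⟨rfl, h1⟩ := h1
      have a : (c.raw j0).root = some (tl h1.choose) := by simp [raw, h1]
      have hx := h1.choose_spec.1
      generalize h1.choose = x at a hx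
      have : P.W.filter (· ∈ P.RT) = {rep (c.raw j0).ev (tl x)} := by
        ext w
        simp only [hP, Raw.pat, a, if_true, Option.map_some, Option.toFinset_some, mem_filter,
          mem_singleton, and_iff_right_iff_imp]
        rintro rfl
        refine mem_W.mpr ⟨_, rep_mem_J hx (m_pos ((c.eqE_self j0).mpr hx)), ?_⟩
        rcases repE (j0 := j0) hx with e | e
        exacts [Or.inl (rep_eq (c.ev_per j0) e.1).symm, Or.inr (rep_eq (c.ev_per j0) e.1).symm]
      rw [this, sum_singleton]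
    · have : P.RT = ∅ := by
        simp only [hP, Raw.pat]
        split_ifs with h2
        · have : ¬ ∃ x, c.val x ∧ D.vert (c.θ x) = j0 := fun h => h1 ⟨h2, h⟩
          simp [raw, this]
        · rfl
      simp [this]
  rw [sum_sub_distrib, sum_sub_distrib, e4, ← sum_filter, filter_mem_eq_inter,
    inter_eq_right.mpr wf.Rg_sub, sum_const, nsmul_eq_mul] at e3
  linarith

lemma shares (hN : Num isY pm pe nb nh shr κ Cb) :
    κ * cn c.val - (7 * Cb + 2 * κ) * cn (fun u => c.valid u ∧ ¬ (c.raw j0).Gd u) ≤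
      ∑ u with (c.raw j0).Reg u, c.sav nb nh u -
      (∑ u with (c.raw j0).Reg u,
        if (c.raw j0).nuV u = none then c.gV j0 isY pm u else c.gV j0 isY pm u / 2) -
      ∑ x with (c.raw j0).val x,
        if (c.raw j0).nuE x = none then c.fE j0 isY pe x else c.fE j0 isY pe x / 2 := by
  set R := c.raw j0 with hR
  set a : PV K L → ℝ := fun u => if R.Gd u then shr (D.lett (c.A u)) (D.lett (c.B u)) else 0
  set b : PV K L → ℝ := fun u => if R.Gd u then shr (D.lett (c.B u)) (D.lett (c.A u)) else 0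
  set n : PV K L → ℝ := fun u => if c.valid u ∧ ¬ R.Gd u then 1 else 0
  have n0 : ∀ u, 0 ≤ n u := fun u => by simp only [n]; split_ifs <;> norm_num
  have hC := hN.Cb0
  have hκ := hN.κ0
  have e1 : ∑ x, a (hd x) = ∑ u, a u := Fintype.sum_of_injective hd hd_inj _ _
    (fun u hu => if_neg fun ⟨_, h⟩ => hu ⟨_, h.1.inn.1⟩) fun _ => rfl
  have e2 : ∑ x, b (tl x) = ∑ u, b u := Fintype.sum_of_injective tl tl_inj _ _
    (fun u hu => if_neg fun ⟨_, h⟩ => hu ⟨_, h.1.inn.2.1⟩) fun _ => rfl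
  have e3 : ∀ e : PE K L → PV K L, Function.Injective e → ∑ x, n (e x) ≤ ∑ u, n u := by
    intro e he
    rw [← sum_image (s := univ) (g := e) (f := n) fun _ _ _ _ h => he h]
    exact sum_le_sum_of_subset_of_nonneg (subset_univ _) fun u _ _ => n0 u
  have e4 : (cn (fun u => c.valid u ∧ ¬ R.Gd u) : ℝ) = ∑ u, n u := by
    rw [cn_real]; exact sum_congr rfl fun _ _ => by simp only [n]; congr
  have e5 : ∑ u, (a u + b u - Cb * n u) ≤ ∑ u with R.Reg u, (c.sav nb nh u -
      if R.nuV u = none then c.gV j0 isY pm u else c.gV j0 isY pm u / 2) := by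
    rw [sum_filter]
    refine sum_le_sum fun u _ => ?_
    by_cases hg : R.Gd u
    · have hr : R.Reg u := hg.choose_spec.1
      have := hN.vtx (D.lett (c.A u)) (D.lett (c.B u))
      have e : decide (c.mkd j0 isY u) = decide (isY (D.lett (c.A u)) ∧ isY (D.lett (c.B u))) := by
        simp only [decide_eq_decide]; exact and_iff_right hr
      simp only [a, b, n, hg, hr, R.nuV_eq_none, if_true, not_true, and_false, if_false, sav, gV, e]
      linarith
    · simp only [a, b, n, hg, R.nuV_eq_none, if_false, not_false_iff, and_true, if_true]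
      by_cases hr : R.Reg u
      · have := hN.sav_ge (D.lett (c.A u)) (D.lett (c.B u))
        have := hN.pmC (decide (c.mkd j0 isY u))
        rw [if_pos hr, if_pos hr.1.1, sav, gV]; linarith
      · rw [if_neg hr]; split_ifs <;> linarith
  have e6 : ∑ x, (κ * (if c.val x then 1 else 0) - (3 * Cb + κ) * (n (tl x) + n (hd x))) ≤
      ∑ x, (a (hd x) + b (tl x) - if R.val x then
        (if R.nuE x = none then c.fE j0 isY pe x else c.fE j0 isY pe x / 2) else 0) := by
    refine sum_le_sum fun x _ => ?_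
    by_cases hx : c.val x
    · have hx' : R.val x := (c.raw_val j0).mpr hx
      rw [if_pos hx, if_pos hx']
      by_cases hg : R.Gd (tl x) ∧ R.Gd (hd x)
      · have r1 : R.Reg (tl x) := hg.1.choose_spec.1
        have r2 : R.Reg (hd x) := hg.2.choose_spec.1
        have := hN.edge (c.lb x) (D.lett (c.A (tl x))) (D.lett (c.B (hd x)))
        have l1 : D.lett (c.A (hd x)) = flp (c.lb x) := by simp [A, lb, c.conf.lett_rev]
        have l2 : D.lett (c.B (tl x)) = c.lb x := by simp [B, lb]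
        have e : decide (c.mkd j0 isY (tl x) ∨ c.mkd j0 isY (hd x)) =
            decide ((isY (D.lett (c.A (tl x))) ∧ isY (c.lb x)) ∨
              (isY (flp (c.lb x)) ∧ isY (D.lett (c.B (hd x))))) := by
          simp only [decide_eq_decide, mkd, l1, l2]
          exact or_congr (and_iff_right r1) (and_iff_right r2)
        simp only [a, b, n, hg.1, hg.2, R.nuE_ne_none hg.1 hg.2, if_true, not_true, and_false,
          if_false, fE, e, l1, l2]
        linarith
      · have f1 : c.fE j0 isY pe x ≤ Cb := hN.peC _ _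
        have f2 : -Cb ≤ a (hd x) := by
          simp only [a]; split_ifs
          exacts [hN.shr_ge _ _, by linarith]
        have f3 : -Cb ≤ b (tl x) := by
          simp only [b]; split_ifs
          exacts [hN.shr_ge _ _, by linarith]
        have f4 : 1 ≤ n (tl x) + n (hd x) := by
          rcases not_and_or.mp hg with h | h
          · have : n (tl x) = 1 := if_pos ⟨c.valid_tl hx, h⟩
            linarith [n0 (hd x)]
          · have : n (hd x) = 1 := if_pos ⟨c.valid_hd.mpr hx, h⟩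
            linarith [n0 (tl x)]
        rw [show R.nuE x = none from if_neg hg, if_pos rfl]
        nlinarith
    · have hx' : ¬ R.val x := fun h => hx ((c.raw_val j0).mp h)
      have g1 : ¬ R.Gd (tl x) := fun ⟨_, h⟩ => hx (by simpa using inn_out h.1.inn)
      have g2 : ¬ R.Gd (hd x) := fun ⟨_, h⟩ => hx (by simpa using (inn_nx h.1.inn).1)
      have := mul_nonneg (show 0 ≤ 3 * Cb + κ by linarith) (add_nonneg (n0 (tl x)) (n0 (hd x)))
      simp only [a, b, hx, hx', g1, g2, if_false]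
      linarith
  have e7 := e3 tl tl_inj
  have e8 := e3 hd hd_inj
  simp only [sum_sub_distrib, sum_add_distrib, ← mul_sum] at e5 e6
  rw [← sum_filter (fun x => R.val x), e1, e2, ← cn_real] at e6
  rw [e4]
  nlinarith [mul_le_mul_of_nonneg_left (add_le_add e7 e8) (show 0 ≤ 3 * Cb + κ by linarith)]

theorem det (hN : Num isY pm pe nb nh shr κ Cb) {ε m' : ℝ} (hε : 0 < ε) (hm : 0 < m')
    (h : ∀ t ∈ Icc 1 K,
      ε * m' ^ #((c.raw j0).pat t).J * ((c.raw j0).pat t).wt isY pm pe nb nh c.lb < 1) :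
    (κ - (log nh - log m')) * cn c.val +
      (if ∃ x, c.val x ∧ D.vert (c.θ x) = j0 then log nh else 0) ≤
      K * -log ε + Cb + log nh * cn (fun x => c.val x ∧ c.nx x = none) +
        (7 * Cb + 2 * κ) * (4 * K ^ 2 + cn c.exc + cn fun x => c.val x ∧ c.mu x = none) := by
  have h0 := sum_le_sum fun t ht => c.layer j0 hN hε hm (h t ht)
  have pV := c.ev_per j0
  have pE := c.eqE_per j0
  have vE : ∀ x, (c.raw j0).val x → (c.raw j0).eqE x x := fun x hx =>
    (c.eqE_self j0).mpr ((c.raw_val j0).mp hx)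
  have vE' : ∀ x y, (c.raw j0).eqE x y → (c.raw j0).val x → (c.raw j0).val y := fun x y e _ =>
    (c.raw_val j0).mpr ((c.eqE_iff j0).mp e).2.1
  have s1 : ∑ t ∈ Icc 1 K, ∑ _x ∈ ((c.raw j0).pat t).J, log m' = cn c.val * log m' := by
    refine (sum_lay pE mE_le _ vE vE' (fun _ => log m') fun _ _ _ _ => rfl).trans ?_
    rw [sum_const, nsmul_eq_mul, cn]
    congr 3
    ext x; simp [raw_val]
  have s2 : ∑ t ∈ Icc 1 K, ∑ w ∈ ((c.raw j0).pat t).Rg, c.sav nb nh w = _ :=
    sum_lay pV mV_le _ (fun _ h => h.1) (fun _ _ e h => h.of_ev pV e) _ fun u u' e hu => by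
      unfold sav
      rcases reg_match hu e with ⟨h1, h2⟩ | ⟨h1, h2⟩ <;> rw [h1, h2]
      rw [hN.nb_symm]
  have s3 : ∑ t ∈ Icc 1 K, ∑ w ∈ ((c.raw j0).pat t).FV, c.gV j0 isY pm w ≤ _ :=
    sum_lay_free _ pV mV_le _ (fun _ h => h.1) (fun _ _ e h => h.of_ev pV e) _
      (fun u u' e _ => by simp only [gV, mkd_ev isY e])
      (fun u _ => neg_nonneg.mpr (hN.pm1 _)) fun u u' _ e => by
        have g := (c.raw j0).nuV_eq_some.mp e
        exact ⟨g.2.1, (c.raw j0).nuV_eq_some.mpr (good_symm g), good_not_ev g,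
          by simp only [gV, mkd_good isY g]⟩
  have s4 : ∑ t ∈ Icc 1 K, ∑ x ∈ ((c.raw j0).pat t).FE, c.fE j0 isY pe x ≤ _ :=
    sum_lay_free _ pE mE_le _ vE vE' _
      (fun x y e _ => by
        have l : ∀ b, pe b (c.lb x) = pe b (c.lb y) := fun b => by
          rw [c.lb_of_eqE j0 e]; split_ifs
          exacts [rfl, hN.pe_flp _ _]
        rcases e with e | e
        · simp only [fE, mkd_ev isY e.1, mkd_ev isY e.2, l]
        · simp only [fE, mkd_ev isY e.1, mkd_ev isY e.2, l, or_comm])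
      (fun x _ => neg_nonneg.mpr (hN.pe1 _ _)) fun x y _ e => by
        obtain ⟨g0, g1, g2⟩ := (c.raw j0).good_of_nuE e
        have g3 := c.mu_symm _ _ g0
        refine ⟨(c.raw_val j0).mpr (c.mu_val _ _ g3), ?_, mu_not_eqE g0, ?_⟩
        · exact (if_pos ⟨⟨_, good_symm g2⟩, _, good_symm g1⟩).trans g3
        · have l : c.lb y = flp (c.lb x) := (c.mu_spec _ _ g0).1
          simp only [fE, mkd_good isY g1, mkd_good isY g2, l, hN.pe_flp, or_comm]
  have s5 : ∑ t ∈ Icc 1 K, (#((c.raw j0).pat t).W : ℝ) * log nh ≤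
      (cn c.val + cn fun x => c.val x ∧ c.nx x = none) * log nh := by
    rw [← sum_mul]
    exact mul_le_mul_of_nonneg_right (by exact_mod_cast c.sum_W j0) (log_nonneg hN.nh1)
  have s6 : (if ∃ x, c.val x ∧ D.vert (c.θ x) = j0 then log nh else 0) - Cb ≤ ∑ t ∈ Icc 1 K,
      if t = 1 ∧ ∃ x, c.val x ∧ D.vert (c.θ x) = j0 then log nh - Cb else 0 := by
    split_ifs with h1
    · have : 1 ≤ K := h1.choose.1.pos
      simp [h1, this]
    · simp [h1, hN.Cb0]
  have s7 := c.shares j0 hN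
  have s8 : (7 * Cb + 2 * κ) * (cn (fun u => c.valid u ∧ ¬ (c.raw j0).Gd u) : ℝ) ≤
      (7 * Cb + 2 * κ) * (4 * K ^ 2 + cn c.exc + cn fun x => c.val x ∧ c.mu x = none) :=
    mul_le_mul_of_nonneg_left (by exact_mod_cast c.card_notGd j0) (by linarith [hN.Cb0, hN.κ0])
  simp only [sum_add_distrib] at h0
  rw [s1, s2, sum_const, Nat.card_Icc, nsmul_eq_mul, add_tsub_cancel_right] at h0
  linarith

end NC

end Crest.Agent.R184.CI
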