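import Crest.Agent.R184.CIDefs

/-! Geometry of pieces in graphs of large girth. -/

set_option autoImplicit false
set_option linter.unusedSectionVars false

namespace Crest.Agent.R184.CI

open Finset Classical Lay

section Walk

variable {V S C H : Type} {D : HES V S C H} {rev : H → H}

/-- non-backtracking walks with their vertices -/
def Wk (D : HES V S C H) (rev : H → H) (p : ℕ → H) (v : ℕ → V) (a : ℕ) : Prop :=
  (∀ i < a, D.vert (p i) = v i ∧ D.vert (rev (p i)) = v (i + 1)) ∧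
    ∀ i, i + 1 < a → p (i + 1) ≠ rev (p i)

lemma Wk.ne {g : ℕ} (hg : D.Girth rev g) {p : ℕ → H} {v : ℕ → V} {a : ℕ} (h : Wk D rev p v a)
    (h0 : 0 < a) (ha : a ≤ g) : v a ≠ v 0 := by
  obtain ⟨k, rfl⟩ : ∃ k, a = k + 1 := ⟨a - 1, by omega⟩
  rw [← (h.1 k (by omega)).2, ← (h.1 0 h0).1]
  exact hg p k ha fun i hi => ⟨by rw [(h.1 (i + 1) hi).1, (h.1 i (by omega)).2], h.2 i hi⟩

lemma Wk.mono {p : ℕ → H} {v : ℕ → V} {a b : ℕ} (h : Wk D rev p v a) (hb : b ≤ a) :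
    Wk D rev p v b :=
  ⟨fun i hi => h.1 i (by omega), fun i hi => h.2 i (by omega)⟩

lemma Wk.shift {p : ℕ → H} {v : ℕ → V} {a : ℕ} (h : Wk D rev p v a) (i b : ℕ) (hb : i + b ≤ a) :
    Wk D rev (fun j => p (i + j)) (fun j => v (i + j)) b :=
  ⟨fun j hj => h.1 (i + j) (by omega), fun j hj => h.2 (i + j) (by omega)⟩

lemma Wk.back (hc : D.IsConf rev) {p : ℕ → H} {v : ℕ → V} {a : ℕ} (h : Wk D rev p v a) (i b : ℕ)
    (hi : i ≤ a) (hb : b ≤ i) :
    Wk D rev (fun j => rev (p (i - 1 - j))) (fun j => v (i - j)) b := by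
  refine ⟨fun j hj => ?_, fun j hj e => ?_⟩
  · have := h.1 (i - 1 - j) (by omega)
    simp only [hc.invol]
    rw [this.1, this.2]
    exact ⟨congr_arg v (by omega), congr_arg v (by omega)⟩
  · have := h.2 (i - 1 - (j + 1)) (by omega)
    simp only [hc.invol] at e
    rw [e] at this
    exact this (congr_arg p (by omega))

lemma Wk.not_closed {g : ℕ} (hc : D.IsConf rev) (hg : D.Girth rev g) {p p' : ℕ → H}
    {v v' : ℕ → V} {a b : ℕ} (h : Wk D rev p v a) (h' : Wk D rev p' v' b) (hab : a + b ≤ g)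
    (h0 : v 0 = v' 0) (h1 : v a = v' b) (hne : 0 < a → 0 < b → p (a - 1) ≠ p' (b - 1)) :
    a + b = 0 := by
  by_contra hz
  have hb := h'.back hc b b le_rfl le_rfl
  have : Wk D rev (fun i => if i < a then p i else rev (p' (b - 1 - (i - a))))
      (fun i => if i ≤ a then v i else v' (b - (i - a))) (a + b) := by
    refine ⟨fun i hi => ?_, fun i hi => ?_⟩
    · by_cases h2 : i < a
      · simp only [if_pos h2, if_pos h2.le, if_pos (show i + 1 ≤ a from h2)]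
        exact h.1 i h2
      · have := hb.1 (i - a) (by omega)
        simp only [if_neg h2, if_neg (show ¬ i + 1 ≤ a from h2)]
        refine ⟨this.1.trans ?_, this.2.trans (congr_arg v' (by omega))⟩
        split_ifs with h3
        · obtain rfl : i = a := by omega
          simp [h1]
        · rfl
    · by_cases h2 : i + 1 < a
      · simp only [if_pos h2, if_pos (show i < a by omega)]
        exact h.2 i h2
      · by_cases h3 : i < a
        · simp only [if_neg h2, if_pos h3]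
          intro e
          have e' := congr_arg rev e
          rw [hc.invol, hc.invol] at e'
          refine hne (by omega) (by omega) ?_
          rw [show a - 1 = i by omega, ← e']
          exact congr_arg p' (by omega)
        · have := hb.2 (i - a) (by omega)
          simp only [if_neg h2, if_neg h3]
          rwa [show i + 1 - a = i - a + 1 by omega]
  refine this.ne hg (by omega) hab ?_
  simp only [Nat.zero_le, if_true]
  split_ifs with h3
  · obtain rfl : b = 0 := by omega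
    simp [h1, h0]
  · simp [h0]

lemma Wk.unique {g : ℕ} (hc : D.IsConf rev) (hg : D.Girth rev g) {p p' : ℕ → H} {v v' : ℕ → V}
    (h0 : v 0 = v' 0) : ∀ (a b : ℕ), Wk D rev p v a → Wk D rev p' v' b → a + b ≤ g →
      v a = v' b → a = b ∧ (∀ i < a, p i = p' i) ∧ ∀ i ≤ a, v i = v' i := by
  intro a
  induction a with
  | zero =>
    intro b h h' hab h1
    have := h.not_closed hc hg h' hab h0 h1 (by omega)
    exact ⟨by omega, by simp, by simpa using h0⟩
  | succ a ih =>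
    intro b h h' hab h1
    by_cases hne : 0 < a + 1 → 0 < b → p (a + 1 - 1) ≠ p' (b - 1)
    · have := h.not_closed hc hg h' hab h0 h1 hne
      omega
    · push Not at hne
      obtain ⟨-, hb, e⟩ := hne
      obtain ⟨b, rfl⟩ : ∃ k, b = k + 1 := ⟨b - 1, by omega⟩
      simp only [add_tsub_cancel_right] at e
      obtain ⟨rfl, h2, h3⟩ := ih b (h.mono (by omega)) (h'.mono (by omega)) (by omega)
        (by rw [← (h.1 a (by omega)).1, ← (h'.1 b (by omega)).1, e])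
      refine ⟨rfl, fun i hi => ?_, fun i hi => ?_⟩
      · rcases Nat.lt_succ_iff_lt_or_eq.mp hi with h4 | rfl
        exacts [h2 i h4, e]
      · rcases Nat.le_succ_iff.mp hi with h4 | rfl
        exacts [h3 i h4, h1]

lemma no_loop {g : ℕ} (hg : D.Girth rev g) (h2 : 1 ≤ g) (h : H) : D.vert (rev h) ≠ D.vert h :=
  hg (fun _ => h) 0 h2 fun i hi => by omega

lemma no_multi {g : ℕ} (hc : D.IsConf rev) (hg : D.Girth rev g) (h2 : 2 ≤ g) {h h' : H}
    (e1 : D.vert h = D.vert h') (e2 : D.vert (rev h) = D.vert (rev h')) : h = h' := by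
  have w : ∀ h : H, Wk D rev (fun _ => h) (fun i => if i = 0 then D.vert h else D.vert (rev h)) 1 :=
    fun h => ⟨fun i hi => by obtain rfl : i = 0 := by omega
                             simp, fun i hi => by omega⟩
  exact (Wk.unique hc hg (by simpa using e1) 1 1 (w h) (w h') h2 (by simpa using e2)).2.1 0 one_pos

end Walk

/-- codes of overlaps -/
abbrev OV (L : ℕ) : Type := Fin (L + 1) × Fin (L + 1) × Fin (L + 1) × Bool

/-- decoding of overlaps -/
def ovd {L : ℕ} (o : OV L) (i j : ℕ) : Prop :=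
  (o.1 : ℕ) ≤ i ∧ i ≤ o.2.1 ∧ if o.2.2.2 then j + o.1 = o.2.2.1 + i else j + i = o.2.2.1 + o.1

namespace NC

variable {K L : ℕ} [NeZero L] {V S H : Type} {D : HES V S (Fin 5) H} {rev : H → H}
  (c : NC D rev K L) (j0 : V)

lemma val_mono {x : PE K L} (hx : c.val x) {y : PE K L} (h1 : y.1 = x.1) (h2 : (y.2 : ℕ) ≤ x.2) :
    c.val y := by
  obtain ⟨d, hd'⟩ : ∃ d, (x.2 : ℕ) = y.2 + d := ⟨x.2 - y.2, by omega⟩
  induction d generalizing x with
  | zero => rwa [pe_ext h1 hd'.symm]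
  | succ d ih =>
    have hlt := x.2.2
    refine ih (x := (x.1, ⟨y.2 + d, by omega⟩)) (c.prev (x.1, ⟨y.2 + d, by omega⟩) x hx
      (hd_eq_tl.mpr ⟨rfl, ?_⟩)).1 h1
      (by simp) rfl
    simp; omega

lemma valid_iff {u : PV K L} : c.valid u ↔ ∃ x, c.val x ∧ x.1 = u.1 ∧ (u.2 : ℕ) ≤ x.2 + 1 := by
  constructor
  · rintro ⟨x, hx, rfl | rfl⟩ <;> exact ⟨x, hx, rfl, by simp⟩
  · rintro ⟨x, hx, h1, h2⟩
    have := x.2.2
    rcases Nat.eq_zero_or_pos u.2 with h | h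
    · exact ⟨(u.1, ⟨0, by omega⟩), c.val_mono hx h1.symm (by simp), Or.inl (pv_ext rfl h.symm)⟩
    · exact ⟨(u.1, ⟨u.2 - 1, by omega⟩), c.val_mono hx h1.symm (by simp; omega),
        Or.inr (pv_ext rfl (by simp; omega))⟩

lemma valid_tl {x : PE K L} (hx : c.val x) : c.valid (tl x) := ⟨x, hx, Or.inl rfl⟩

lemma valid_hd {x : PE K L} : c.valid (hd x) ↔ c.val x := by
  refine ⟨fun h => ?_, fun h => ⟨x, h, Or.inr rfl⟩⟩
  obtain ⟨y, hy, h1, h2⟩ := c.valid_iff.mp h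
  exact c.val_mono hy h1.symm (by simpa using h2)

lemma vx_hd (x : PE K L) : c.vx (hd x) = D.vert (rev (c.θ x)) := by
  simp [vx]

lemma vx_tl {x : PE K L} (hx : c.val x) : c.vx (tl x) = D.vert (c.θ x) := by
  unfold vx
  split_ifs with h
  · simp
  · have h1 : hd (inE (tl x)) = tl x := by
      have := x.2.2
      simp only [tl_snd] at h
      refine pv_ext rfl ?_
      simp only [hd_snd, inE, tl_snd, Fin.ofNat]
      rw [Nat.mod_eq_of_lt (by omega)]; omega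
    exact (c.nx_spec _ _ (c.prev _ _ hx h1).2).1.symm

lemma ev_iff {u u' : PV K L} :
    (c.raw j0).ev u u' ↔ c.valid u ∧ c.valid u' ∧ c.vx u = c.vx u' := Iff.rfl

lemma ev_per : PER (c.raw j0).ev where
  symm h := ⟨h.2.1, h.1, h.2.2.symm⟩
  trans h h' := ⟨h.1, h'.2.1, h.2.2.trans h'.2.2⟩

lemma eqE_per : PER (c.raw j0).eqE := (c.raw j0).eqE_per (c.ev_per j0)

lemma ev_self {u : PV K L} : (c.raw j0).ev u u ↔ c.valid u := by simp [ev_iff]

lemma raw_val {x : PE K L} : (c.raw j0).val x ↔ c.val x := (c.ev_self j0).trans c.valid_hd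

lemma cell_wk {x : PE K L} (hx : c.val x) :
    Wk D rev (fun i => c.θ (x.1, Fin.ofNat L i)) (fun i => c.vx (x.1, Fin.ofNat (L + 1) i))
      (x.2 + 1) := by
  have hL := x.2.2
  have hv : ∀ i, i < (x.2 : ℕ) + 1 → c.val (x.1, Fin.ofNat L i) := fun i hi =>
    c.val_mono hx rfl (by simp only [Fin.ofNat]; rw [Nat.mod_eq_of_lt (by omega)]; omega)
  refine ⟨fun i hi => ⟨?_, ?_⟩, fun i hi => ?_⟩
  · rw [← c.vx_tl (hv i hi)]
    refine congr_arg c.vx (pv_ext rfl ?_)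
    simp only [tl_snd, Fin.ofNat]
    rw [Nat.mod_eq_of_lt (by omega), Nat.mod_eq_of_lt (by omega)]
  · rw [← c.vx_hd]
    refine congr_arg c.vx (pv_ext rfl ?_)
    simp only [hd_snd, Fin.ofNat]
    rw [Nat.mod_eq_of_lt (by omega), Nat.mod_eq_of_lt (by omega)]
  · refine (c.nx_spec _ _ (c.prev (x.1, Fin.ofNat L i) _ (hv _ hi) (hd_eq_tl.mpr ⟨rfl, ?_⟩)).2).2
    simp only [Fin.ofNat]
    rw [Nat.mod_eq_of_lt (by omega), Nat.mod_eq_of_lt (by omega)]

lemma exists_top {u u' : PV K L} (h : c.valid u) (h' : c.valid u') (e : u.1 = u'.1) :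
    ∃ x, c.val x ∧ x.1 = u.1 ∧ (u.2 : ℕ) ≤ x.2 + 1 ∧ (u'.2 : ℕ) ≤ x.2 + 1 := by
  obtain ⟨x, a1, a2, a3⟩ := c.valid_iff.mp h
  obtain ⟨y, b1, b2, b3⟩ := c.valid_iff.mp h'
  rcases le_total (x.2 : ℕ) y.2 with h | h
  · exact ⟨y, b1, b2.trans e.symm, by omega, b3⟩
  · exact ⟨x, a1, a2, a3, by omega⟩

lemma ofNat_eq (k : Fin K) (i : Fin (L + 1)) (n : ℕ) (h : n = i) :
    ((k, Fin.ofNat (L + 1) n) : PV K L) = (k, i) := by
  subst h; simp

/-- two cells through two common vertices share the segment between them -/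
lemma seg {k k' : Fin K} {i i' j j' : Fin (L + 1)} (h : (c.raw j0).ev (k, i) (k', j))
    (h' : (c.raw j0).ev (k, i') (k', j')) (hi : (i : ℕ) ≤ i') :
    ∃ b : Bool, (if b then (j' : ℕ) + i = j + i' else (j' : ℕ) + i' = j + i) ∧
      ∀ a : Fin (L + 1), (i : ℕ) ≤ a → (a : ℕ) ≤ i' → ∃ a' : Fin (L + 1),
        (c.raw j0).ev (k, a) (k', a') ∧ if b then (a' : ℕ) + i = j + a else (a' : ℕ) + a = j + i := by
  obtain ⟨x, x1, x2, x3, x4⟩ := c.exists_top h.1 h'.1 rfl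
  obtain ⟨y, y1, y2, y3, y4⟩ := c.exists_top h.2.1 h'.2.1 rfl
  simp only at x2 x3 x4 y2 y3 y4
  subst x2 y2
  have hx := x.2.2
  have hy := y.2.2
  have w1 := (c.cell_wk x1).shift i (i' - i) (by omega)
  have hv : ∀ (z : PE K L), c.val z → ∀ a : Fin (L + 1), (a : ℕ) ≤ z.2 + 1 → c.valid (z.1, a) :=
    fun z hz a ha => c.valid_iff.mpr ⟨z, hz, rfl, ha⟩
  rcases le_total (j : ℕ) j' with hj | hj
  · have w2 := (c.cell_wk y1).shift j (j' - j) (by omega)
    obtain ⟨e1, -, e2⟩ := Wk.unique c.conf c.girth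
      (by simp only [add_zero]; rw [ofNat_eq _ i _ rfl, ofNat_eq _ j _ rfl]; exact h.2.2)
      _ _ w1 w2 (by omega)
      (by rw [ofNat_eq _ i' _ (by omega), ofNat_eq _ j' _ (by omega)]; exact h'.2.2)
    refine ⟨true, by simp; omega, fun a h1 h2 => ⟨⟨j + (a - i), by omega⟩,
      ⟨hv x x1 a (by omega), hv y y1 _ (by simp; omega), ?_⟩, by simp; omega⟩⟩
    have := e2 (a - i) (by omega)
    rwa [ofNat_eq _ a _ (by omega), ofNat_eq _ ⟨j + (a - i), by omega⟩ _ rfl] at this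
  · have w2 := (c.cell_wk y1).back c.conf j (j - j') (by omega) (by omega)
    obtain ⟨e1, -, e2⟩ := Wk.unique c.conf c.girth
      (by simp only [add_zero, tsub_zero]; rw [ofNat_eq _ i _ rfl, ofNat_eq _ j _ rfl]; exact h.2.2)
      _ _ w1 w2 (by omega)
      (by rw [ofNat_eq _ i' _ (by omega), ofNat_eq _ j' _ (by omega)]; exact h'.2.2)
    refine ⟨false, by simp; omega, fun a h1 h2 => ⟨⟨j - (a - i), by omega⟩,
      ⟨hv x x1 a (by omega), hv y y1 _ (by simp; omega), ?_⟩, by simp; omega⟩⟩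
    have := e2 (a - i) (by omega)
    rwa [ofNat_eq _ a _ (by omega), ofNat_eq _ ⟨j - (a - i), by omega⟩ _ rfl] at this

lemma ev_unique {u v w : PV K L} (h : (c.raw j0).ev u v) (h' : (c.raw j0).ev u w)
    (e : v.1 = w.1) : v = w := by
  obtain ⟨k', j⟩ := v
  obtain ⟨k'', j'⟩ := w
  obtain rfl : k' = k'' := e
  obtain ⟨b, hb, -⟩ := c.seg j0 (k := u.1) (i := u.2) (i' := u.2) h h' le_rfl
  refine pv_ext rfl ?_
  cases b <;> simp at hb ⊢ <;> omega

lemma exists_ov : ∃ ov : Fin K → Fin K → OV L,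
    (∀ u u', (c.raw j0).ev u u' ↔ ovd (ov u.1 u'.1) u.2 u'.2) ∧
    ∀ k k' (i : Fin (L + 1)), ((ov k k').1 : ℕ) ≤ i → (i : ℕ) ≤ (ov k k').2.1 →
      ∃ j, (c.raw j0).ev (k, i) (k', j) := by
  have : ∀ k k' : Fin K, ∃ o : OV L, (∀ i j, (c.raw j0).ev (k, i) (k', j) ↔ ovd o i j) ∧
      ∀ i : Fin (L + 1), (o.1 : ℕ) ≤ i → (i : ℕ) ≤ o.2.1 → ∃ j, (c.raw j0).ev (k, i) (k', j) := by
    intro k k'
    set O : Finset (Fin (L + 1)) := univ.filter fun i => ∃ j, (c.raw j0).ev (k, i) (k', j) with hO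
    have hm : ∀ i, i ∈ O ↔ ∃ j, (c.raw j0).ev (k, i) (k', j) := fun i => by simp [hO]
    rcases O.eq_empty_or_nonempty with h | h
    · have hL := NeZero.pos L
      refine ⟨(⟨1, by omega⟩, ⟨0, by omega⟩, 0, true), fun i j => ⟨fun e => ?_, fun e => ?_⟩, fun i h1 h2 => ?_⟩
      · exact absurd ((hm i).mpr ⟨j, e⟩) (by simp [h])
      · have h1 : 1 ≤ (i : ℕ) := e.1
        have h2 : (i : ℕ) ≤ 0 := e.2.1
        omega
      · have h1 : 1 ≤ (i : ℕ) := h1
        have h2 : (i : ℕ) ≤ 0 := h2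
        omega
    · obtain ⟨j, hj⟩ := (hm _).mp (O.min'_mem h)
      obtain ⟨j', hj'⟩ := (hm _).mp (O.max'_mem h)
      obtain ⟨b, -, hb⟩ := c.seg j0 hj hj' (O.min'_le_max' h)
      refine ⟨(O.min' h, O.max' h, j, b), fun i a => ⟨fun e => ?_, fun e => ?_⟩,
        fun i h1 h2 => (hb i h1 h2).imp fun _ h => h.1⟩
      · have h1 : O.min' h ≤ i := O.min'_le _ ((hm i).mpr ⟨a, e⟩)
        have h2 : i ≤ O.max' h := O.le_max' _ ((hm i).mpr ⟨a, e⟩)
        obtain ⟨a', h3, h4⟩ := hb i h1 h2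
        obtain rfl : a = a' := congr_arg Prod.snd (c.ev_unique j0 e h3 rfl)
        exact ⟨h1, h2, h4⟩
      · obtain ⟨a', h3, h4⟩ := hb i e.1 e.2.1
        have h5 := e.2.2
        obtain rfl : a = a' := Fin.ext (by cases b <;> simp at h4 h5 <;> omega)
        exact h3
  choose ov h1 h2 using this
  exact ⟨ov, fun u u' => h1 u.1 u'.1 u.2 u'.2, h2⟩

lemma inn_of {u v w : PV K L} (hw : c.valid w) (h1 : v.1 = u.1) (h2 : (v.2 : ℕ) + 1 = u.2)
    (h3 : w.1 = u.1) (h4 : (w.2 : ℕ) = u.2 + 1) :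
    (c.raw j0).Inn u ∧ tl (inE u) = v ∧ hd (outE u) = w := by
  have := w.2.2
  have e1 : ((inE u).2 : ℕ) = u.2 - 1 := Nat.mod_eq_of_lt (by omega)
  have e2 : ((outE u).2 : ℕ) = u.2 := Nat.mod_eq_of_lt (by omega)
  have e3 : hd (outE u) = w := pv_ext h3.symm (by simp [e2, h4])
  refine ⟨⟨pv_ext rfl (by simp [e1]; omega), pv_ext rfl (by simp [e2]), ?_⟩,
    pv_ext h1.symm (by simp [e1]; omega), e3⟩
  rw [raw_val, ← valid_hd, e3]; exact hw

lemma card_nonReg : cn (fun u => c.valid u ∧ ¬ (c.raw j0).Reg u) ≤ 2 * K ^ 2 := by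
  obtain ⟨ov, h1, h2⟩ := c.exists_ov j0
  have : (univ.filter fun u => c.valid u ∧ ¬ (c.raw j0).Reg u) ⊆
      (univ : Finset (Fin K × Fin K × Bool)).image fun z =>
        (z.1, if z.2.2 then (ov z.1 z.2.1).1 else (ov z.1 z.2.1).2.1) := by
    intro u hu
    simp only [mem_filter, mem_univ, true_and] at hu
    by_contra hn
    simp only [mem_image, mem_univ, true_and, not_exists] at hn
    refine hu.2 ⟨(c.ev_self j0).mpr hu.1, fun u' hu' => ?_⟩
    have key : ∀ u', (c.raw j0).ev u u' → ∃ a b a' b' : Fin (L + 1), (a : ℕ) + 1 = u.2 ∧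
        (b : ℕ) = u.2 + 1 ∧ (c.raw j0).ev (u.1, a) (u'.1, a') ∧ (c.raw j0).ev (u.1, b) (u'.1, b') ∧
        (((a' : ℕ) + 1 = u'.2 ∧ (b' : ℕ) = u'.2 + 1) ∨
          ((b' : ℕ) + 1 = u'.2 ∧ (a' : ℕ) = u'.2 + 1)) := by
      intro u' hu'
      obtain ⟨e1, e2, e3⟩ := (h1 _ _).mp hu'
      have n1 : ((ov u.1 u'.1).1 : ℕ) ≠ u.2 := fun e => hn (u.1, u'.1, true) (pv_ext rfl e)
      have n2 : ((ov u.1 u'.1).2.1 : ℕ) ≠ u.2 := fun e => hn (u.1, u'.1, false) (pv_ext rfl e)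
      have := (ov u.1 u'.1).2.1.2
      obtain ⟨a', ha⟩ := h2 u.1 u'.1 ⟨u.2 - 1, by omega⟩ (by simp; omega) (by simp; omega)
      obtain ⟨b', hb⟩ := h2 u.1 u'.1 ⟨u.2 + 1, by omega⟩ (by simp; omega) (by simp; omega)
      refine ⟨_, _, a', b', by simp; omega, rfl, ha, hb, ?_⟩
      have e4 := ((h1 _ _).mp ha).2.2
      have e5 := ((h1 _ _).mp hb).2.2
      cases hs : (ov u.1 u'.1).2.2.2 <;> simp only [hs] at e3 e4 e5 <;> simp at e3 e4 e5 <;> omega
    obtain ⟨a, b, a', b', k1, k2, k3, k4, k5⟩ := key u' hu'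
    obtain ⟨-, i1, i2⟩ := c.inn_of j0 (u := u) (v := (u.1, a)) k4.1 rfl k1 rfl k2
    have hs := (c.ev_per j0).symm k3
    have hs' := (c.ev_per j0).symm k4
    rcases k5 with ⟨k5, k6⟩ | ⟨k5, k6⟩
    · obtain ⟨i0, i3, i4⟩ := c.inn_of j0 (u := u') (v := (u'.1, a')) k4.2.1 rfl k5 rfl k6
      exact ⟨i0, Or.inl (by rw [i1, i2, i3, i4]; exact ⟨hs, hs'⟩)⟩
    · obtain ⟨i0, i3, i4⟩ := c.inn_of j0 (u := u') (v := (u'.1, b')) k3.2.1 rfl k5 rfl k6
      exact ⟨i0, Or.inr (by rw [i1, i2, i3, i4]; exact ⟨hs', hs⟩)⟩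
  rw [cn_eq]
  refine (card_le_card this).trans (card_image_le.trans ?_)
  simp; nlinarith

end NC

end Crest.Agent.R184.CI
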