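import Crest.Agent.R184.Defs

/-! Classes, multiplicities and free representatives. -/

set_option autoImplicit false
set_option linter.unusedSectionVars false

namespace Crest.Agent.R184.Lay

open Finset Classical

variable {X : Type} [Fintype X] (r : X → X → Prop) (ν : X → Option X)

/-- an enumeration -/
noncomputable def enc (x : X) : ℕ := Fintype.equivFin X x

lemma enc_lt (x : X) : enc x < Fintype.card X := (Fintype.equivFin X x).2

lemma enc_inj {x y : X} (h : enc x = enc y) : x = y :=
  (Fintype.equivFin X).injective (Fin.ext h)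

/-- multiplicity -/
noncomputable def m (x : X) : ℕ := #{y | r x y}

/-- representatives -/
def Rep (x : X) : Prop := r x x ∧ ∀ y, r x y → enc x ≤ enc y

/-- the representative -/
noncomputable def rep (x : X) : X := if h : ∃ y, r x y ∧ Rep r y then h.choose else x

/-- the rank -/
noncomputable def rank (x : X) : ℕ := (Fintype.card X - m r x) * Fintype.card X + enc x

/-- constrained elements -/
def Con (x : X) : Prop := ∃ p : X × X, r x p.1 ∧ ν p.1 = some p.2 ∧ rank r (rep r p.2) < rank r x

/-- the witnesses -/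
noncomputable def wit (x : X) : X × X := if h : Con r ν x then h.choose else (x, x)

lemma wit_spec {x : X} (h : Con r ν x) :
    r x (wit r ν x).1 ∧ ν (wit r ν x).1 = some (wit r ν x).2 ∧
      rank r (rep r (wit r ν x).2) < rank r x := by
  rw [wit, dif_pos h]; exact h.choose_spec

lemma m_le_of_rank_lt {x y : X} (h : rank r y < rank r x) : m r x ≤ m r y := by
  by_contra hc
  have h1 : m r x ≤ Fintype.card X := card_le_univ _
  have h2 := enc_lt x
  have h3 : Fintype.card X - m r x + 1 ≤ Fintype.card X - m r y := by omega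
  have := Nat.mul_le_mul_right (Fintype.card X) h3
  unfold rank at h
  nlinarith

lemma rank_inj {x y : X} (h : rank r x = rank r y) : x = y := by
  apply enc_inj
  have := congr_arg (· % Fintype.card X) h
  simpa [rank, Nat.mod_eq_of_lt (enc_lt x), Nat.mod_eq_of_lt (enc_lt y)] using this

/-- partial equivalence relations -/
structure PER : Prop where
  symm : ∀ {x y}, r x y → r y x
  trans : ∀ {x y z}, r x y → r y z → r x z

variable {r} (hr : PER r)
include hr

lemma PER.left {x y : X} (h : r x y) : r x x := hr.trans h (hr.symm h)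

lemma PER.right {x y : X} (h : r x y) : r y y := hr.trans (hr.symm h) h

lemma m_eq {x y : X} (h : r x y) : m r x = m r y := by
  unfold m
  congr 1
  ext z
  simp only [mem_filter, mem_univ, true_and]
  exact ⟨fun h' => hr.trans (hr.symm h) h', fun h' => hr.trans h h'⟩

omit hr in
lemma m_pos {x : X} (h : r x x) : 0 < m r x := card_pos.mpr ⟨x, by simpa using h⟩

lemma rep_spec {x : X} (h : r x x) : r x (rep r x) ∧ Rep r (rep r x) := by
  have : ∃ y, r x y ∧ Rep r y := by
    obtain ⟨y, hy, hm⟩ := exists_min_image (univ.filter fun y => r x y) enc ⟨x, by simpa using h⟩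
    simp only [mem_filter, mem_univ, true_and] at hy hm
    exact ⟨y, hy, hr.right hy, fun z hz => hm z (hr.trans hy hz)⟩
  rw [rep, dif_pos this]; exact this.choose_spec

lemma rep_unique {x y : X} (hx : Rep r x) (hy : Rep r y) (h : r x y) : x = y :=
  enc_inj (le_antisymm (hx.2 y h) (hy.2 x (hr.symm h)))

lemma rep_eq {x y : X} (h : r x y) : rep r x = rep r y :=
  rep_unique hr (rep_spec hr (hr.left h)).2 (rep_spec hr (hr.right h)).2
    (hr.trans (hr.symm (rep_spec hr (hr.left h)).1) (hr.trans h (rep_spec hr (hr.right h)).1))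

lemma rep_self {x : X} (h : Rep r x) : rep r x = x :=
  (rep_unique hr h (rep_spec hr h.1).2 (rep_spec hr h.1).1).symm

lemma rel_of_rep_eq {x y : X} (hx : r x x) (hy : r y y) (h : rep r x = rep r y) : r x y :=
  hr.trans (rep_spec hr hx).1 (h ▸ hr.symm (rep_spec hr hy).1)

lemma rep_eq_iff {x w : X} (hx : r x x) (hw : Rep r w) : rep r x = w ↔ r w x :=
  ⟨fun h => h ▸ hr.symm (rep_spec hr hx).1, fun h => (rep_eq hr h).symm.trans (rep_self hr hw)⟩

/-- summing over the layers -/
lemma sum_layers {K : ℕ} (hK : ∀ x, m r x ≤ K) (p : X → Prop) (f : X → ℝ)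
    (hf : ∀ x y, r x y → f x = f y) :
    ∑ t ∈ Icc 1 K, ∑ x with Rep r x ∧ t ≤ m r x ∧ p x, f x =
      ∑ x with r x x ∧ p (rep r x), f x := by
  have h1 : ∀ t, ∑ x with Rep r x ∧ t ≤ m r x ∧ p x, f x =
      ∑ x with Rep r x ∧ p x, if t ≤ m r x then f x else 0 := by
    intro t
    rw [← sum_filter, filter_filter]
    refine sum_congr ?_ fun _ _ => rfl
    ext x; simp; tauto
  simp only [h1]
  rw [sum_comm, ← sum_fiberwise_of_maps_to (s := univ.filter fun x => r x x ∧ p (rep r x))
    (t := univ.filter fun x => Rep r x ∧ p x) (g := rep r)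
    (fun x hx => by
      simp only [mem_filter, mem_univ, true_and] at hx ⊢
      exact ⟨(rep_spec hr hx.1).2, hx.2⟩)]
  refine sum_congr rfl fun w hw => ?_
  simp only [mem_filter, mem_univ, true_and] at hw
  have e1 : (Icc 1 K).filter (fun t => t ≤ m r w) = Icc 1 (m r w) := by
    ext t; have := hK w; simp; omega
  have e2 : (univ.filter fun x => r x x ∧ p (rep r x)).filter (fun x => rep r x = w) =
      univ.filter fun y => r w y := by
    ext x
    simp only [mem_filter, mem_univ, true_and]
    constructor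
    · rintro ⟨⟨h1, -⟩, h2⟩; exact (rep_eq_iff hr h1 hw.1).mp h2
    · intro h
      have := (rep_eq_iff hr (hr.right h) hw.1).mpr h
      exact ⟨⟨hr.right h, this ▸ hw.2⟩, this⟩
  rw [← sum_filter, e1, e2, sum_const, Nat.card_Icc,
    sum_congr rfl (g := fun _ => f w) (fun y hy => (hf w y (by simpa using hy)).symm), sum_const]
  rfl

lemma con_or_con {x y : X} (hx : r x x) (hy : r y y) (h1 : ν x = some y) (h2 : ν y = some x)
    (h : ¬ r x y) : Con r ν (rep r x) ∨ Con r ν (rep r y) := by
  rcases lt_trichotomy (rank r (rep r x)) (rank r (rep r y)) with h3 | h3 | h3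
  · exact Or.inr ⟨(y, x), hr.symm (rep_spec hr hy).1, h2, h3⟩
  · exact absurd (rel_of_rep_eq hr hx hy (rank_inj r h3)) h
  · exact Or.inl ⟨(x, y), hr.symm (rep_spec hr hx).1, h1, h3⟩

/-- at most one of two matched elements is free -/
lemma sum_free (A : X → Prop) (hA : ∀ x, A x → r x x) (f : X → ℝ) (hf : ∀ x, A x → 0 ≤ f x)
    (hν : ∀ x y, A x → ν x = some y → A y ∧ ν y = some x ∧ ¬ r x y ∧ f y = f x) :
    ∑ x with A x ∧ ¬ Con r ν (rep r x), f x ≤
      ∑ x with A x, if ν x = none then f x else f x / 2 := by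
  set F : Finset X := univ.filter fun x => A x ∧ ν x ≠ none ∧ ¬ Con r ν (rep r x) with hF
  set F' : Finset X := univ.filter fun x => A x ∧ ν x ≠ none ∧ Con r ν (rep r x) with hF'
  have hm : ∀ x ∈ F, ν x = some ((ν x).getD x) ∧ A x ∧ ¬ Con r ν (rep r x) := by
    intro x hx
    simp only [hF, mem_filter, mem_univ, true_and] at hx
    obtain ⟨y, hy⟩ := Option.ne_none_iff_exists'.mp hx.2.1
    exact ⟨by simp [hy], hx.1, hx.2.2⟩
  have h1 : ∑ x ∈ F, f x ≤ ∑ x ∈ F', f x := by
    have hinj : Set.InjOn (fun x => (ν x).getD x) F := by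
      intro x hx x' hx' h
      have a1 := (hν _ _ (hm x hx).2.1 (hm x hx).1).2.1
      have a2 := (hν _ _ (hm x' hx').2.1 (hm x' hx').1).2.1
      simp only at h
      rw [h, a2] at a1
      exact (Option.some.inj a1).symm
    calc ∑ x ∈ F, f x = ∑ x ∈ F, f ((ν x).getD x) :=
          sum_congr rfl fun x hx => (hν _ _ (hm x hx).2.1 (hm x hx).1).2.2.2.symm
      _ = ∑ y ∈ F.image (fun x => (ν x).getD x), f y := (sum_image hinj).symm
      _ ≤ _ := by
        refine sum_le_sum_of_subset_of_nonneg (fun y hy => ?_) fun y hy _ => hf y ?_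
        · obtain ⟨x, hx, rfl⟩ := mem_image.mp hy
          obtain ⟨a1, a2, a3⟩ := hm x hx
          obtain ⟨b1, b2, b3, -⟩ := hν _ _ a2 a1
          simp only [hF', mem_filter, mem_univ, true_and]
          exact ⟨b1, by simp [b2], (con_or_con ν hr (hA _ a2) (hA _ b1) a1 b2 b3).resolve_left a3⟩
        · simp only [hF', mem_filter, mem_univ, true_and] at hy; exact hy.1
  have h2 : ∑ x with A x ∧ ¬ Con r ν (rep r x), f x ≤
      ∑ x with A x ∧ ν x = none, f x + ∑ x ∈ F, f x := by
    rw [← sum_union (by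
      rw [disjoint_filter]; intro x _ h1 h2; exact h2.2.1 h1.2)]
    refine sum_le_sum_of_subset_of_nonneg (fun x hx => ?_) fun x hx _ => hf x ?_
    · simp only [hF, mem_union, mem_filter, mem_univ, true_and] at hx ⊢; tauto
    · simp only [hF, mem_union, mem_filter, mem_univ, true_and] at hx; tauto
  have h3 : ∑ x with A x, (if ν x = none then f x else f x / 2) =
      ∑ x with A x ∧ ν x = none, f x + (∑ x ∈ F, f x + ∑ x ∈ F', f x) / 2 := by
    rw [sum_ite, filter_filter, filter_filter, ← sum_div, ← sum_union (by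
      rw [disjoint_filter]; intro x _ h1 h2; exact h1.2.2 h2.2.2)]
    congr 2
    refine sum_congr ?_ fun _ _ => rfl
    ext x; simp only [hF, hF', mem_union, mem_filter, mem_univ, true_and]; tauto
  linarith

omit hr in
/-- the representatives of multiplicity at least `t` with property `p` -/
noncomputable def lay (r : X → X → Prop) (t : ℕ) (p : X → Prop) : Finset X :=
  univ.filter fun x => Rep r x ∧ t ≤ m r x ∧ p x

omit hr in
lemma mem_lay {t : ℕ} {p : X → Prop} {x : X} : x ∈ lay r t p ↔ Rep r x ∧ t ≤ m r x ∧ p x := by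
  simp [lay]

lemma sum_lay_aux {K : ℕ} (hK : ∀ x, m r x ≤ K) (A p : X → Prop) (hA : ∀ x, A x → r x x)
    (hA' : ∀ x y, r x y → A x → A y) (f : X → ℝ) (hf : ∀ x y, r x y → A x → f x = f y) :
    ∑ t ∈ Icc 1 K, ∑ x ∈ lay r t (fun x => A x ∧ p x), f x =
      ∑ x with A x ∧ p (rep r x), f x := by
  have := sum_layers hr hK (fun x => A x ∧ p x) (fun x => if A x then f x else 0) (by
    intro x y h
    by_cases hx : A x
    · simp [hx, hA' x y h hx, hf x y h hx]
    · have hy : ¬ A y := fun hy => hx (hA' y x (hr.symm h) hy)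
      simp [hx, hy])
  have hAr : ∀ x, r x x → (A (rep r x) ↔ A x) := fun x hx =>
    ⟨hA' _ _ (hr.symm (rep_spec hr hx).1), hA' _ _ (rep_spec hr hx).1⟩
  convert this using 1
  · refine sum_congr rfl fun t _ => sum_congr (by ext x; simp [lay]) fun x hx => ?_
    simp only [mem_filter, mem_univ, true_and] at hx
    simp [hx.2.2.1]
  · refine sum_congr ?_ fun x hx => ?_
    · ext x
      simp only [mem_filter, mem_univ, true_and]
      exact ⟨fun h => ⟨hA x h.1, (hAr x (hA x h.1)).mpr h.1, h.2⟩,
        fun h => ⟨(hAr x h.1).mp h.2.1, h.2.2⟩⟩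
    · simp only [mem_filter, mem_univ, true_and] at hx
      simp [(hAr x hx.1).mp hx.2.1]

lemma sum_lay {K : ℕ} (hK : ∀ x, m r x ≤ K) (A : X → Prop) (hA : ∀ x, A x → r x x)
    (hA' : ∀ x y, r x y → A x → A y) (f : X → ℝ) (hf : ∀ x y, r x y → A x → f x = f y) :
    ∑ t ∈ Icc 1 K, ∑ x ∈ lay r t A, f x = ∑ x with A x, f x := by
  have := sum_lay_aux hr hK A (fun _ => True) hA hA' f hf
  simp only [and_true] at this
  convert this

lemma sum_lay_free {K : ℕ} (hK : ∀ x, m r x ≤ K) (A : X → Prop) (hA : ∀ x, A x → r x x)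
    (hA' : ∀ x y, r x y → A x → A y) (f : X → ℝ) (hf : ∀ x y, r x y → A x → f x = f y)
    (hf0 : ∀ x, A x → 0 ≤ f x)
    (hν : ∀ x y, A x → ν x = some y → A y ∧ ν y = some x ∧ ¬ r x y ∧ f y = f x) :
    ∑ t ∈ Icc 1 K, ∑ x ∈ lay r t (fun x => A x ∧ ¬ Con r ν x), f x ≤
      ∑ x with A x, if ν x = none then f x else f x / 2 := by
  rw [sum_lay_aux hr hK A (fun x => ¬ Con r ν x) hA hA' f hf]
  convert sum_free ν hr A hA f hf0 hν

omit hr in
/-- comparing multiplicities through a projection that is injective on classes -/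
lemma m_le_m {X' Z : Type} [Fintype X'] {r' : X' → X' → Prop} (π : X → Z) (π' : X' → Z) {x : X}
    {x' : X'} (hi : ∀ y z, r x y → r x z → π y = π z → y = z)
    (h : ∀ y, r x y → ∃ y', r' x' y' ∧ π' y' = π y) : m r x ≤ m r' x' := by
  unfold m
  rw [← card_image_of_injOn (f := π) (s := univ.filter fun y => r x y) (fun y hy z hz e =>
    hi y z (by simpa using hy) (by simpa using hz) e)]
  refine le_trans (card_le_card fun z hz => ?_) (card_image_le (f := π'))
  obtain ⟨y, hy, rfl⟩ := mem_image.mp hz
  obtain ⟨y', h1, h2⟩ := h y (by simpa using hy)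
  exact mem_image.mpr ⟨y', by simpa using h1, h2⟩

omit hr in
lemma m_le_card {K : ℕ} (π : X → Fin K) {x : X}
    (hi : ∀ y z, r x y → r x z → π y = π z → y = z) : m r x ≤ K := by
  unfold m
  rw [← card_image_of_injOn (f := π) (s := univ.filter fun y => r x y) (fun y hy z hz e =>
    hi y z (by simpa using hy) (by simpa using hz) e)]
  simpa using card_le_univ (image π (univ.filter fun y => r x y))

end Crest.Agent.R184.Lay
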