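import Crest.Agent.R184.CIGeo

/-! The patterns of the layers are well formed and realised. -/

set_option autoImplicit false
set_option linter.unusedSectionVars false

namespace Crest.Agent.R184.CI

open Finset Classical Lay

lemma flp_flp {S : Type} (l : S × Bool) : flp (flp l) = l := by simp [flp]

lemma flp_ne {S : Type} (l : S × Bool) : flp l ≠ l := fun h => by
  have := congr_arg Prod.snd h
  simp [flp] at this

namespace NC

variable {K L : ℕ} [NeZero L] {V S H : Type} {D : HES V S (Fin 5) H} {rev : H → H}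
  (c : NC D rev K L) (j0 : V)

/-- the half-edge of a half of a position -/
def hf (z : PE K L × Bool) : H := if z.2 then rev (c.θ z.1) else c.θ z.1

/-- the incoming half-edge -/
def A (u : PV K L) : H := rev (c.θ (inE u))

/-- the outgoing half-edge -/
def B (u : PV K L) : H := c.θ (outE u)

/-- the labelling -/
def lb (x : PE K L) : S × Bool := D.lett (c.θ x)

/-- marked vertices -/
def mkd (isY : S × Bool → Prop) (u : PV K L) : Prop :=
  (c.raw j0).Reg u ∧ isY (D.lett (c.A u)) ∧ isY (D.lett (c.B u))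

include c in
lemma loop (h : H) : D.vert (rev h) ≠ D.vert h :=
  no_loop c.girth (by have := NeZero.pos L; omega) h

include c in
lemma multi {h h' : H} (e1 : D.vert h = D.vert h') (e2 : D.vert (rev h) = D.vert (rev h')) :
    h = h' := no_multi c.conf c.girth (by have := NeZero.pos L; omega) e1 e2

lemma eqE_iff {x y : PE K L} : (c.raw j0).eqE x y ↔
    c.val x ∧ c.val y ∧ (c.θ x = c.θ y ∨ c.θ x = rev (c.θ y)) := by
  constructor
  · rintro (⟨h1, h2⟩ | ⟨h1, h2⟩)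
    · have hx := c.valid_hd.mp h2.1
      have hy := c.valid_hd.mp h2.2.1
      exact ⟨hx, hy, Or.inl (c.multi (by rw [← c.vx_tl hx, ← c.vx_tl hy, h1.2.2])
        (by rw [← c.vx_hd, ← c.vx_hd, h2.2.2]))⟩
    · have hx := c.valid_hd.mp h2.1
      have hy := c.valid_hd.mp h1.2.1
      exact ⟨hx, hy, Or.inr (c.multi (by rw [← c.vx_tl hx, ← c.vx_hd, h1.2.2])
        (by rw [c.conf.invol, ← c.vx_hd, ← c.vx_tl hy, h2.2.2]))⟩
  · rintro ⟨hx, hy, h | h⟩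
    · exact Or.inl ⟨⟨c.valid_tl hx, c.valid_tl hy, by rw [c.vx_tl hx, c.vx_tl hy, h]⟩,
        c.valid_hd.mpr hx, c.valid_hd.mpr hy, by rw [c.vx_hd, c.vx_hd, h]⟩
    · exact Or.inr ⟨⟨c.valid_tl hx, c.valid_hd.mpr hy, by rw [c.vx_tl hx, c.vx_hd, h]⟩,
        c.valid_hd.mpr hx, c.valid_tl hy, by rw [c.vx_hd, c.vx_tl hy, h, c.conf.invol]⟩

lemma eqE_self {x : PE K L} : (c.raw j0).eqE x x ↔ c.val x := by
  rw [eqE_iff]; simp

lemma lb_of_eqE {x y : PE K L} (h : (c.raw j0).eqE x y) :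
    c.lb x = if (c.raw j0).ev (tl x) (tl y) then c.lb y else flp (c.lb y) := by
  obtain ⟨hx, hy, h⟩ := (c.eqE_iff j0).mp h
  rcases h with h | h
  · rw [if_pos ⟨c.valid_tl hx, c.valid_tl hy, by rw [c.vx_tl hx, c.vx_tl hy, h]⟩, lb, h, lb]
  · rw [if_neg, lb, h, c.conf.lett_rev, lb]
    rintro ⟨-, -, e⟩
    rw [c.vx_tl hx, c.vx_tl hy, h] at e
    exact c.loop _ e

lemma lett_hf (z : PE K L × Bool) : hl c.lb z = D.lett (c.hf z) := by
  unfold hl hf; split_ifs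
  · rw [c.conf.lett_rev, lb]
  · rfl

variable {c j0}

lemma inn_out {u : PV K L} (h : (c.raw j0).Inn u) : c.val (outE u) := (c.raw_val j0).mp h.2.2

lemma inn_nx {u : PV K L} (h : (c.raw j0).Inn u) :
    c.val (inE u) ∧ c.nx (inE u) = some (outE u) :=
  c.prev _ _ (inn_out h) (h.1.trans h.2.1.symm)

lemma vert_A {u : PV K L} (h : (c.raw j0).Inn u) : D.vert (c.A u) = c.vx u := by
  rw [A, ← c.vx_hd, h.1]

lemma vert_B {u : PV K L} (h : (c.raw j0).Inn u) : D.vert (c.B u) = c.vx u := by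
  rw [B, ← c.vx_tl (inn_out h), h.2.1]

lemma A_ne_B {u : PV K L} (h : (c.raw j0).Inn u) : c.A u ≠ c.B u :=
  (c.nx_spec _ _ (inn_nx h).2).2.symm

lemma reg_match {u u' : PV K L} (h : (c.raw j0).Reg u) (e : (c.raw j0).ev u u') :
    (c.A u' = c.A u ∧ c.B u' = c.B u) ∨ (c.A u' = c.B u ∧ c.B u' = c.A u) := by
  have rA : ∀ u, (c.raw j0).Inn u → D.vert (rev (c.A u)) = c.vx (tl (inE u)) := fun u h => by
    rw [A, c.conf.invol, c.vx_tl (inn_nx h).1]
  have rB : ∀ u, D.vert (rev (c.B u)) = c.vx (hd (outE u)) := fun u => by rw [B, c.vx_hd]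
  obtain ⟨i', h'⟩ := h.2 u' e
  have i := h.inn
  have e' := e.2.2.symm
  rcases h' with ⟨h1, h2⟩ | ⟨h1, h2⟩
  · exact Or.inl ⟨c.multi (by rw [vert_A i, vert_A i', e']) (by rw [rA _ i, rA _ i', h1.2.2]),
      c.multi (by rw [vert_B i, vert_B i', e']) (by rw [rB, rB, h2.2.2])⟩
  · exact Or.inr ⟨c.multi (by rw [vert_B i, vert_A i', e']) (by rw [rB, rA _ i', h1.2.2]),
      c.multi (by rw [vert_A i, vert_B i', e']) (by rw [rB, rA _ i, h2.2.2])⟩

lemma mkd_ev (isY : S × Bool → Prop) {u u' : PV K L} (e : (c.raw j0).ev u u') :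
    c.mkd j0 isY u ↔ c.mkd j0 isY u' := by
  have : ∀ {u u' : PV K L}, (c.raw j0).ev u u' → c.mkd j0 isY u → c.mkd j0 isY u' := by
    intro u u' e h
    refine ⟨h.1.of_ev (c.ev_per j0) e, ?_⟩
    rcases reg_match h.1 e with ⟨h1, h2⟩ | ⟨h1, h2⟩ <;> rw [h1, h2]
    exacts [h.2, h.2.symm]
  exact ⟨this e, this ((c.ev_per j0).symm e)⟩

lemma good_lett {u u' : PV K L} (h : (c.raw j0).Good u u') :
    D.lett (c.A u') = D.lett (c.B u) ∧ D.lett (c.B u') = D.lett (c.A u) :=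
  ⟨by rw [A, B, c.conf.lett_rev, (c.mu_spec _ _ h.2.2.2).1, flp_flp],
    by rw [A, B, c.conf.lett_rev, (c.mu_spec _ _ h.2.2.1).1]⟩

lemma good_symm {u u' : PV K L} (h : (c.raw j0).Good u u') : (c.raw j0).Good u' u :=
  ⟨h.2.1, h.1, c.mu_symm _ _ h.2.2.2, c.mu_symm _ _ h.2.2.1⟩

lemma mkd_good (isY : S × Bool → Prop) {u u' : PV K L} (h : (c.raw j0).Good u u') :
    c.mkd j0 isY u ↔ c.mkd j0 isY u' := by
  unfold mkd
  rw [(good_lett h).1, (good_lett h).2]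
  exact ⟨fun e => ⟨h.2.1, e.2.symm⟩, fun e => ⟨h.1, e.2.symm⟩⟩

lemma good_not_ev {u u' : PV K L} (h : (c.raw j0).Good u u') : ¬ (c.raw j0).ev u u' := fun e =>
  (c.mu_spec _ _ h.2.2.1).2 (D.inj (c.B u') (c.A u)
    (by rw [vert_A h.1.inn, vert_B h.2.1.inn, e.2.2]) (good_lett h).2)

lemma mu_not_eqE {x y : PE K L} (h : c.mu x = some y) : ¬ (c.raw j0).eqE x y := by
  intro e
  obtain ⟨h1, h2⟩ := c.mu_spec _ _ h
  rcases ((c.eqE_iff j0).mp ((c.eqE_per j0).symm e)).2.2 with e | e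
  · rw [e] at h1; exact flp_ne _ h1.symm
  · exact h2 e

lemma repV {u : PV K L} (h : c.valid u) : (c.raw j0).ev u (rep (c.raw j0).ev u) :=
  (rep_spec (c.ev_per j0) ((c.ev_self j0).mpr h)).1

lemma repE {x : PE K L} (h : c.val x) : (c.raw j0).eqE x (rep (c.raw j0).eqE x) :=
  (rep_spec (c.eqE_per j0) ((c.eqE_self j0).mpr h)).1

lemma half_spec (t : ℕ) {x : PE K L} (hx : c.val x) {w : PV K L} (hw : c.valid w) {h : H}
    (h1 : h = c.θ x ∨ h = rev (c.θ x)) (h2 : D.vert h = c.vx w) :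
    c.hf ((c.raw j0).half x w) = h ∧
      ((c.raw j0).pat t).loc ((c.raw j0).half x w) = rep (c.raw j0).ev w := by
  obtain ⟨-, hy, h3⟩ := (c.eqE_iff j0).mp (repE (j0 := j0) hx)
  set y := rep (c.raw j0).eqE x with hy'
  have h4 : h = c.θ y ∨ h = rev (c.θ y) := by
    rcases h1 with rfl | rfl <;> rcases h3 with h3 | h3 <;> simp [h3, c.conf.invol]
  rcases h4 with rfl | rfl
  · have : ¬ (c.raw j0).ev (hd y) w := fun e => c.loop (c.θ y) (by rw [← c.vx_hd, e.2.2, h2])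
    refine ⟨by simp [hf, Raw.half, ← hy', this], ?_⟩
    simp only [Pat.loc, Raw.half, ← hy', this, decide_false, Raw.pat]
    exact rep_eq (c.ev_per j0) ⟨c.valid_tl hy, hw, by rw [c.vx_tl hy, h2]⟩
  · have : (c.raw j0).ev (hd y) w := ⟨c.valid_hd.mpr hy, hw, by rw [c.vx_hd, h2]⟩
    refine ⟨by simp [hf, Raw.half, ← hy', this], ?_⟩
    simp only [Pat.loc, Raw.half, ← hy', this, decide_true, Raw.pat]
    exact rep_eq (c.ev_per j0) this

lemma h1_spec (t : ℕ) {w : PV K L} (h : (c.raw j0).Reg w) :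
    c.hf (((c.raw j0).pat t).h1 w) = c.A w ∧
      ((c.raw j0).pat t).loc (((c.raw j0).pat t).h1 w) = rep (c.raw j0).ev w :=
  half_spec t (inn_nx h.inn).1 h.1.1 (Or.inr rfl) (vert_A h.inn)

lemma h2_spec (t : ℕ) {w : PV K L} (h : (c.raw j0).Reg w) :
    c.hf (((c.raw j0).pat t).h2 w) = c.B w ∧
      ((c.raw j0).pat t).loc (((c.raw j0).pat t).h2 w) = rep (c.raw j0).ev w :=
  half_spec t (inn_out h.inn) h.1.1 (Or.inl rfl) (vert_B h.inn)

lemma eqE_unique {x y z : PE K L} (h : (c.raw j0).eqE x y) (h' : (c.raw j0).eqE x z)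
    (e : y.1 = z.1) : y = z := by
  rcases (c.eqE_per j0).trans ((c.eqE_per j0).symm h) h' with ⟨h1, -⟩ | ⟨h1, h2⟩
  · exact tl_inj (c.ev_unique j0 ((c.ev_per j0).left h1) h1 e)
  · have a1 := congr_arg (fun u : PV K L => (u.2 : ℕ))
      (c.ev_unique j0 ((c.ev_per j0).left h1) h1 e)
    have a2 := congr_arg (fun u : PV K L => (u.2 : ℕ))
      (c.ev_unique j0 ((c.ev_per j0).left h2) h2 e)
    simp at a1 a2; omega

lemma mE_le (x : PE K L) : m (c.raw j0).eqE x ≤ K :=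
  m_le_card Prod.fst fun _ _ => eqE_unique

lemma mV_le (u : PV K L) : m (c.raw j0).ev u ≤ K :=
  m_le_card Prod.fst fun _ _ => c.ev_unique j0

lemma mE_le_tl (x : PE K L) : m (c.raw j0).eqE x ≤ m (c.raw j0).ev (tl x) :=
  m_le_m Prod.fst Prod.fst (fun _ _ => eqE_unique) fun y h => by
    rcases h with h | h
    exacts [⟨tl y, h.1, rfl⟩, ⟨hd y, h.1, rfl⟩]

lemma mE_le_hd (x : PE K L) : m (c.raw j0).eqE x ≤ m (c.raw j0).ev (hd x) :=
  m_le_m Prod.fst Prod.fst (fun _ _ => eqE_unique) fun y h => by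
    rcases h with h | h
    exacts [⟨hd y, h.2, rfl⟩, ⟨tl y, h.2, rfl⟩]

lemma mV_le_in {u : PV K L} (h : (c.raw j0).Reg u) :
    m (c.raw j0).ev u ≤ m (c.raw j0).eqE (inE u) :=
  m_le_m Prod.fst Prod.fst (fun _ _ => c.ev_unique j0) fun u' e => by
    have i' := (h.2 u' e).1
    rcases reg_match h e with ⟨h1, -⟩ | ⟨-, h1⟩
    · refine ⟨inE u', (c.eqE_iff j0).mpr ⟨(inn_nx h.inn).1, (inn_nx i').1, Or.inl ?_⟩, rfl⟩
      simpa [A, c.conf.invol] using congr_arg rev h1.symm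
    · refine ⟨outE u', (c.eqE_iff j0).mpr ⟨(inn_nx h.inn).1, inn_out i', Or.inr ?_⟩, rfl⟩
      simpa [A, B, c.conf.invol] using congr_arg rev h1.symm

lemma mV_le_out {u : PV K L} (h : (c.raw j0).Reg u) :
    m (c.raw j0).ev u ≤ m (c.raw j0).eqE (outE u) :=
  m_le_m Prod.fst Prod.fst (fun _ _ => c.ev_unique j0) fun u' e => by
    have i' := (h.2 u' e).1
    rcases reg_match h e with ⟨-, h1⟩ | ⟨h1, -⟩
    · exact ⟨outE u', (c.eqE_iff j0).mpr ⟨inn_out h.inn, inn_out i', Or.inl h1.symm⟩, rfl⟩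
    · exact ⟨inE u', (c.eqE_iff j0).mpr ⟨inn_out h.inn, (inn_nx i').1, Or.inr h1.symm⟩, rfl⟩

lemma mem_J {t : ℕ} {x : PE K L} : x ∈ ((c.raw j0).pat t).J ↔
    Rep (c.raw j0).eqE x ∧ t ≤ m (c.raw j0).eqE x ∧ c.val x := by
  rw [← c.raw_val j0]; exact mem_lay

lemma rep_mem_J {t : ℕ} {x : PE K L} (hx : c.val x) (ht : t ≤ m (c.raw j0).eqE x) :
    rep (c.raw j0).eqE x ∈ ((c.raw j0).pat t).J :=
  mem_J.mpr ⟨(rep_spec (c.eqE_per j0) ((c.eqE_self j0).mpr hx)).2,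
    m_eq (c.eqE_per j0) (repE (j0 := j0) hx) ▸ ht, ((c.eqE_iff j0).mp (repE hx)).2.1⟩

lemma mem_Rg {t : ℕ} {u : PV K L} : u ∈ ((c.raw j0).pat t).Rg ↔
    Rep (c.raw j0).ev u ∧ t ≤ m (c.raw j0).ev u ∧ (c.raw j0).Reg u := mem_lay

lemma rep_mem_Rg {t : ℕ} {u : PV K L} (hu : (c.raw j0).Reg u) (ht : t ≤ m (c.raw j0).ev u) :
    rep (c.raw j0).ev u ∈ ((c.raw j0).pat t).Rg :=
  mem_Rg.mpr ⟨(rep_spec (c.ev_per j0) hu.1).2, m_eq (c.ev_per j0) (repV (j0 := j0) hu.1.1) ▸ ht,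
    hu.of_ev (c.ev_per j0) (repV hu.1.1)⟩

lemma mem_W {t : ℕ} {w : PV K L} : w ∈ ((c.raw j0).pat t).W ↔
    ∃ x ∈ ((c.raw j0).pat t).J, rep (c.raw j0).ev (tl x) = w ∨ rep (c.raw j0).ev (hd x) = w := by
  simp only [Raw.pat, mem_union, mem_image, and_or_left, exists_or]

lemma loc_mem {t : ℕ} {z : PE K L × Bool} (h : z.1 ∈ ((c.raw j0).pat t).J) :
    ((c.raw j0).pat t).loc z ∈ ((c.raw j0).pat t).W := by
  unfold Pat.loc
  split_ifs
  exacts [mem_W.mpr ⟨_, h, Or.inr rfl⟩, mem_W.mpr ⟨_, h, Or.inl rfl⟩]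

lemma conE {t : ℕ} {x : PE K L} (hx : x ∈ ((c.raw j0).pat t).J) (h : x ∉ ((c.raw j0).pat t).FE) :
    Con (c.raw j0).eqE (c.raw j0).nuE x := by
  by_contra hn
  obtain ⟨h1, h2, h3⟩ := mem_lay.mp hx
  exact h (mem_lay.mpr ⟨h1, h2, h3, hn⟩)

lemma conV {t : ℕ} {u : PV K L} (hx : u ∈ ((c.raw j0).pat t).Rg) (h : u ∉ ((c.raw j0).pat t).FV) :
    Con (c.raw j0).ev (c.raw j0).nuV u := by
  by_contra hn
  obtain ⟨h1, h2, h3⟩ := mem_lay.mp hx
  exact h (mem_lay.mpr ⟨h1, h2, h3, hn⟩)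

lemma parV_mem {t : ℕ} {u : PV K L} (hx : u ∈ ((c.raw j0).pat t).Rg)
    (h : u ∉ ((c.raw j0).pat t).FV) : ((c.raw j0).pat t).pV u ∈ ((c.raw j0).pat t).Rg := by
  obtain ⟨-, h2, h3⟩ := wit_spec _ _ (conV hx h)
  have g := ((c.raw j0).nuV_eq_some.mp h2).2.1
  refine rep_mem_Rg g ?_
  rw [m_eq (c.ev_per j0) (repV (j0 := j0) g.1.1)]
  exact (mem_Rg.mp hx).2.1.trans (m_le_of_rank_lt _ h3)

variable (c j0)

theorem pat_wf (t : ℕ) : ((c.raw j0).pat t).WF := by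
  have a1 : ∀ w ∈ ((c.raw j0).pat t).Rg, (((c.raw j0).pat t).h1 w).1 ∈ ((c.raw j0).pat t).J ∧
      ((c.raw j0).pat t).loc (((c.raw j0).pat t).h1 w) = w := fun w hw => by
    obtain ⟨h1, h2, h3⟩ := mem_Rg.mp hw
    exact ⟨rep_mem_J (inn_nx h3.inn).1 (h2.trans (mV_le_in h3)),
      (h1_spec t h3).2.trans (rep_self (c.ev_per j0) h1)⟩
  refine ⟨fun x hx => mem_W.mpr ⟨x, hx, Or.inl rfl⟩, fun x hx => mem_W.mpr ⟨x, hx, Or.inr rfl⟩,
    fun w hw => mem_W.mp hw, fun w hw => ?_, a1, fun w hw => ?_, fun w hw e => ?_,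
    fun x hx => ?_, fun x hx => ?_, fun x hx h => ?_, fun w hw h => ⟨parV_mem hw h, ?_⟩⟩
  · rw [← (a1 w hw).2]; exact loc_mem (a1 w hw).1
  · obtain ⟨h1, h2, h3⟩ := mem_Rg.mp hw
    exact ⟨rep_mem_J (inn_out h3.inn) (h2.trans (mV_le_out h3)),
      (h2_spec t h3).2.trans (rep_self (c.ev_per j0) h1)⟩
  · have h3 := (mem_Rg.mp hw).2.2
    exact A_ne_B h3.inn (by rw [← (h1_spec t h3).1, ← (h2_spec t h3).1, e])
  · obtain ⟨h1, h2, h3⟩ := mem_lay.mp hx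
    exact mem_lay.mpr ⟨h1, h2, h3.1⟩
  · obtain ⟨h1, h2, h3⟩ := mem_lay.mp hx
    exact mem_lay.mpr ⟨h1, h2, h3.1⟩
  · obtain ⟨-, h2, h3⟩ := wit_spec _ _ (conE hx h)
    have g := c.mu_val _ _ (c.mu_symm _ _ ((c.raw j0).good_of_nuE h2).1)
    refine ⟨rep_mem_J g ?_, h3⟩
    rw [m_eq (c.eqE_per j0) (repE (j0 := j0) g)]
    exact (mem_J.mp hx).2.1.trans (m_le_of_rank_lt _ h3)
  · exact (wit_spec _ _ (conV hw h)).2.2

variable {c j0}

lemma mark_iff (isY : S × Bool → Prop) {t : ℕ} {w : PV K L} :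
    ((c.raw j0).pat t).mark isY c.lb w ↔ w ∈ ((c.raw j0).pat t).Rg ∧ c.mkd j0 isY w := by
  refine and_congr_right fun hw => ?_
  have h := (mem_Rg.mp hw).2.2
  rw [lett_hf, lett_hf, (h1_spec t h).1, (h2_spec t h).1]
  exact ⟨fun e => ⟨h, e⟩, fun e => e.2⟩

lemma mark_rep (isY : S × Bool → Prop) {t : ℕ} {u : PV K L} (hu : c.valid u)
    (ht : t ≤ m (c.raw j0).ev u) :
    ((c.raw j0).pat t).mark isY c.lb (rep (c.raw j0).ev u) ↔ c.mkd j0 isY u := by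
  rw [mark_iff, ← mkd_ev isY (repV hu)]
  exact ⟨fun h => h.2, fun h => ⟨rep_mem_Rg h.1 ht, h⟩⟩

lemma col_vx {u : PV K L} (hu : c.valid u) : D.col (c.vx u) = D.col (c.vx (u.1, 0)) := by
  obtain ⟨x, h1, h2, h3⟩ := c.valid_iff.mp hu
  have w := c.cell_wk h1
  have : ∀ i ≤ (x.2 : ℕ) + 1, D.col (c.vx (x.1, Fin.ofNat (L + 1) i)) = D.col (c.vx (x.1, 0)) := by
    intro i hi
    induction i with
    | zero => rfl
    | succ i ih =>
      have := w.1 i hi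
      simp only at this
      rw [← this.2, c.conf.col_rev, this.1, ih (by omega)]
  have := this u.2 h3
  rwa [ofNat_eq _ u.2 _ rfl, h2] at this

lemma valid_of_W {t : ℕ} {w : PV K L} (hw : w ∈ ((c.raw j0).pat t).W) : c.valid w := by
  obtain ⟨x, hx, rfl | rfl⟩ := mem_W.mp hw
  · exact (repV (c.valid_tl (mem_J.mp hx).2.2)).2.1
  · exact (repV (c.valid_hd.mpr (mem_J.mp hx).2.2)).2.1

lemma root_spec {u : PV K L} (h : (c.raw j0).root = some u) :
    ∃ x, c.val x ∧ tl x = u ∧ c.vx u = j0 := by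
  simp only [raw] at h
  split_ifs at h with hx
  obtain rfl := Option.some.inj h
  exact ⟨_, hx.choose_spec.1, rfl, (c.vx_tl hx.choose_spec.1).trans hx.choose_spec.2⟩

variable (c j0)

theorem pat_real (isY : S × Bool → Prop) (t : ℕ) :
    ((c.raw j0).pat t).Real D isY j0 rev c.θ c.vx := by
  refine ⟨fun x hx => ?_, fun x hx => ?_, fun w hw => col_vx (valid_of_W hw), fun w hw => ?_,
    fun x hx y hy hne => ?_, fun x hx h => ?_, fun w hw h => ?_⟩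
  · have h := (mem_J.mp hx).2.2
    exact (c.vx_tl h).symm.trans (repV (c.valid_tl h)).2.2
  · have h := (mem_J.mp hx).2.2
    exact (c.vx_hd x).symm.trans (repV (c.valid_hd.mpr h)).2.2
  · simp only [Raw.pat] at hw
    split_ifs at hw
    · simp only [Option.mem_toFinset, Option.mem_def, Option.map_eq_some_iff] at hw
      obtain ⟨u, h1, rfl⟩ := hw
      obtain ⟨x, h2, rfl, h3⟩ := root_spec h1
      exact (repV (c.valid_tl h2)).2.2.symm.trans h3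
    · simp at hw
  · obtain ⟨a1, -, a2⟩ := mem_J.mp hx
    obtain ⟨b1, -, b2⟩ := mem_J.mp hy
    exact not_or.mp fun e => hne (rep_unique (c.eqE_per j0) a1 b1 ((c.eqE_iff j0).mpr ⟨a2, b2, e⟩))
  · obtain ⟨h1, h2, -⟩ := wit_spec _ _ (conE hx h)
    have g0 := ((c.raw j0).good_of_nuE h2).1
    have g := c.mu_val _ _ (c.mu_symm _ _ g0)
    have e1 := c.lb_of_eqE j0 h1
    have e2 := c.lb_of_eqE j0 (repE (j0 := j0) g)
    have e4 : c.lb (wit (c.raw j0).eqE (c.raw j0).nuE x).1 =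
        flp (c.lb (wit (c.raw j0).eqE (c.raw j0).nuE x).2) := by
      rw [lb, lb, (c.mu_spec _ _ g0).1, flp_flp]
    change c.lb x = hl c.lb _
    rw [e1, e4, e2]
    simp only [hl, Raw.pat]
    split_ifs <;> simp_all [flp_flp]
  · obtain ⟨h1, h2, -⟩ := wit_spec _ _ (conV hw h)
    have g := (c.raw j0).nuV_eq_some.mp h2
    change ((c.raw j0).pat t).mark isY c.lb w ↔ ((c.raw j0).pat t).mark isY c.lb _
    rw [mark_iff, mark_iff, and_iff_right hw, and_iff_right (parV_mem hw h), mkd_ev isY h1,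
      mkd_good isY g]
    exact mkd_ev isY (repV g.2.1.1.1)

end NC

end Crest.Agent.R184.CI
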