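import Crest.Agent.R184.Defs

/-! Counting helpers and finite projective planes for the design. -/

set_option autoImplicit false

namespace Crest.Agent.R184

open Finset

/-- number of elements satisfying a predicate -/
noncomputable def designCnt {α : Type} (P : α → Prop) : ℕ := Nat.card {a // P a}

theorem designCnt_filter {α : Type} [Fintype α] (P : α → Prop) [DecidablePred P] :
    (univ.filter P).card = designCnt P := by
  rw [designCnt, Nat.card_eq_fintype_card, Fintype.card_subtype]

theorem designCnt_congr {α : Type} {P Q : α → Prop} (h : ∀ a, P a ↔ Q a) :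
    designCnt P = designCnt Q := by
  have : P = Q := funext fun a => propext (h a)
  rw [this]

theorem designCnt_equiv {α β : Type} (E : α ≃ β) (P : β → Prop) :
    designCnt (fun a => P (E a)) = designCnt P :=
  Nat.card_congr (E.subtypeEquiv fun _ => Iff.rfl)

theorem designCnt_sum {α β : Type} [Finite α] [Finite β] (P : α ⊕ β → Prop) :
    designCnt P = designCnt (fun a => P (.inl a)) + designCnt (fun b => P (.inr b)) := by
  unfold designCnt
  rw [Nat.card_congr (Equiv.subtypeSum (p := P)), Nat.card_sum]

theorem designCnt_prod {α β : Type} (P : α → Prop) (Q : β → Prop) :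
    designCnt (fun x : α × β => P x.1 ∧ Q x.2) = designCnt P * designCnt Q := by
  unfold designCnt
  rw [Nat.card_congr (Equiv.subtypeProdEquivProd (p := P) (q := Q)), Nat.card_prod]

theorem designCnt_true {α : Type} : designCnt (fun _ : α => True) = Nat.card α :=
  Nat.card_congr (Equiv.subtypeUnivEquiv fun _ => trivial)

theorem designCnt_false {α : Type} : designCnt (fun _ : α => False) = 0 := by
  unfold designCnt
  simp

theorem designCnt_eq {α : Type} (a : α) : designCnt (fun x => x = a) = 1 := by
  unfold designCnt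
  simp

theorem designCnt_unique {α : Type} {P : α → Prop} (h : ∃! a, P a) : designCnt P = 1 := by
  obtain ⟨a, ha, hu⟩ := h
  rw [← designCnt_eq a]
  exact designCnt_congr fun x => ⟨hu x, fun hx => hx ▸ ha⟩

theorem designCnt_split {α : Type} [Finite α] (P Q : α → Prop) :
    designCnt P = designCnt (fun a => P a ∧ Q a) + designCnt (fun a => P a ∧ ¬ Q a) := by
  classical
  cases nonempty_fintype α
  rw [← designCnt_filter, ← designCnt_filter, ← designCnt_filter, ← filter_filter, ← filter_filter,
    card_filter_add_card_filter_not]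

theorem designCnt_le_one {α : Type} [Finite α] {P : α → Prop} (h : ∀ a b, P a → P b → a = b) :
    designCnt P ≤ 1 := by
  have : Subsingleton {a // P a} := ⟨fun a b => Subtype.ext (h _ _ a.2 b.2)⟩
  exact Finite.card_le_one_iff_subsingleton.mpr this

/-- a finite projective plane of order `q` -/
structure DesignPlane (Pt Ln : Type) (q : ℕ) where
  inc : Pt → Ln → Prop
  card_pt : Nat.card Pt = q ^ 2 + q + 1
  card_ln : Nat.card Ln = q ^ 2 + q + 1
  on_ln : ∀ l, designCnt (fun x => inc x l) = q + 1
  on_pt : ∀ x, designCnt (fun l => inc x l) = q + 1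
  two_pt : ∀ x x', x ≠ x' → designCnt (fun l => inc x l ∧ inc x' l) = 1
  two_ln : ∀ l l', l ≠ l' → designCnt (fun x => inc x l ∧ inc x l') = 1

open Configuration in
theorem design_plane_of_field (K : Type) [Field K] [Finite K] :
    ∃ (Pt Ln : Type) (_ : Finite Pt) (_ : Finite Ln), Nonempty (DesignPlane Pt Ln (Nat.card K)) := by
  classical
  let P := Projectivization K (Fin 3 → K)
  have hfin : Finite P := inferInstance
  cases nonempty_fintype P
  have hc : Nat.card P = Nat.card K ^ 2 + Nat.card K + 1 := by
    rw [Projectivization.card_of_finrank K (Fin 3 → K) (n := 3) (by simp)]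
    simp [Finset.sum_range_succ]
    ring
  have ho : ProjectivePlane.order P P = Nat.card K := by
    have h1 := ProjectivePlane.card_points P P
    rw [← Nat.card_eq_fintype_card, hc] at h1
    rcases lt_trichotomy (ProjectivePlane.order P P) (Nat.card K) with h | h | h
    · nlinarith
    · exact h
    · nlinarith
  refine ⟨P, P, hfin, hfin, ⟨⟨fun x l => x ∈ l, hc, hc, fun l => ?_, fun x => ?_, ?_, ?_⟩⟩⟩
  · rw [← ho]
    exact ProjectivePlane.pointCount_eq P l
  · rw [← ho]
    exact ProjectivePlane.lineCount_eq P x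
  · intro x x' h
    exact designCnt_unique (HasLines.existsUnique_line P P x x' h)
  · intro l l' h
    exact designCnt_unique (HasPoints.existsUnique_point P P l l' h)

namespace DesignPlane

variable {Pt Ln : Type} [Finite Pt] [Finite Ln] {q : ℕ} (A : DesignPlane Pt Ln q)

theorem off_ln (l : Ln) : designCnt (fun x => ¬ A.inc x l) = q ^ 2 := by
  have h := designCnt_split (fun _ : Pt => True) (fun x => A.inc x l)
  simp only [true_and] at h
  rw [designCnt_true, A.card_pt, A.on_ln] at h
  omega

theorem off_pt (x : Pt) : designCnt (fun l => ¬ A.inc x l) = q ^ 2 := by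
  have h := designCnt_split (fun _ : Ln => True) (fun l => A.inc x l)
  simp only [true_and] at h
  rw [designCnt_true, A.card_ln, A.on_pt] at h
  omega

omit [Finite Pt] [Finite Ln] in
theorem meet_mod {p : ℕ} (hq : p ∣ q) (l l' : Ln) :
    designCnt (fun x => A.inc x l ∧ A.inc x l') ≡ 1 [MOD p] := by
  by_cases h : l = l'
  · subst h
    simp only [and_self]
    rw [A.on_ln]
    simpa using ((Nat.modEq_zero_iff_dvd.mpr hq).add_right 1)
  · rw [A.two_ln l l' h]

theorem off_meet_mod (l l' : Ln) :
    designCnt (fun x => ¬ A.inc x l ∧ ¬ A.inc x l') ≡ 0 [MOD q] := by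
  by_cases h : l = l'
  · subst h
    simp only [and_self]
    rw [A.off_ln]
    exact Nat.modEq_zero_iff_dvd.mpr (dvd_pow_self q two_ne_zero)
  · have h1 := designCnt_split (fun x => ¬ A.inc x l) (fun x => A.inc x l')
    have h2 := designCnt_split (fun x => A.inc x l') (fun x => A.inc x l)
    rw [A.off_ln] at h1
    rw [A.on_ln, A.two_ln l' l (Ne.symm h)] at h2
    have h3 : designCnt (fun x => ¬ A.inc x l ∧ A.inc x l') =
        designCnt (fun x => A.inc x l' ∧ ¬ A.inc x l) := designCnt_congr fun _ => and_comm
    have h4 : designCnt (fun x => ¬ A.inc x l ∧ ¬ A.inc x l') + q = q ^ 2 := by omega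
    apply Nat.modEq_zero_iff_dvd.mpr
    exact (Nat.dvd_add_left (dvd_refl q)).mp (h4 ▸ dvd_pow_self q two_ne_zero)

end DesignPlane

/-- the letters -/
def designLet {Pt Y : Type} {m : ℕ} (φ : Y ⊕ (Fin m × Bool) ≃ Pt) :
    (Y ⊕ Fin m) × Bool ≃ Pt ⊕ Y where
  toFun
    | (.inl y, true) => .inr y
    | (.inl y, false) => .inl (φ (.inl y))
    | (.inr k, b) => .inl (φ (.inr (k, b)))
  invFun
    | .inr y => (.inl y, true)
    | .inl x => Sum.elim (fun y => (.inl y, false)) (fun kb => (.inr kb.1, kb.2)) (φ.symm x)
  left_inv := by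
    rintro ⟨y | k, _ | _⟩ <;> simp
  right_inv := by
    rintro (x | y)
    · obtain ⟨z, rfl⟩ := φ.surjective x
      rcases z with y | ⟨k, b⟩ <;> simp
    · rfl

theorem designLet_flp {Pt Y : Type} {m : ℕ} (φ : Y ⊕ (Fin m × Bool) ≃ Pt)
    (l : (Y ⊕ Fin m) × Bool) (y : Y) (h : designLet φ l = .inr y) :
    ∃ x, designLet φ (flp l) = .inl x := by
  rcases l with ⟨y' | k, _ | _⟩
  · simp [designLet] at h
  · exact ⟨_, rfl⟩
  · simp [designLet] at h
  · simp [designLet] at h

end Crest.Agent.R184
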