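import Crest.Agent.R184.Defs
import Crest.Agent.R184.DesignAux

/-! The design: lines of a big projective plane, and complements of lines of three small ones. -/

set_option autoImplicit false
set_option linter.unusedSectionVars false

namespace Crest.Agent.R184

open Finset

/-- copies of a line -/
abbrev DesignK (Ln' : Type) (a rest : ℕ) : Type := (Fin 3 × Ln' × Fin a) ⊕ Fin rest

/-- vertices -/
abbrev DesignV (Ln Ln' : Type) (a rest : ℕ) : Type :=
  (Fin 5 × Ln × DesignK Ln' a rest) ⊕ Fin 4

section

variable {Pt Ln Pt' Ln' : Type} {q p : ℕ} (A : DesignPlane Pt Ln q) (B : DesignPlane Pt' Ln' p)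
  {a rest : ℕ}

/-- small letters at a copy -/
def designHasK : DesignK Ln' a rest → Fin 3 × Pt' → Prop
  | .inl k, y => k.1 = y.1 ∧ ¬ B.inc y.2 k.2.1
  | .inr _, _ => False

/-- letters at a vertex -/
def designHas : DesignV Ln Ln' a rest → Pt ⊕ (Fin 3 × Pt') → Prop
  | .inr _, _ => True
  | .inl v, .inl x => A.inc x v.2.1
  | .inl v, .inr y => designHasK B v.2.2 y

/-- colours -/
def designCol : DesignV Ln Ln' a rest → Fin 5
  | .inl v => v.1
  | .inr c => c.castSucc

/-- blocks -/
def designBlk : Pt ⊕ (Fin 3 × Pt') → Option (Fin 3)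
  | .inl _ => none
  | .inr y => some y.1

variable [Finite Pt] [Finite Ln] [Finite Pt'] [Finite Ln']

theorem design_cntK (y : Fin 3 × Pt') :
    designCnt (fun k : DesignK Ln' a rest => designHasK B k y) = p ^ 2 * a := by
  rw [designCnt_sum]
  have h1 : designCnt (fun k : Fin 3 × Ln' × Fin a => designHasK (rest := rest) B (.inl k) y) =
      designCnt (fun k : Fin 3 × Ln' × Fin a =>
        k.1 = y.1 ∧ (fun z : Ln' × Fin a => ¬ B.inc y.2 z.1 ∧ True) k.2) :=
    designCnt_congr fun k => by simp [designHasK]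
  have h2 : designCnt (fun k : Fin rest => designHasK (a := a) B (.inr k) y) = 0 :=
    designCnt_false
  rw [h1.trans (designCnt_prod (fun m => m = y.1) (fun z : Ln' × Fin a => ¬ B.inc y.2 z.1 ∧ True)),
    h2, designCnt_eq,
    designCnt_prod (fun l => ¬ B.inc y.2 l) (fun _ : Fin a => True), B.off_pt, designCnt_true]
  simp

omit [Finite Pt'] in
include B in
theorem design_cardK :
    Nat.card (DesignK Ln' a rest) = 3 * (p ^ 2 + p + 1) * a + rest := by
  simp [Nat.card_sum, Nat.card_prod, B.card_ln, mul_assoc]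

/-- number of special vertices of a colour -/
noncomputable def designS (c : Fin 5) : ℕ := designCnt fun c' : Fin 4 => c'.castSucc = c

theorem designS_le (c : Fin 5) : designS c ≤ 1 :=
  designCnt_le_one fun _ _ h h' => Fin.castSucc_injective _ (h.trans h'.symm)

theorem design_cnt_gen (c : Fin 5) (P : DesignV Ln Ln' a rest → Prop) (Q : Ln → Prop)
    (R : DesignK Ln' a rest → Prop) (h1 : ∀ v, P (.inl v) ↔ Q v.2.1 ∧ R v.2.2)
    (h2 : ∀ c', P (.inr c')) :
    designCnt (fun v => designCol v = c ∧ P v) = designCnt Q * designCnt R + designS c := by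
  rw [designCnt_sum]
  have h3 : designCnt (fun v : Fin 5 × Ln × DesignK Ln' a rest =>
      designCol (.inl v : DesignV Ln Ln' a rest) = c ∧ P (.inl v)) =
      designCnt (fun v : Fin 5 × Ln × DesignK Ln' a rest =>
        v.1 = c ∧ (fun z : Ln × DesignK Ln' a rest => Q z.1 ∧ R z.2) v.2) :=
    designCnt_congr fun v => by simp [designCol, h1]
  rw [h3.trans (designCnt_prod (fun m => m = c)
    (fun z : Ln × DesignK Ln' a rest => Q z.1 ∧ R z.2)), designCnt_eq, designCnt_prod, one_mul]
  congr 1
  exact designCnt_congr fun c' => by simp [designCol, h2]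

theorem design_meet (hq : p ∣ q) (u v : Fin 5 × Ln × DesignK Ln' a rest) :
    designCnt (fun l => designHas A B (.inl u) l ∧ designHas A B (.inl v) l) ≡ 1 [MOD p] := by
  rw [designCnt_sum]
  have h1 := A.meet_mod hq u.2.1 v.2.1
  have h2 : designCnt (fun y : Fin 3 × Pt' => designHasK B u.2.2 y ∧ designHasK B v.2.2 y) ≡ 0
      [MOD p] := by
    rcases u.2.2 with k | k
    · rcases v.2.2 with k' | k'
      · have : designCnt (fun y : Fin 3 × Pt' =>
            designHasK (rest := rest) B (.inl k) y ∧ designHasK (rest := rest) B (.inl k') y) =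
            designCnt (fun y : Fin 3 × Pt' => (fun m => k.1 = m ∧ k'.1 = m) y.1 ∧
              (fun x => ¬ B.inc x k.2.1 ∧ ¬ B.inc x k'.2.1) y.2) :=
          designCnt_congr fun y => by simp only [designHasK]; tauto
        rw [this.trans (designCnt_prod (fun m => k.1 = m ∧ k'.1 = m)
          (fun x => ¬ B.inc x k.2.1 ∧ ¬ B.inc x k'.2.1))]
        simpa using (B.off_meet_mod k.2.1 k'.2.1).mul_left _
      · simp only [designHasK, and_false]
        rw [designCnt_false]
    · simp only [designHasK, false_and]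
      rw [designCnt_false]
  exact h1.add h2

theorem design_none (hq : p ∣ q) (u : Fin 5 × Ln × DesignK Ln' a rest) :
    designCnt (fun l => designHas A B (.inl u) l ∧ designBlk l = none) ≡ 1 [MOD p] := by
  rw [designCnt_sum]
  have h1 : designCnt (fun x : Pt => designHas A B (.inl u) (.inl x) ∧
      designBlk (Pt' := Pt') (.inl x) = none) = q + 1 := by
    rw [← A.on_ln u.2.1]
    exact designCnt_congr fun x => by simp [designHas, designBlk]
  have h2 : designCnt (fun y : Fin 3 × Pt' => designHas A B (.inl u) (.inr y) ∧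
      designBlk (Pt := Pt) (.inr y) = none) = 0 := by
    rw [← designCnt_false]
    exact designCnt_congr fun x => by simp [designBlk]
  rw [h1, h2]
  simpa using ((Nat.modEq_zero_iff_dvd.mpr hq).add_right 1)

theorem design_some (u : Fin 5 × Ln × DesignK Ln' a rest) (m : Fin 3) :
    designCnt (fun l => designHas A B (.inl u) l ∧ designBlk l = some m) ≡ 0 [MOD p] := by
  rw [designCnt_sum]
  have h1 : designCnt (fun x : Pt => designHas A B (.inl u) (.inl x) ∧
      designBlk (Pt' := Pt') (.inl x) = some m) = 0 := by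
    rw [← designCnt_false]
    exact designCnt_congr fun x => by simp [designBlk]
  have h2 : designCnt (fun y : Fin 3 × Pt' => designHasK B u.2.2 y ∧
      designBlk (Pt := Pt) (.inr y) = some m) ≡ 0 [MOD p] := by
    rcases u.2.2 with k | k
    · have : designCnt (fun y : Fin 3 × Pt' =>
          designHasK (rest := rest) B (.inl k) y ∧ designBlk (Pt := Pt) (.inr y) = some m) =
          designCnt (fun y : Fin 3 × Pt' => (fun m' => k.1 = m' ∧ m' = m) y.1 ∧
            (fun x => ¬ B.inc x k.2.1) y.2) :=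
        designCnt_congr fun y => by
          simp only [designHasK, designBlk, Option.some.injEq]; tauto
      rw [this.trans (designCnt_prod (fun m' => k.1 = m' ∧ m' = m) (fun x => ¬ B.inc x k.2.1)),
        B.off_ln]
      exact Nat.modEq_zero_iff_dvd.mpr ((dvd_pow_self p two_ne_zero).mul_left _)
    · simp only [designHasK, false_and]
      rw [designCnt_false]
  rw [h1, zero_add]
  exact h2

include A B in
theorem design_blk (hq : p ∣ q) (o : Option (Fin 3)) :
    designCnt (fun l : Pt ⊕ (Fin 3 × Pt') => designBlk l = o) ≡ 1 [MOD p] := by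
  rw [designCnt_sum]
  have key : ∀ r, p ∣ r → r ^ 2 + r + 1 ≡ 1 [MOD p] := fun r hr => by
    simpa using (Nat.modEq_zero_iff_dvd.mpr
      (dvd_add (hr.trans (dvd_pow_self r two_ne_zero)) hr)).add_right 1
  rcases o with _ | m
  · have h1 : designCnt (fun x : Pt => designBlk (Pt' := Pt') (.inl x) = none) =
        q ^ 2 + q + 1 := by
      rw [← A.card_pt, ← designCnt_true]
      exact designCnt_congr fun x => by simp [designBlk]
    have h2 : designCnt (fun y : Fin 3 × Pt' => designBlk (Pt := Pt) (.inr y) = none) = 0 := by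
      rw [← designCnt_false]
      exact designCnt_congr fun x => by simp [designBlk]
    rw [h1, h2]
    exact key q hq
  · have h1 : designCnt (fun x : Pt => designBlk (Pt' := Pt') (.inl x) = some m) = 0 := by
      rw [← designCnt_false]
      exact designCnt_congr fun x => by simp [designBlk]
    have h2 : designCnt (fun y : Fin 3 × Pt' => designBlk (Pt := Pt) (.inr y) = some m) =
        designCnt (fun y : Fin 3 × Pt' => (fun m' => m' = m) y.1 ∧ (fun _ => True) y.2) :=
      designCnt_congr fun x => by simp [designBlk]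
    rw [h1, h2.trans (designCnt_prod (fun m' => m' = m) (fun _ : Pt' => True)), designCnt_eq,
      designCnt_true, B.card_pt, zero_add, one_mul]
    exact key p dvd_rfl

end

theorem design_abstract {Pt Ln Pt' Ln' : Type} [Finite Pt] [Finite Ln] [Finite Pt'] [Finite Ln']
    {q p : ℕ} (A : DesignPlane Pt Ln q) (B : DesignPlane Pt' Ln' p) (hp : 2 ≤ p) (hq : p ∣ q)
    (he : 100 * p ^ 2 ≤ q) (γ : ℕ) (hγ : 0 < γ) :
    ∃ (V S H : Type) (_ : Fintype V) (_ : Fintype S) (_ : Fintype H) (D : HES V S (Fin 5) H)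
      (blk : S × Bool → Option (Fin 3)) (sp : Fin 4 → V) (j0 : V),
      DesignOK D (fun l => blk l ≠ none) q (3 * (p ^ 2 + p + 1))
        (p ^ 2 * (q ^ 2 + q + 1) * (q + 1) * γ) ∧
      AlgOK D p blk sp ∧ D.col j0 = 4 := by
  classical
  have hM : p ^ 2 + p + 1 ≤ 2 * p ^ 2 := by nlinarith
  have hq6 : 6 ≤ q := by nlinarith
  obtain ⟨rest, hrest⟩ : ∃ rest, 3 * (p ^ 2 + p + 1) * ((q + 1) * γ) + rest =
      p ^ 2 * (q ^ 2 + q + 1) * γ := by
    apply Nat.exists_eq_add_of_le _ |>.imp fun _ h => h.symm
    have h1 : 6 * (q + 1) ≤ q ^ 2 + q + 1 := by nlinarith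
    calc 3 * (p ^ 2 + p + 1) * ((q + 1) * γ) ≤ 3 * (2 * p ^ 2) * ((q + 1) * γ) := by gcongr
      _ = p ^ 2 * (6 * (q + 1)) * γ := by ring
      _ ≤ _ := by gcongr
  obtain ⟨m, hm⟩ : ∃ m, 3 * (p ^ 2 + p + 1) + 2 * m = q ^ 2 + q + 1 := by
    obtain ⟨u, hu⟩ := Nat.even_mul_succ_self p
    obtain ⟨w, hw⟩ := Nat.even_mul_succ_self q
    refine ⟨w - 3 * u - 1, ?_⟩
    have h1 : p ^ 2 + p = 2 * u := by nlinarith
    have h2 : q ^ 2 + q = 2 * w := by nlinarith
    have h3 : 3 * u + 1 ≤ w := by nlinarith
    omega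
  have hφ : Nat.card ((Fin 3 × Pt') ⊕ (Fin m × Bool)) = Nat.card Pt := by
    have hb : Nat.card Bool = 2 := by simp
    simp only [Nat.card_sum, Nat.card_prod, B.card_pt, A.card_pt, Nat.card_fin, hb]
    omega
  obtain ⟨φ⟩ := Finite.card_eq.mp hφ
  let E := designLet φ
  let V := DesignV Ln Ln' ((q + 1) * γ) rest
  let S := (Fin 3 × Pt') ⊕ Fin m
  let H := {x : V × (S × Bool) // designHas A B x.1 (E x.2)}
  let D : HES V S (Fin 5) H :=
    { vert := fun h => h.1.1
      lett := fun h => h.1.2
      col := designCol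
      inj := fun h h' h1 h2 => Subtype.ext (Prod.ext h1 h2) }
  letI iV : Fintype V := Fintype.ofFinite V
  letI iS : Fintype S := Fintype.ofFinite S
  letI iH : Fintype H := Fintype.ofFinite H
  have hhas : ∀ v l, D.has v l ↔ designHas A B v (E l) := fun v l =>
    ⟨by rintro ⟨h, rfl, rfl⟩; exact h.2, fun h => ⟨⟨(v, l), h⟩, rfl, rfl⟩⟩
  have hK : Nat.card (DesignK Ln' ((q + 1) * γ) rest) = p ^ 2 * (q ^ 2 + q + 1) * γ := by
    rw [design_cardK B, hrest]
  have hcls : ∀ c l, (D.cls c l).card = p ^ 2 * (q ^ 2 + q + 1) * (q + 1) * γ + designS c := by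
    intro c l
    have h1 : (D.cls c l).card = designCnt (fun v : V => designCol v = c ∧ designHas A B v (E l)) := by
      rw [HES.cls, designCnt_filter]
      exact Nat.card_congr
        { toFun := fun h => ⟨h.1.1.1, h.2.1, by have := h.1.2; rwa [show h.1.1.2 = l from h.2.2] at this⟩
          invFun := fun v => ⟨⟨(v.1, l), v.2.2⟩, v.2.1, rfl⟩
          left_inv := by
            rintro ⟨⟨⟨v, l'⟩, h⟩, h1, h2⟩
            obtain rfl : l' = l := h2
            rfl
          right_inv := fun v => rfl }
    rw [h1]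
    rcases E l with x | y
    · rw [design_cnt_gen c (fun v => designHas A B v (.inl x)) (fun l => A.inc x l) (fun _ => True)
        (fun v => by simp [designHas]) (fun _ => trivial), A.on_pt, designCnt_true, hK]
      ring
    · rw [design_cnt_gen c (fun v => designHas A B v (.inr y)) (fun _ => True)
        (fun k => designHasK B k y) (fun v => by simp [designHas]) (fun _ => trivial),
        designCnt_true, A.card_ln, design_cntK]
      ring
  have hpair : ∀ c l l', (D.pairV c l l').card =
      designCnt (fun v : V => designCol v = c ∧ (designHas A B v (E l) ∧ designHas A B v (E l'))) := by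
    intro c l l'
    rw [HES.pairV, designCnt_filter]
    exact designCnt_congr fun v => by rw [hhas, hhas]
  have hpt : ∀ l, ¬ designBlk (E l) ≠ none → ∃ x, E l = .inl x := by
    intro l h
    rcases hE : E l with x | y
    · exact ⟨x, rfl⟩
    · simp [hE, designBlk] at h
  have hsm : ∀ l, designBlk (E l) ≠ none → ∃ y, E l = .inr y := by
    intro l h
    rcases hE : E l with x | y
    · simp [hE, designBlk] at h
    · exact ⟨y, rfl⟩
  have hnrm : ∀ u : V, u ∉ Set.range (Sum.inr : Fin 4 → V) → ∃ w, u = .inl w := by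
    rintro (w | c) h
    · exact ⟨w, rfl⟩
    · exact absurd ⟨c, rfl⟩ h
  have hLn : Nonempty Ln := by
    have : 0 < Nat.card Ln := by rw [A.card_ln]; positivity
    exact (Nat.card_pos_iff.mp this).1
  have hKne : Nonempty (DesignK Ln' ((q + 1) * γ) rest) := by
    have : 0 < Nat.card (DesignK Ln' ((q + 1) * γ) rest) := by rw [hK]; positivity
    exact (Nat.card_pos_iff.mp this).1
  obtain ⟨l0⟩ := hLn
  obtain ⟨k0⟩ := hKne
  refine ⟨V, S, H, iV, iS, iH, D, fun l => designBlk (E l), Sum.inr, .inl (4, l0, k0),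
    ⟨?_, ?_, ?_, ?_, ?_, ?_, ?_, ?_⟩, ⟨?_, ?_, ?_, ?_, ?_, ?_⟩, rfl⟩
  · rw [← Nat.card_eq_fintype_card, Nat.card_congr E]
    simp [Nat.card_sum, Nat.card_prod, A.card_pt, B.card_pt]
  · rw [designCnt_filter, designCnt_equiv E (fun l => designBlk l ≠ none), designCnt_sum]
    have h1 : designCnt (fun x : Pt => designBlk (Pt' := Pt') (.inl x) ≠ none) = 0 := by
      rw [← designCnt_false]
      exact designCnt_congr fun x => by simp [designBlk]
    have h2 : designCnt (fun y : Fin 3 × Pt' => designBlk (Pt := Pt) (.inr y) ≠ none) =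
        Nat.card (Fin 3 × Pt') := by
      rw [← designCnt_true]
      exact designCnt_congr fun x => by simp [designBlk]
    rw [h1, h2]
    simp [Nat.card_prod, B.card_pt]
  · intro l hl
    obtain ⟨y, hy⟩ := hsm l hl
    obtain ⟨x, hx⟩ := designLet_flp φ l y hy
    change ¬ designBlk (designLet φ (flp l)) ≠ none
    simp [hx, designBlk]
  · intro c l
    rw [hcls]
    omega
  · intro c l
    rw [hcls]
    have := designS_le c
    omega
  · intro c l
    rw [hcls, hcls]
  · intro c l l' hne hl hl'
    obtain ⟨x, hx⟩ := hpt l hl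
    obtain ⟨x', hx'⟩ := hpt l' hl'
    have hxx : x ≠ x' := by
      rintro rfl
      exact hne (E.injective (hx.trans hx'.symm))
    rw [hpair, hx, hx', design_cnt_gen c
      (fun v => designHas A B v (.inl x) ∧ designHas A B v (.inl x'))
      (fun l => A.inc x l ∧ A.inc x' l) (fun _ => True)
      (fun v => by simp [designHas]) (fun _ => ⟨trivial, trivial⟩), A.two_pt x x' hxx,
      designCnt_true, hK]
    have := designS_le c
    nlinarith
  · intro c l l' hl hl'
    obtain ⟨x, hx⟩ := hpt l hl
    obtain ⟨y, hy⟩ := hsm l' hl'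
    rw [hpair, hx, hy, design_cnt_gen c
      (fun v => designHas A B v (.inl x) ∧ designHas A B v (.inr y))
      (fun l => A.inc x l) (fun k => designHasK B k y)
      (fun v => by simp [designHas]) (fun _ => ⟨trivial, trivial⟩), A.on_pt, design_cntK]
    have h1 := designS_le c
    have h2 : q * designS c ≤ q := by nlinarith
    have h3 : q * ((q + 1) * (p ^ 2 * ((q + 1) * γ))) ≤
        p ^ 2 * (q ^ 2 + q + 1) * (q + 1) * γ := by
      calc q * ((q + 1) * (p ^ 2 * ((q + 1) * γ))) = p ^ 2 * (q ^ 2 + q) * (q + 1) * γ := by ring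
        _ ≤ _ :=
          Nat.mul_le_mul_right _ (Nat.mul_le_mul_right _ (Nat.mul_le_mul_left _ (Nat.le_succ _)))
    rw [mul_add]
    omega
  · intro c
    rfl
  · intro c l
    exact (hhas _ _).mpr trivial
  · intro u v hu hv
    obtain ⟨u, rfl⟩ := hnrm u hu
    obtain ⟨v, rfl⟩ := hnrm v hv
    rw [designCnt_filter, designCnt_congr (fun l => and_congr (hhas _ l) (hhas _ l)),
      designCnt_equiv E (fun l => designHas A B (.inl u) l ∧ designHas A B (.inl v) l)]
    exact design_meet A B hq u v
  · intro u hu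
    obtain ⟨u, rfl⟩ := hnrm u hu
    rw [designCnt_filter, designCnt_congr (fun l => and_congr (hhas _ l) Iff.rfl),
      designCnt_equiv E (fun l => designHas A B (.inl u) l ∧ designBlk l = none)]
    exact design_none A B hq u
  · intro u m' hu
    obtain ⟨u, rfl⟩ := hnrm u hu
    rw [designCnt_filter, designCnt_congr (fun l => and_congr (hhas _ l) Iff.rfl),
      designCnt_equiv E (fun l => designHas A B (.inl u) l ∧ designBlk l = some m')]
    exact design_some A B u m'
  · intro o
    rw [designCnt_filter, designCnt_equiv E (fun l => designBlk l = o)]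
    exact design_blk A B hq o

theorem exists_design (p : ℕ) (hp : p.Prime) (e : ℕ) (he : 100 * p ^ 2 ≤ p ^ e) (γ : ℕ)
    (hγ : 0 < γ) :
    ∃ (V S H : Type) (_ : Fintype V) (_ : Fintype S) (_ : Fintype H) (D : HES V S (Fin 5) H)
      (blk : S × Bool → Option (Fin 3)) (sp : Fin 4 → V) (j0 : V),
      DesignOK D (fun l => blk l ≠ none) (p ^ e) (3 * (p ^ 2 + p + 1))
        (p ^ 2 * ((p ^ e) ^ 2 + p ^ e + 1) * (p ^ e + 1) * γ) ∧
      AlgOK D p blk sp ∧ D.col j0 = 4 := by
  haveI := Fact.mk hp
  have he0 : e ≠ 0 := by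
    rintro rfl
    have := hp.two_le
    simp at he
    nlinarith
  obtain ⟨Pt, Ln, _, _, ⟨A⟩⟩ := design_plane_of_field (GaloisField p e)
  obtain ⟨Pt', Ln', _, _, ⟨B⟩⟩ := design_plane_of_field (ZMod p)
  rw [GaloisField.card p e he0] at A
  rw [Nat.card_zmod] at B
  exact design_abstract A B hp.two_le (dvd_pow_self p he0) he γ hγ

end Crest.Agent.R184
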