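import Crest.Agent.R184.Defs

/-! Cutting the orbits of a partial injection into cells of bounded length. -/

set_option autoImplicit false

namespace Crest.Agent.R184

open Finset

/-- A decomposition of `T` into cells, each an `nx`-walk of length at most `L`. -/
structure GlobalCells {T : Type} (nx : T → Option T) (L : ℕ) (X : Type) where
  cell : T → X
  idx : T → ℕ
  idx_lt : ∀ t, idx t < L
  inj : ∀ t t', cell t = cell t' → idx t = idx t' → t = t'
  prev : ∀ s, 0 < idx s → ∃ t, cell t = cell s ∧ idx t + 1 = idx s ∧ nx t = some s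
  surj : Function.Surjective cell

theorem global_exists_cells {T : Type} [Fintype T] [DecidableEq T] (nx : T → Option T)
    (hinj : ∀ t t' s, nx t = some s → nx t' = some s → t = t') {L : ℕ} (hL : 0 < L)
    (hcyc : ∀ (p : ℕ → T) (k : ℕ), k < L → (∀ i ≤ k, nx (p i) = some (p (i + 1))) →
      p (k + 1) ≠ p 0) :
    ∃ (X : Type) (_ : Fintype X) (_ : GlobalCells nx L X),
      L * Fintype.card X ≤ 2 * Fintype.card T + L * #{t | nx t = none} := by
  classical
  obtain ⟨σ, hσ⟩ := Equiv.Perm.exists_extending_pair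
    (f := fun p : {p : T × T // nx p.1 = some p.2} => p.1.1)
    (g := fun p : {p : T × T // nx p.1 = some p.2} => p.1.2)
    (fun p q h => by
      have h1 := p.2
      have h2 := q.2
      simp only at h
      rw [h, h2] at h1
      exact Subtype.ext (Prod.ext h (Option.some.inj h1).symm))
    (fun p q h => by
      have h1 := p.2
      have h2 := q.2
      simp only at h
      rw [h] at h1
      exact Subtype.ext (Prod.ext (hinj _ _ _ h1 h2) h))
  set τ : T → T := fun s => σ.symm s with hτ
  have hτi : Function.Injective τ := σ.symm.injective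
  have hp : ∀ s, nx (τ s) ≠ none → nx (τ s) = some s := by
    intro s hs
    obtain ⟨s', hs'⟩ := Option.ne_none_iff_exists'.1 hs
    have := hσ ⟨(τ s, s'), hs'⟩
    simp only [hτ, Equiv.apply_symm_apply] at this
    rw [hs', this]
  set l := (L + 1) / 2 with hl
  -- a maximal separated set
  obtain ⟨B, hB, hmax⟩ := Finset.exists_max_image
    ((univ : Finset (Finset T)).filter fun B => ∀ x ∈ B, ∀ y ∈ B, ∀ j, 0 < j → j < l → τ^[j] x ≠ y)
    Finset.card ⟨∅, by simp⟩
  simp only [mem_filter, mem_univ, true_and] at hB hmax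
  have hBc : l * B.card ≤ Fintype.card T := by
    have : (B ×ˢ range l).card ≤ (univ : Finset T).card := by
      refine card_le_card_of_injOn (fun p => τ^[p.2] p.1) (by simp) ?_
      have key : ∀ x ∈ B, ∀ y ∈ B, ∀ i j, i ≤ j → j < l → τ^[i] x = τ^[j] y → i = j ∧ x = y := by
        intro x hx y hy i j hij hj h
        obtain ⟨d, rfl⟩ := Nat.exists_eq_add_of_le hij
        rw [Function.iterate_add_apply] at h
        have h' := hτi.iterate i h
        rcases Nat.eq_zero_or_pos d with rfl | hd
        · exact ⟨rfl, h'⟩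
        · exact absurd h'.symm (hB y hy x hx d hd (by omega))
      rintro ⟨x, i⟩ hx ⟨y, j⟩ hy h
      simp only [coe_product, Set.mem_prod, mem_coe, mem_range] at hx hy h
      rcases le_total i j with hij | hij
      · obtain ⟨h1, h2⟩ := key x hx.1 y hy.1 i j hij hy.2 h
        rw [h1, h2]
      · obtain ⟨h1, h2⟩ := key y hy.1 x hx.1 j i hij hx.2 h.symm
        rw [h1, h2]
    rw [card_product, card_range, card_univ] at this
    linarith
  set A : Finset T := (univ.filter fun s => nx (τ s) = none) ∪ B with hA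
  have hAc : A.card ≤ #{t | nx t = none} + B.card := by
    refine (card_union_le _ _).trans (Nat.add_le_add_right ?_ _)
    exact card_le_card_of_injOn τ (by intro s hs; simpa using hs) hτi.injOn
  have hreach : ∀ s, ∃ k < L, τ^[k] s ∈ A := by
    intro s
    by_contra hcon
    push Not at hcon
    have h1 : ∀ k < L, τ^[k] s ∉ B := fun k hk h => hcon k hk (mem_union_right _ h)
    have h2 : ∀ k < L, nx (τ^[k + 1] s) = some (τ^[k] s) := fun k hk => by
      rw [Function.iterate_succ_apply']
      exact hp _ fun h => hcon k hk (mem_union_left _ (by simpa using h))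
    have h3 : τ^[l - 1] s ∉ B := h1 _ (by omega)
    have h4 := hmax (insert (τ^[l - 1] s) B) ?_
    · rw [card_insert_of_notMem h3] at h4; omega
    intro x hx y hy j hj hjl h
    rcases mem_insert.1 hx with rfl | hx <;> rcases mem_insert.1 hy with rfl | hy
    · obtain ⟨k, rfl⟩ : ∃ k, j = k + 1 := ⟨j - 1, by omega⟩
      refine hcyc (fun i => τ^[k + 1 - i + (l - 1)] s) k (by omega) (fun i hi => ?_) ?_
      · rw [show k + 1 - i + (l - 1) = (k + 1 - (i + 1) + (l - 1)) + 1 by omega]
        exact h2 _ (by omega)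
      · simp only [Nat.sub_self, zero_add, Nat.sub_zero]
        rw [Function.iterate_add_apply, h]
    · rw [← Function.iterate_add_apply] at h
      exact h1 (j + (l - 1)) (by omega) (h ▸ hy)
    · rw [show l - 1 = j + (l - 1 - j) by omega, Function.iterate_add_apply] at h
      exact h1 (l - 1 - j) (by omega) (hτi.iterate j h ▸ hx)
    · exact hB x hx y hy j hj hjl h
  have hex : ∀ s, ∃ k, τ^[k] s ∈ A := fun s => (hreach s).imp fun _ h => h.2
  refine ⟨A, inferInstance, ⟨fun s => ⟨τ^[Nat.find (hex s)] s, Nat.find_spec (hex s)⟩,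
    fun s => Nat.find (hex s), fun s => ?_, fun t t' h1 h2 => ?_, fun s hs => ?_, fun a => ?_⟩, ?_⟩
  · obtain ⟨k, hk, h⟩ := hreach s
    exact (Nat.find_min' _ h).trans_lt hk
  · have h3 := congrArg Subtype.val h1
    simp only at h2 h3
    rw [h2] at h3
    exact hτi.iterate _ h3
  · have h1 : s ∉ A := Nat.find_min (hex s) hs
    have h2 : Nat.find (hex s) = Nat.find (hex (τ s)) + 1 :=
      Nat.find_comp_succ (hex s) (hex (τ s)) h1
    refine ⟨τ s, Subtype.ext ?_, h2.symm, hp _ fun h => h1 (mem_union_left _ (by simpa using h))⟩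
    simp only [h2, Function.iterate_succ_apply]
  · refine ⟨a.1, Subtype.ext ?_⟩
    have : Nat.find (hex a.1) = 0 := (Nat.find_eq_zero _).2 a.2
    simp only [this, Function.iterate_zero_apply]
  · rw [Fintype.card_coe]
    have h1 : L * B.card ≤ 2 * l * B.card := Nat.mul_le_mul_right _ (by omega)
    have h2 := Nat.mul_le_mul_left L hAc
    nlinarith

namespace GlobalCells

variable {T X : Type} {nx : T → Option T} {L : ℕ} (c : GlobalCells nx L X)

/-- the graph on the cells -/
def graph (G : SimpleGraph T) : SimpleGraph X :=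
  SimpleGraph.fromRel fun x y => ∃ t s, c.cell t = x ∧ c.cell s = y ∧ G.Adj t s

theorem conn (G : SimpleGraph T) (hG : ∀ t s, nx t = some s → t ≠ s → G.Adj t s) (A : Set X)
    (t s : T) (h : c.cell t = c.cell s) (hA : c.cell t ∈ A) :
    Relation.ReflTransGen (fun u v => G.Adj u v ∧ u ∈ c.cell ⁻¹' A ∧ v ∈ c.cell ⁻¹' A) t s := by
  have key : ∀ k t s, c.idx s = c.idx t + k → c.cell t = c.cell s → c.cell t ∈ A →
      Relation.ReflTransGen (fun u v => G.Adj u v ∧ u ∈ c.cell ⁻¹' A ∧ v ∈ c.cell ⁻¹' A) t s := by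
    intro k
    induction k with
    | zero =>
      intro t s h1 h2 _
      rw [c.inj t s h2 (by omega)]
    | succ k ih =>
      intro t s h1 h2 h3
      obtain ⟨u, h4, h5, h6⟩ := c.prev s (by omega)
      refine (ih t u (by omega) (h2.trans h4.symm) h3).tail ⟨hG u s h6 ?_, ?_, ?_⟩
      · rintro rfl; omega
      · show c.cell u ∈ A
        rw [h4, ← h2]; exact h3
      · show c.cell s ∈ A
        rw [← h2]; exact h3
  rcases le_total (c.idx t) (c.idx s) with h1 | h1
  · obtain ⟨k, hk⟩ := Nat.exists_eq_add_of_le h1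
    exact key k t s hk h hA
  · obtain ⟨k, hk⟩ := Nat.exists_eq_add_of_le h1
    have := (key k s t hk h.symm (h ▸ hA)).swap
    exact Relation.ReflTransGen.mono (fun u v huv => ⟨huv.1.symm, huv.2.2, huv.2.1⟩) _ _ this

theorem adj_lift (G : SimpleGraph T) {x y : X} (h : (c.graph G).Adj x y) :
    ∃ t s, c.cell t = x ∧ c.cell s = y ∧ G.Adj t s := by
  rcases ((SimpleGraph.fromRel_adj _ _ _).1 h).2 with h | ⟨t, s, h1, h2, h3⟩
  · exact h
  · exact ⟨s, t, h2, h1, h3.symm⟩

theorem hasCliqueMinor (G : SimpleGraph T) (hG : ∀ t s, nx t = some s → t ≠ s → G.Adj t s)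
    {h : ℕ} (H : HasCliqueMinor (c.graph G) h) : HasCliqueMinor G h := by
  obtain ⟨A, h1, h2, h3, h4⟩ := H
  refine ⟨fun i => c.cell ⁻¹' A i, fun i => (h1 i).preimage c.surj, fun i t ht s hs => ?_,
    fun i j hij => (h3 i j hij).preimage _, fun i j hij => ?_⟩
  · have key : ∀ y, Relation.ReflTransGen
        (fun u v => (c.graph G).Adj u v ∧ u ∈ A i ∧ v ∈ A i) (c.cell t) y →
        ∀ s, c.cell s = y → Relation.ReflTransGen
          (fun u v => G.Adj u v ∧ u ∈ c.cell ⁻¹' A i ∧ v ∈ c.cell ⁻¹' A i) t s := by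
      intro y hy
      induction hy with
      | refl => exact fun s hs => c.conn G hG _ t s hs.symm ht
      | tail _ hab ih =>
        intro s hs
        obtain ⟨u, v, hu, hv, huv⟩ := c.adj_lift G hab.1
        have hu' : c.cell u ∈ A i := hu ▸ hab.2.1
        have hv' : c.cell v ∈ A i := hv ▸ hab.2.2
        exact ((ih u hu).tail ⟨huv, hu', hv'⟩).trans (c.conn G hG _ v s (hv.trans hs.symm) hv')
    exact key _ (h2 i _ ht _ hs) s rfl
  · obtain ⟨x, hx, y, hy, hxy⟩ := h4 i j hij
    obtain ⟨u, v, rfl, rfl, huv⟩ := c.adj_lift G hxy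
    exact ⟨u, hx, v, hy, huv⟩

theorem card_idx_zero [Fintype T] [Fintype X] [DecidableEq X] (R : Finset X) :
    #{t | c.cell t ∈ R ∧ c.idx t = 0} ≤ R.card := by
  refine card_le_card_of_injOn c.cell (fun t ht => ?_) fun t ht s hs h => ?_
  · simp only [coe_filter, mem_univ, true_and, Set.mem_ofPred_eq] at ht
    exact ht.1
  · simp only [coe_filter, mem_univ, true_and, Set.mem_ofPred_eq] at ht hs
    exact c.inj t s h (by rw [ht.2, hs.2])

theorem card_mem [Fintype T] [Fintype X] [DecidableEq X] (R : Finset X) :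
    #{t | c.cell t ∈ R} ≤ R.card * L := by
  have : #{t | c.cell t ∈ R} ≤ (R ×ˢ range L).card := by
    refine card_le_card_of_injOn (fun t => (c.cell t, c.idx t)) (fun t ht => ?_)
      fun t _ s _ h => ?_
    · simp only [coe_filter, mem_univ, true_and, Set.mem_ofPred_eq] at ht
      simp [ht, c.idx_lt]
    · exact c.inj t s (congrArg Prod.fst h) (congrArg Prod.snd h)
  simpa using this

end GlobalCells

/-- restriction of a partial map to a subtype -/
noncomputable def globalRes {T : Type} (P : T → Prop) (f : T → Option T) (t : {t // P t}) :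
    Option {t // P t} :=
  open Classical in (f t.1).bind fun s => if h : P s then some ⟨s, h⟩ else none

theorem globalRes_eq_some {T : Type} {P : T → Prop} {f : T → Option T} {t s : {t // P t}} :
    globalRes P f t = some s ↔ f t.1 = some s.1 := by
  unfold globalRes
  cases h : f t.1 with
  | none => simp
  | some u =>
    by_cases hu : P u
    · simp [hu, Subtype.ext_iff]
    · simp only [Option.bind_some, hu, dif_neg, not_false_eq_true, reduceCtorEq, Option.some.injEq,
        false_iff]
      rintro rfl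
      exact hu s.2

theorem globalRes_eq_none {T : Type} {P : T → Prop} {f : T → Option T} {t : {t // P t}} :
    globalRes P f t = none ↔ ∀ s, f t.1 = some s → ¬ P s := by
  rw [Option.eq_none_iff_forall_ne_some]
  simp only [ne_eq, globalRes_eq_some, Subtype.forall]
  exact ⟨fun h s hs hP => h s hP hs, fun h s hP hs => h s hs hP⟩

open Classical in
theorem global_sum_card {T : Type} [Fintype T] (P : T → Prop) (f : T → ℕ) (Ks : Finset ℕ)
    (hK : ∀ t, P t → f t ∈ Ks) (Q : T → Prop) :
    ∑ k ∈ Ks, #{t : {t // P t ∧ f t = k} | Q t.1} = #{t | P t ∧ Q t} := by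
  rw [card_eq_sum_card_fiberwise (f := f) (t := Ks) (s := univ.filter fun t => P t ∧ Q t)
    (fun t ht => hK t (by simpa using (mem_filter.1 ht).2.1))]
  refine sum_congr rfl fun k _ => ?_
  refine card_bij (fun t _ => t.1) (fun t ht => ?_) (fun _ _ _ _ h => Subtype.ext h) fun t ht => ?_
  · simp only [mem_filter, mem_univ, true_and] at ht ⊢
    exact ⟨⟨t.2.1, ht⟩, t.2.2⟩
  · simp only [mem_filter, mem_univ, true_and] at ht
    exact ⟨⟨t, ht.1.1, ht.2⟩, by simpa using ht.1.2, rfl⟩

open Classical in
theorem global_card_pull {T : Type} [Fintype T] (f : T → Option T)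
    (hinj : ∀ t t' s, f t = some s → f t' = some s → t = t') (Q : T → Prop) :
    #{t | ∃ s, f t = some s ∧ Q s} ≤ #{s | Q s} := by
  refine card_le_card_of_injOn (fun t => (f t).getD t) (fun t ht => ?_) fun t ht t' ht' h => ?_
  · simp only [coe_filter, mem_univ, true_and, Set.mem_ofPred_eq] at ht ⊢
    obtain ⟨s, h1, h2⟩ := ht
    simpa [h1] using h2
  · simp only [coe_filter, mem_univ, true_and, Set.mem_ofPred_eq] at ht ht'
    obtain ⟨s, h1, -⟩ := ht
    obtain ⟨s', h2, -⟩ := ht'
    simp only [h1, h2, Option.getD_some] at h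
    exact hinj t t' s h1 (h ▸ h2)

/-- instance-free counting -/
noncomputable def globalCnt {T : Type} (Q : T → Prop) : ℕ := Set.ncard {t | Q t}

theorem globalCnt_eq {T : Type} [Fintype T] (Q : T → Prop) [DecidablePred Q] :
    #{t | Q t} = globalCnt Q := by
  rw [globalCnt, ← Set.ncard_coe_finset]
  simp

theorem globalCnt_mono {T : Type} [Finite T] {Q Q' : T → Prop} (h : ∀ t, Q t → Q' t) :
    globalCnt Q ≤ globalCnt Q' := Set.ncard_le_ncard h

theorem globalCnt_or {T : Type} {Q Q' : T → Prop} :
    globalCnt (fun t => Q t ∨ Q' t) ≤ globalCnt Q + globalCnt Q' := Set.ncard_union_le _ _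

theorem globalCnt_sum {T : Type} [Fintype T] (P : T → Prop) (f : T → ℕ) (Ks : Finset ℕ)
    (hK : ∀ t, P t → f t ∈ Ks) (Q : T → Prop) :
    ∑ k ∈ Ks, globalCnt (fun t : {t // P t ∧ f t = k} => Q t.1) = globalCnt fun t => P t ∧ Q t := by
  classical
  rw [← globalCnt_eq, ← global_sum_card P f Ks hK Q]
  exact sum_congr rfl fun k _ => (globalCnt_eq _).symm

theorem globalCnt_pull {T : Type} [Fintype T] (f : T → Option T)
    (hinj : ∀ t t' s, f t = some s → f t' = some s → t = t') (Q : T → Prop) :
    globalCnt (fun t => ∃ s, f t = some s ∧ Q s) ≤ globalCnt Q := by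
  classical
  rw [← globalCnt_eq, ← globalCnt_eq]
  convert global_card_pull f hinj Q

theorem globalCnt_true {T : Type} [Fintype T] : globalCnt (fun _ : T => True) = Fintype.card T := by
  rw [← globalCnt_eq]; simp

end Crest.Agent.R184
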