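import Crest.Agent.R184.Defs

/-! Graphs without a clique minor are hyperfinite. -/

set_option autoImplicit false

namespace Crest.Agent.R184

open Finset

section HFaux

variable {X : Type} [DecidableEq X] (G : SimpleGraph X)

/-- Connected vertex sets. -/
def HFConn (P : Finset X) : Prop :=
  ∀ x ∈ P, ∀ y ∈ P, Relation.ReflTransGen (fun u v => G.Adj u v ∧ u ∈ P ∧ v ∈ P) x y

variable {G}

omit [DecidableEq X] in
theorem HF_lift {P Q : Finset X} (h : P ⊆ Q) {x y : X}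
    (hxy : Relation.ReflTransGen (fun u v => G.Adj u v ∧ u ∈ P ∧ v ∈ P) x y) :
    Relation.ReflTransGen (fun u v => G.Adj u v ∧ u ∈ Q ∧ v ∈ Q) x y :=
  Relation.ReflTransGen.mono (fun _ _ huv => ⟨huv.1, h huv.2.1, h huv.2.2⟩) _ _ hxy

omit [DecidableEq X] in
theorem HFConn_singleton (v : X) : HFConn G {v} := by
  intro x hx y hy
  rw [mem_singleton] at hx hy
  rw [hx, hy]

theorem HFConn.union {P Q : Finset X} (hP : HFConn G P) (hQ : HFConn G Q) {v : X} (h1 : v ∈ P)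
    (h2 : v ∈ Q) : HFConn G (P ∪ Q) := by
  have a : ∀ x ∈ P ∪ Q, Relation.ReflTransGen (fun u v => G.Adj u v ∧ u ∈ P ∪ Q ∧ v ∈ P ∪ Q) x v ∧
      Relation.ReflTransGen (fun u v => G.Adj u v ∧ u ∈ P ∪ Q ∧ v ∈ P ∪ Q) v x := by
    intro x hx
    rcases mem_union.1 hx with hx | hx
    · exact ⟨HF_lift subset_union_left (hP x hx v h1), HF_lift subset_union_left (hP v h1 x hx)⟩
    · exact ⟨HF_lift subset_union_right (hQ x hx v h2), HF_lift subset_union_right (hQ v h2 x hx)⟩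
  exact fun x hx y hy => (a x hx).1.trans (a y hy).2

theorem HFConn_pair {x y : X} (h : G.Adj x y) : HFConn G {x, y} := by
  intro a ha b hb
  simp only [mem_insert, mem_singleton] at ha hb
  rcases ha with rfl | rfl <;> rcases hb with rfl | rfl
  · rfl
  · exact .single ⟨h, by simp, by simp⟩
  · exact .single ⟨h.symm, by simp, by simp⟩
  · rfl

open Classical in
/-- The neighbours of `A` in `H` outside `A`. -/
noncomputable def HFnb (G : SimpleGraph X) (H A : Finset X) : Finset X :=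
  {y ∈ H | y ∉ A ∧ ∃ x ∈ A, G.Adj x y}

open Classical in
/-- Vertices linked to `v` by a small connected subset of `H`. -/
noncomputable def HFball (G : SimpleGraph X) (H : Finset X) (v : X) (r : ℕ) : Finset X :=
  {x ∈ H | ∃ P, P ⊆ H ∧ v ∈ P ∧ x ∈ P ∧ HFConn G P ∧ #P ≤ r + 1}

theorem HF_mem_nb {H A : Finset X} {y : X} :
    y ∈ HFnb G H A ↔ y ∈ H ∧ y ∉ A ∧ ∃ x ∈ A, G.Adj x y := by
  simp [HFnb]

theorem HF_mem_ball {H : Finset X} {v x : X} {r : ℕ} : x ∈ HFball G H v r ↔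
    x ∈ H ∧ ∃ P, P ⊆ H ∧ v ∈ P ∧ x ∈ P ∧ HFConn G P ∧ #P ≤ r + 1 := by
  simp only [HFball, mem_filter]

theorem HFball_mono {H : Finset X} {v : X} {r s : ℕ} (h : r ≤ s) :
    HFball G H v r ⊆ HFball G H v s := by
  intro x hx
  obtain ⟨h1, P, a, b, c, d, e⟩ := HF_mem_ball.1 hx
  exact HF_mem_ball.2 ⟨h1, P, a, b, c, d, by omega⟩

theorem HFball_step (H : Finset X) (v : X) (r : ℕ) :
    #(HFball G H v r) + #(HFnb G H (HFball G H v r)) ≤ #(HFball G H v (r + 1)) := by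
  rw [← card_union_of_disjoint (disjoint_left.2 fun x hx hx' => (HF_mem_nb.1 hx').2.1 hx)]
  refine card_le_card (union_subset (HFball_mono (by omega)) fun y hy => ?_)
  obtain ⟨h1, -, x, hx, hxy⟩ := HF_mem_nb.1 hy
  obtain ⟨h2, P, a, b, c, d, e⟩ := HF_mem_ball.1 hx
  refine HF_mem_ball.2 ⟨h1, P ∪ {x, y}, union_subset a (by simp [insert_subset_iff, h1, h2]),
    mem_union_left _ b, by simp, d.union (HFConn_pair hxy) c (by simp), ?_⟩
  have : P ∪ {x, y} ⊆ insert y P := by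
    intro z hz
    simp only [mem_union, mem_insert, mem_singleton] at hz ⊢
    rcases hz with h | rfl | h
    · exact Or.inr h
    · exact Or.inr c
    · exact Or.inl h
  have h3 := card_le_card this
  have h4 := card_insert_le y P
  omega

theorem HFball_large {H : Finset X} {n l j : ℕ} (hl : 0 < l) (hj : n < 2 ^ j)
    (hexp : ∀ A ⊆ H, A.Nonempty → 2 * #A ≤ n → #A < l * #(HFnb G H A)) {v : X} (hv : v ∈ H) :
    n < 2 * #(HFball G H v (l * j)) := by
  by_contra hcon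
  have h0 : v ∈ HFball G H v 0 :=
    HF_mem_ball.2 ⟨hv, {v}, by simpa using hv, by simp, by simp, HFConn_singleton v, by simp⟩
  have step : ∀ r, r ≤ l * j →
      l * #(HFball G H v r) + #(HFball G H v r) ≤ l * #(HFball G H v (r + 1)) := by
    intro r hr
    have h1 := card_le_card (HFball_mono (G := G) (H := H) (v := v) hr)
    have h2 := hexp (HFball G H v r) (fun x hx => (HF_mem_ball.1 hx).1)
      ⟨v, HFball_mono (Nat.zero_le r) h0⟩ (by omega)
    have h3 := Nat.mul_le_mul_left l (HFball_step (G := G) H v r)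
    rw [mul_add] at h3
    omega
  have steps : ∀ r m, r + m ≤ l * j →
      (l + m) * #(HFball G H v r) ≤ l * #(HFball G H v (r + m)) := by
    intro r m
    induction m with
    | zero => simp
    | succ m ih =>
      intro hm
      have h1 := ih (by omega)
      have h2 := step (r + m) (by omega)
      have h3 := card_le_card (HFball_mono (G := G) (H := H) (v := v) (Nat.le_add_right r m))
      rw [← add_assoc, ← add_assoc, add_one_mul]
      omega
  have dbl : ∀ a, a ≤ j → 2 ^ a ≤ #(HFball G H v (l * a)) := by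
    intro a
    induction a with
    | zero => exact fun _ => card_pos.2 ⟨v, h0⟩
    | succ a ih =>
      intro ha
      have h1 := ih (by omega)
      have h2 := steps (l * a) l (by rw [← mul_add_one]; exact Nat.mul_le_mul_left l ha)
      rw [← two_mul, mul_comm 2 l, mul_assoc] at h2
      have h3 := Nat.le_of_mul_le_mul_left h2 hl
      rw [mul_add_one, pow_succ]
      omega
  have := dbl j le_rfl
  omega

theorem HF_link {H : Finset X} {n l j : ℕ} (hl : 0 < l) (hj : n < 2 ^ j) (hH : #H ≤ n)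
    (hexp : ∀ A ⊆ H, A.Nonempty → 2 * #A ≤ n → #A < l * #(HFnb G H A)) {v w : X} (hv : v ∈ H)
    (hw : w ∈ H) : ∃ P, P ⊆ H ∧ v ∈ P ∧ w ∈ P ∧ HFConn G P ∧ #P ≤ 2 * (l * j + 1) := by
  have h1 := HFball_large hl hj hexp hv
  have h2 := HFball_large hl hj hexp hw
  have : ¬ Disjoint (HFball G H v (l * j)) (HFball G H w (l * j)) := by
    intro hd
    have h3 := card_union_of_disjoint hd
    have h4 : #(HFball G H v (l * j) ∪ HFball G H w (l * j)) ≤ #H :=
      card_le_card (union_subset (fun x hx => (HF_mem_ball.1 hx).1)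
        fun x hx => (HF_mem_ball.1 hx).1)
    omega
  obtain ⟨x, hx1, hx2⟩ := not_disjoint_iff.1 this
  obtain ⟨-, P, a, b, c, d, e⟩ := HF_mem_ball.1 hx1
  obtain ⟨-, Q, a', b', c', d', e'⟩ := HF_mem_ball.1 hx2
  refine ⟨P ∪ Q, union_subset a a', mem_union_left _ b, mem_union_right _ b', d.union d' c c', ?_⟩
  have := card_union_le P Q
  omega

theorem HF_tree {H : Finset X} {D : ℕ} {v : X} (hv : v ∈ H)
    (hD : ∀ w ∈ H, ∃ P, P ⊆ H ∧ v ∈ P ∧ w ∈ P ∧ HFConn G P ∧ #P ≤ D) (𝓑 : Finset (Finset X))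
    (hB : ∀ B ∈ 𝓑, ∃ x ∈ B, ∃ y ∈ H, G.Adj x y) :
    ∃ P, P ⊆ H ∧ v ∈ P ∧ HFConn G P ∧ #P ≤ #𝓑 * D + 1 ∧ ∀ B ∈ 𝓑, ∃ x ∈ B, ∃ y ∈ P, G.Adj x y := by
  induction 𝓑 using Finset.induction_on with
  | empty => exact ⟨{v}, by simpa using hv, by simp, HFConn_singleton v, by simp, by simp⟩
  | insert B s hBs ih =>
    obtain ⟨P, a, b, c, d, e⟩ := ih fun B' hB' => hB B' (mem_insert_of_mem hB')
    obtain ⟨x, hx, y, hy, hxy⟩ := hB B (mem_insert_self _ _)
    obtain ⟨Q, a', b', c', d', e'⟩ := hD y hy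
    refine ⟨P ∪ Q, union_subset a a', mem_union_left _ b, c.union d' b b', ?_, ?_⟩
    · have := card_union_le P Q
      rw [card_insert_of_notMem hBs, add_one_mul]
      omega
    · intro B' hB'
      rcases mem_insert.1 hB' with rfl | hB'
      · exact ⟨x, hx, y, mem_union_right _ c', hxy⟩
      · obtain ⟨x', hx', y', hy', h⟩ := e B' hB'
        exact ⟨x', hx', y', mem_union_left _ hy', h⟩

/-- A family of small pairwise adjacent branch sets. -/
structure HFBranch (G : SimpleGraph X) (S : ℕ) (𝓑 : Finset (Finset X)) : Prop where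
  ne : ∀ B ∈ 𝓑, B.Nonempty
  conn : ∀ B ∈ 𝓑, HFConn G B
  small : ∀ B ∈ 𝓑, #B ≤ S
  disj : ∀ B ∈ 𝓑, ∀ B' ∈ 𝓑, B ≠ B' → Disjoint B B'
  adj : ∀ B ∈ 𝓑, ∀ B' ∈ 𝓑, B ≠ B' → ∃ x ∈ B, ∃ y ∈ B', G.Adj x y

omit [DecidableEq X] in
theorem HFBranch.card_lt {S h : ℕ} {𝓑 : Finset (Finset X)} (hB : HFBranch G S 𝓑)
    (hG : ¬ HasCliqueMinor G h) : #𝓑 < h := by
  by_contra hcon
  obtain ⟨f⟩ : Nonempty (Fin h ↪ 𝓑) :=
    Function.Embedding.nonempty_of_card_le (by simpa using not_lt.1 hcon)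
  refine hG ⟨fun i => ((f i).1 : Set X), fun i => hB.ne _ (f i).2, fun i => hB.conn _ (f i).2,
    fun i j hij => ?_, fun i j hij => ?_⟩
  · exact disjoint_coe.2 (hB.disj _ (f i).2 _ (f j).2 fun h => hij (f.injective (Subtype.ext h)))
  · exact hB.adj _ (f i).2 _ (f j).2 fun h => hij (f.injective (Subtype.ext h))

/-- The states of the search for a sparse cut. -/
structure HFState (G : SimpleGraph X) (U : Finset X) (l S : ℕ) (V L : Finset X)
    (𝓑 : Finset (Finset X)) : Prop where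
  br : HFBranch G S 𝓑
  sub : V ⊆ U
  subB : ∀ B ∈ 𝓑, B ⊆ U
  lz : l * #L ≤ #V
  disj : ∀ B ∈ 𝓑, Disjoint V B
  nb : ∀ x ∈ V, ∀ y ∈ U, G.Adj x y → y ∈ V ∪ L ∪ 𝓑.biUnion id

theorem HFState.next {U V L : Finset X} {𝓑 : Finset (Finset X)} {h l j : ℕ}
    (hG : ¬ HasCliqueMinor G h) (hl : 0 < l) (hj : #U < 2 ^ j)
    (hs : HFState G U l (h * (2 * (l * j + 1)) + 1) V L 𝓑)
    (hne : (U \ (V ∪ L ∪ 𝓑.biUnion id)).Nonempty) :
    ∃ V' L' 𝓑', HFState G U l (h * (2 * (l * j + 1)) + 1) V' L' 𝓑' ∧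
      2 * #V + #𝓑 < 2 * #V' + #𝓑' ∧
      (#V' ≤ #V + (h * (2 * (l * j + 1)) + 1) ∨ 2 * #V' ≤ 2 * #V + #U) := by
  set H := U \ (V ∪ L ∪ 𝓑.biUnion id) with hH
  by_cases h1 : ∃ B ∈ 𝓑, ∀ x ∈ B, ∀ y ∈ H, ¬ G.Adj x y
  · obtain ⟨B, hB, hn⟩ := h1
    have hc : #(V ∪ B) = #V + #B := card_union_of_disjoint (hs.disj B hB)
    have hpos := card_pos.2 (hs.br.ne B hB)
    have hsm := hs.br.small B hB
    have hmem : ∀ y, y ∈ V ∪ L ∪ 𝓑.biUnion id → y ∈ V ∪ B ∪ L ∪ (𝓑.erase B).biUnion id := by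
      intro y hy
      simp only [mem_union, mem_biUnion, id, mem_erase] at hy ⊢
      rcases hy with (hy | hy) | ⟨B', hB', hy⟩
      · tauto
      · tauto
      · by_cases hBB : B' = B
        · subst hBB; tauto
        · exact Or.inr ⟨B', ⟨hBB, hB'⟩, hy⟩
    refine ⟨V ∪ B, L, 𝓑.erase B, ⟨⟨fun B' h => hs.br.ne _ (mem_of_mem_erase h),
      fun B' h => hs.br.conn _ (mem_of_mem_erase h), fun B' h => hs.br.small _ (mem_of_mem_erase h),
      fun B' h B'' h' => hs.br.disj _ (mem_of_mem_erase h) _ (mem_of_mem_erase h'),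
      fun B' h B'' h' => hs.br.adj _ (mem_of_mem_erase h) _ (mem_of_mem_erase h')⟩,
      union_subset hs.sub (hs.subB B hB), fun B' h => hs.subB _ (mem_of_mem_erase h), ?_, ?_, ?_⟩,
      ?_, Or.inl (by omega)⟩
    · have := hs.lz
      omega
    · intro B' hB'
      exact disjoint_union_left.2 ⟨hs.disj _ (mem_of_mem_erase hB'),
        hs.br.disj _ hB _ (mem_of_mem_erase hB') (ne_of_mem_erase hB').symm⟩
    · intro x hx y hy hxy
      refine hmem y ?_
      rcases mem_union.1 hx with hx | hx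
      · exact hs.nb x hx y hy hxy
      · by_contra hcon
        exact hn x hx y (mem_sdiff.2 ⟨hy, hcon⟩) hxy
    · have := card_erase_add_one hB
      omega
  push Not at h1
  by_cases h2 : ∃ A ⊆ H, A.Nonempty ∧ 2 * #A ≤ #U ∧ l * #(HFnb G H A) ≤ #A
  · obtain ⟨A, hA, hAne, hA2, hAl⟩ := h2
    have hAn : ∀ x ∈ A, x ∉ V ∪ L ∪ 𝓑.biUnion id := fun x hx => (mem_sdiff.1 (hA hx)).2
    have hc : #(V ∪ A) = #V + #A := card_union_of_disjoint (disjoint_right.2 fun x hx hx' =>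
      hAn x hx (mem_union_left _ (mem_union_left _ hx')))
    have hpos := card_pos.2 hAne
    refine ⟨V ∪ A, L ∪ HFnb G H A, 𝓑, ⟨hs.br, union_subset hs.sub (hA.trans sdiff_subset),
      hs.subB, ?_, ?_, ?_⟩, by omega, Or.inr (by omega)⟩
    · have h3 := Nat.mul_le_mul_left l (card_union_le L (HFnb G H A))
      have h4 := hs.lz
      rw [mul_add] at h3
      omega
    · intro B hB
      refine disjoint_union_left.2 ⟨hs.disj B hB, disjoint_left.2 fun x hx hx' => ?_⟩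
      exact hAn x hx (mem_union_right _ (mem_biUnion.2 ⟨B, hB, hx'⟩))
    · intro x hx y hy hxy
      by_cases hy' : y ∈ V ∪ L ∪ 𝓑.biUnion id
      · simp only [mem_union] at hy' ⊢
        tauto
      · rcases mem_union.1 hx with hx | hx
        · exact absurd (hs.nb x hx y hy hxy) hy'
        · by_cases hyA : y ∈ A
          · simp only [mem_union]
            tauto
          · have : y ∈ HFnb G H A := HF_mem_nb.2 ⟨mem_sdiff.2 ⟨hy, hy'⟩, hyA, x, hx, hxy⟩
            simp only [mem_union]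
            tauto
  push Not at h2
  obtain ⟨v, hv⟩ := hne
  obtain ⟨P, a, b, c, d, e⟩ := HF_tree hv
    (fun w hw => HF_link hl hj (card_le_card sdiff_subset) h2 hv hw) 𝓑 h1
  have hPn : ∀ x ∈ P, x ∉ V ∪ L ∪ 𝓑.biUnion id := fun x hx => (mem_sdiff.1 (a hx)).2
  have hPB : ∀ B ∈ 𝓑, Disjoint P B := fun B hB => disjoint_left.2 fun x hx hx' =>
    hPn x hx (mem_union_right _ (mem_biUnion.2 ⟨B, hB, hx'⟩))
  have hP : P ∉ 𝓑 := fun hP => disjoint_left.1 (hPB P hP) b b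
  refine ⟨V, L, insert P 𝓑, ⟨⟨?_, ?_, ?_, ?_, ?_⟩, hs.sub, ?_, hs.lz, ?_, ?_⟩, ?_,
    Or.inl (by omega)⟩
  · exact (forall_mem_insert _ _ _).2 ⟨⟨v, b⟩, hs.br.ne⟩
  · exact (forall_mem_insert _ _ _).2 ⟨c, hs.br.conn⟩
  · refine (forall_mem_insert _ _ _).2 ⟨d.trans ?_, hs.br.small⟩
    exact Nat.add_le_add_right (Nat.mul_le_mul_right _ (hs.br.card_lt hG).le) 1
  · intro B hB B' hB' hne
    rcases mem_insert.1 hB with rfl | hB1 <;> rcases mem_insert.1 hB' with rfl | hB2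
    · exact absurd rfl hne
    · exact hPB _ hB2
    · exact (hPB _ hB1).symm
    · exact hs.br.disj _ hB1 _ hB2 hne
  · intro B hB B' hB' hne
    rcases mem_insert.1 hB with rfl | hB1 <;> rcases mem_insert.1 hB' with rfl | hB2
    · exact absurd rfl hne
    · obtain ⟨x, hx, y, hy, hxy⟩ := e _ hB2
      exact ⟨y, hy, x, hx, hxy.symm⟩
    · exact e _ hB1
    · exact hs.br.adj _ hB1 _ hB2 hne
  · exact (forall_mem_insert _ _ _).2 ⟨a.trans sdiff_subset, hs.subB⟩
  · refine (forall_mem_insert _ _ _).2 ⟨disjoint_right.2 fun x hx hx' => ?_, hs.disj⟩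
    exact hPn x hx (mem_union_left _ (mem_union_left _ hx'))
  · intro x hx y hy hxy
    have := hs.nb x hx y hy hxy
    rw [biUnion_insert]
    simp only [mem_union] at this ⊢
    tauto
  · rw [card_insert_of_notMem hP]
    omega

/-- A large graph without a clique minor has a sparse cut. -/
theorem HF_cut {U : Finset X} {h l j T : ℕ} (hG : ¬ HasCliqueMinor G h) (hl : 0 < l)
    (hj : #U < 2 ^ j) (hT : (l * h + 1) * (h * (2 * (l * j + 1)) + 1) ≤ T) (hU : 6 * T ≤ #U) :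
    ∃ A Z : Finset X, A ⊆ U ∧ A.Nonempty ∧ 3 * #A ≤ 2 * #U ∧ l * #Z ≤ 2 * #A ∧
      ∀ x ∈ A, ∀ y ∈ U, G.Adj x y → y ∈ A ∪ Z := by
  set S := h * (2 * (l * j + 1)) + 1 with hS
  have hS1 : 1 ≤ S := by omega
  rw [add_one_mul] at hT
  have hM : ∀ V L 𝓑, HFState G U l S V L 𝓑 → #(𝓑.biUnion id) ≤ h * S := fun V L 𝓑 hs =>
    (card_biUnion_le_card_mul _ _ _ hs.br.small).trans
      (Nat.mul_le_mul_right _ (hs.br.card_lt hG).le)
  have key : ∀ m V L 𝓑, HFState G U l S V L 𝓑 → #V < T → 2 * T + h ≤ 2 * #V + #𝓑 + m →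
      ∃ V L 𝓑, HFState G U l S V L 𝓑 ∧ T ≤ #V ∧ 3 * #V ≤ 2 * #U := by
    intro m
    induction m with
    | zero =>
      intro V L 𝓑 hs h1 h2
      have := hs.br.card_lt hG
      omega
    | succ m ih =>
      intro V L 𝓑 hs h1 h2
      obtain ⟨V', L', 𝓑', hs', h3, h4⟩ := hs.next hG hl hj (by
        refine card_pos.1 ?_
        have h3 := le_card_sdiff (V ∪ L ∪ 𝓑.biUnion id) U
        have h4 := card_union_le (V ∪ L) (𝓑.biUnion id)
        have h5 := card_union_le V L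
        have h6 := hM _ _ _ hs
        have h7 := hs.lz
        have h8 : #L ≤ l * #L := Nat.le_mul_of_pos_left _ hl
        have h9 : h * S ≤ l * h * S := by rw [mul_assoc]; exact Nat.le_mul_of_pos_left _ hl
        omega)
      by_cases h5 : #V' < T
      · exact ih V' L' 𝓑' hs' h5 (by omega)
      · exact ⟨V', L', 𝓑', hs', by omega, by omega⟩
  obtain ⟨V, L, 𝓑, hs, h1, h2⟩ := key (2 * T + h) ∅ ∅ ∅
    ⟨⟨by simp, by simp, by simp, by simp, by simp⟩, by simp, by simp, by simp, by simp, by simp⟩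
    (by simp; omega) (by omega)
  refine ⟨V, L ∪ 𝓑.biUnion id, hs.sub, card_pos.1 (by omega), h2, ?_, ?_⟩
  · have h3 := Nat.mul_le_mul_left l (card_union_le L (𝓑.biUnion id))
    have h4 := Nat.mul_le_mul_left l (hM _ _ _ hs)
    have h5 := hs.lz
    rw [mul_add] at h3
    rw [← mul_assoc] at h4
    omega
  · intro x hx y hy hxy
    rw [← union_assoc]
    exact hs.nb x hx y hy hxy

/-- A cutting of `U` into pieces of size at most `K`. -/
def HFCutting (G : SimpleGraph X) (K : ℕ) (U R : Finset X) (cmp : X → ℕ) : Prop :=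
  (∀ x ∈ U, ∀ y ∈ U, x ∉ R → y ∉ R → G.Adj x y → cmp x = cmp y) ∧
    ∀ k, #{x ∈ U | x ∉ R ∧ cmp x = k} ≤ K

theorem HFCutting.glue {K : ℕ} {U A Z R₁ R₂ : Finset X} {c₁ c₂ : X → ℕ}
    (hA : ∀ x ∈ A, ∀ y ∈ U, G.Adj x y → y ∈ A ∪ Z) (h₁ : HFCutting G K A R₁ c₁)
    (h₂ : HFCutting G K (U \ (A ∪ Z)) R₂ c₂) :
    ∃ c, HFCutting G K U (R₁ ∪ Z ∪ R₂) c := by
  refine ⟨fun x => if x ∈ A then 2 * c₁ x else 2 * c₂ x + 1, ?_, fun k => ?_⟩
  · intro x hx y hy hx' hy' hxy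
    simp only [mem_union, not_or] at hx' hy'
    by_cases ha : x ∈ A <;> by_cases hb : y ∈ A
    · simp only [if_pos ha, if_pos hb, h₁.1 x ha y hb hx'.1.1 hy'.1.1 hxy]
    · exact absurd (mem_union.1 (hA x ha y hy hxy)) (by tauto)
    · exact absurd (mem_union.1 (hA y hb x hx hxy.symm)) (by tauto)
    · simp only [if_neg ha, if_neg hb, h₂.1 x (by simp [hx, ha, hx'.1.2]) y
        (by simp [hy, hb, hy'.1.2]) hx'.2 hy'.2 hxy]
  · rcases Nat.even_or_odd' k with ⟨m, rfl | rfl⟩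
    · refine le_trans (card_le_card fun x hx => ?_) (h₁.2 m)
      simp only [mem_filter, mem_union, not_or] at hx ⊢
      by_cases ha : x ∈ A
      · rw [if_pos ha] at hx
        exact ⟨ha, hx.2.1.1.1, by omega⟩
      · rw [if_neg ha] at hx
        omega
    · refine le_trans (card_le_card fun x hx => ?_) (h₂.2 m)
      simp only [mem_filter, mem_union, not_or, mem_sdiff] at hx ⊢
      by_cases ha : x ∈ A
      · rw [if_pos ha] at hx
        omega
      · rw [if_neg ha] at hx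
        exact ⟨⟨hx.1, ha, hx.2.1.1.2⟩, hx.2.1.2, by omega⟩

theorem HF_scale {h E i0 C : ℕ} (hG : ¬ HasCliqueMinor G h) (hE : 0 < E)
    (hC : ∀ m, 0 < m → (2 * E * m ^ 2 * h + 1) * (h * (2 * (2 * E * m ^ 2 * m + 1)) + 1) ≤ C * m ^ 5)
    (hi0 : ∀ i, i0 ≤ i → (6 * (C * (i + 2) ^ 5)) ^ 2 ≤ 2 ^ i) (i : ℕ) :
    ∀ U : Finset X, #U ^ 2 ≤ 2 ^ i →
      ∃ R c, HFCutting G (2 ^ i0) U R c ∧ E * (i + 1) * #R ≤ i * #U := by
  have small : ∀ i, i ≤ i0 → ∀ U : Finset X, #U ^ 2 ≤ 2 ^ i →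
      ∃ R c, HFCutting G (2 ^ i0) U R c ∧ E * (i + 1) * #R ≤ i * #U := by
    intro i hi U hU
    refine ⟨∅, fun _ => 0, ⟨fun _ _ _ _ _ _ _ => rfl, fun k => ?_⟩, by simp⟩
    exact (card_filter_le _ _).trans ((Nat.le_self_pow two_ne_zero _).trans
      (hU.trans (Nat.pow_le_pow_right two_pos hi)))
  induction i with
  | zero => exact small 0 (Nat.zero_le _)
  | succ i ih =>
    by_cases hi : i + 1 ≤ i0
    · exact small _ hi
    intro U
    induction U using Finset.strongInduction with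
    | H U ihU =>
      intro hU
      by_cases h1 : #U ^ 2 ≤ 2 ^ i
      · obtain ⟨R, c, hc, hR⟩ := ih U h1
        refine ⟨R, c, hc, Nat.le_of_mul_le_mul_left ?_ (Nat.succ_pos i)⟩
        nlinarith [Nat.mul_le_mul_left (i + 2) hR, Nat.zero_le #U]
      · have h2 : 6 * (C * (i + 2) ^ 5) ≤ #U :=
          (Nat.pow_le_pow_iff_left two_ne_zero).1 ((hi0 i (by omega)).trans (not_le.1 h1).le)
        have h3 : #U < 2 ^ (i + 2) := ((Nat.le_self_pow two_ne_zero _).trans hU).trans_lt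
          (Nat.pow_lt_pow_right one_lt_two (by omega))
        obtain ⟨A, Z, hAU, hAne, hA, hZ, hnb⟩ := HF_cut (l := 2 * E * (i + 2) ^ 2) hG
          (by positivity) h3 (hC (i + 2) (by omega)) h2
        obtain ⟨R₁, c₁, hc₁, hR₁⟩ := ih A (by
          have := Nat.pow_le_pow_left hA 2
          rw [mul_pow, mul_pow] at this
          rw [pow_succ 2 i] at hU
          omega)
        have hsub : U \ (A ∪ Z) ⊆ U \ A := sdiff_subset_sdiff Subset.rfl subset_union_left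
        obtain ⟨R₂, c₂, hc₂, hR₂⟩ := ihU (U \ (A ∪ Z))
          (hsub.trans_ssubset (sdiff_ssubset hAU hAne))
          ((Nat.pow_le_pow_left (card_le_card sdiff_subset) 2).trans hU)
        obtain ⟨c, hc⟩ := hc₁.glue hnb hc₂
        refine ⟨_, c, hc, ?_⟩
        have h4 : #(U \ (A ∪ Z)) + #A ≤ #U := by
          rw [← card_sdiff_add_card_eq_card hAU]
          exact Nat.add_le_add_right (card_le_card hsub) _
        have h5 : #(R₁ ∪ Z ∪ R₂) ≤ #R₁ + #Z + #R₂ :=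
          (card_union_le _ _).trans (Nat.add_le_add_right (card_union_le _ _) _)
        have h6 : E * (i + 1 + 1) * (#R₁ + #Z) ≤ (i + 1) * #A := by
          refine Nat.le_of_mul_le_mul_left ?_ (Nat.succ_pos i)
          nlinarith [Nat.mul_le_mul_left (i + 2) hR₁, Nat.zero_le (E * (i + 2) * #Z)]
        nlinarith [Nat.mul_le_mul_left (E * (i + 1 + 1)) h5, Nat.mul_le_mul_left (i + 1) h4]

end HFaux

theorem HF_growth (C : ℕ) : ∃ i0, ∀ i, i0 ≤ i → (6 * (C * (i + 2) ^ 5)) ^ 2 ≤ 2 ^ i := by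
  have h := (isLittleO_pow_const_const_pow_of_one_lt (R := ℝ) 10 one_lt_two).def
    (c := 1 / (4 * (36 * C ^ 2 + 1))) (by positivity)
  obtain ⟨m0, hm⟩ := Filter.eventually_atTop.1 h
  refine ⟨m0, fun i hi => ?_⟩
  have h1 := hm (i + 2) (by omega)
  rw [Real.norm_of_nonneg (by positivity), Real.norm_of_nonneg (by positivity), one_div,
    ← div_eq_inv_mul, le_div_iff₀ (by positivity), pow_add] at h1
  have h2 : ((6 * (C * (i + 2) ^ 5)) ^ 2 : ℝ) ≤ 2 ^ i := by
    push_cast at h1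
    nlinarith [pow_nonneg (show (0 : ℝ) ≤ i + 2 by positivity) 10]
  exact_mod_cast h2

theorem hyperfinite (h E : ℕ) :
    ∃ K : ℕ, ∀ (X : Type) [Fintype X] [DecidableEq X] (G : SimpleGraph X),
      ¬ HasCliqueMinor G h → ∃ (R : Finset X) (cmp : X → ℕ), E * R.card ≤ Fintype.card X ∧
        (∀ x y, x ∉ R → y ∉ R → G.Adj x y → cmp x = cmp y) ∧
        ∀ k, #{x | x ∉ R ∧ cmp x = k} ≤ K := by
  obtain ⟨i0, hi0⟩ := HF_growth ((2 * (E + 1) * h + 1) * (h * (2 * (2 * (E + 1) + 1)) + 1))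
  refine ⟨2 ^ i0, fun X _ _ G hG => ?_⟩
  obtain ⟨R, c, hc, hR⟩ := HF_scale hG (Nat.succ_pos E) (fun m hm => by
    have h2 : 1 ≤ m ^ 2 := Nat.one_le_pow _ _ hm
    have h3 : 1 ≤ m ^ 3 := Nat.one_le_pow _ _ hm
    calc _ ≤ (2 * (E + 1) * m ^ 2 * h + m ^ 2) *
          (h * (2 * (2 * (E + 1) * m ^ 2 * m + m ^ 3)) + m ^ 3) := by gcongr
      _ = _ := by ring) hi0 (#(univ : Finset X) ^ 2) univ Nat.lt_two_pow_self.le
  refine ⟨R, c, ?_, fun x y => hc.1 x (mem_univ _) y (mem_univ _), hc.2⟩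
  rw [card_univ] at hR
  refine Nat.le_of_mul_le_mul_left ?_ (Nat.succ_pos (Fintype.card X ^ 2))
  nlinarith [Nat.zero_le (Fintype.card X), Nat.zero_le ((Fintype.card X ^ 2 + 1) * #R)]

end Crest.Agent.R184
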