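import Crest.Agent.R184.Minor
import Crest.Agent.R184.HF
import Crest.Agent.R184.GlobalAux

/-! From bounded pieces to all diagrams. -/

set_option autoImplicit false

namespace Crest.Agent.R184

open Finset

section

variable {V S C H : Type} {D : HES V S C H} {rev : H → H} {w : List ((V ⊕ S) × Bool)}

/-- the piece of a diagram carried by a bounded set of cells -/
noncomputable def globalComp (Δ : Diag D rev w) {L K : ℕ} {X : Type} (c : GlobalCells Δ.nx L X)
    (P : X → Prop) (e : {x // P x} ↪ Fin K) : Comp D rev K L {t // P (c.cell t)} where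
  θ t := Δ.θ t.1
  cell t := e ⟨c.cell t.1, t.2⟩
  idx t := ⟨c.idx t.1, c.idx_lt _⟩
  inj t t' h1 h2 :=
    Subtype.ext (c.inj _ _ (congrArg Subtype.val (e.injective h1)) (congrArg Fin.val h2))
  nx := globalRes _ Δ.nx
  mu := globalRes _ Δ.mu
  nx_inj _ _ _ h1 h2 := Subtype.ext (Δ.nx_inj (globalRes_eq_some.1 h1) (globalRes_eq_some.1 h2))
  nx_spec _ _ h := Δ.nx_spec (globalRes_eq_some.1 h)
  prev s hs := by
    obtain ⟨t, h1, h2, h3⟩ := c.prev s.1 hs
    exact ⟨⟨t, h1 ▸ s.2⟩, congrArg e (Subtype.ext h1), h2, globalRes_eq_some.2 h3⟩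
  mu_symm _ _ h := globalRes_eq_some.2 (Δ.mu_symm (globalRes_eq_some.1 h))
  mu_spec _ _ h := Δ.mu_spec (globalRes_eq_some.1 h)

theorem globalComp_succ (Δ : Diag D rev w) {L K : ℕ} {X : Type} (c : GlobalCells Δ.nx L X)
    (P : X → Prop) (e : {x // P x} ↪ Fin K) (t s : {t // P (c.cell t)}) :
    (globalComp Δ c P e).succ t s ↔ c.cell t.1 = c.cell s.1 ∧ c.idx t.1 + 1 = c.idx s.1 :=
  and_congr ⟨fun h => congrArg Subtype.val (e.injective h), fun h => congrArg e (Subtype.ext h)⟩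
    Iff.rfl

theorem global_of_nx (Δ : Diag D rev w) {L : ℕ} {X : Type} (c : GlobalCells Δ.nx L X)
    {t s : Δ.T} (h : Δ.nx t = some s) (hs : 0 < c.idx s) :
    c.cell t = c.cell s ∧ c.idx t + 1 = c.idx s := by
  obtain ⟨u, h1, h2, h3⟩ := c.prev s hs
  rw [Δ.nx_inj h h3]
  exact ⟨h1, h2⟩

theorem globalComp_exc (Δ : Diag D rev w) {L K : ℕ} {X : Type} (c : GlobalCells Δ.nx L X)
    (P : X → Prop) (e : {x // P x} ↪ Fin K) (t : {t // P (c.cell t)})
    (h : (globalComp Δ c P e).exc t) :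
    Δ.brk t.1 ∨ ∃ s, Δ.mu t.1 = some s ∧ c.idx s = 0 := by
  obtain ⟨s, hs, h⟩ := h
  rw [globalComp_succ] at hs
  by_contra hcon
  rw [not_or] at hcon
  obtain ⟨h1, h2⟩ := hcon
  simp only [Diag.brk, not_not] at h1
  obtain ⟨s1, s', t', h3, h4, h5, h6⟩ := h1
  have h7 := Δ.mu_symm h6
  have h8 : 0 < c.idx t' := Nat.pos_of_ne_zero fun h0 => h2 ⟨t', h7, h0⟩
  obtain ⟨u, h9, h10, h11⟩ := c.prev s.1 (by omega)
  have h12 : u = t.1 := c.inj _ _ (h9.trans hs.1.symm) (by omega)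
  rw [h12, h3] at h11
  obtain rfl : s1 = s.1 := Option.some.inj h11
  obtain ⟨h13, h14⟩ := global_of_nx Δ c h5 h8
  by_cases hP : P (c.cell t')
  · refine h (Or.inr ⟨⟨t', hP⟩, ⟨s', h13 ▸ hP⟩, globalRes_eq_some.2 h7, globalRes_eq_some.2 h4, ?_⟩)
    rw [globalComp_succ]
    exact ⟨h13, h14⟩
  · refine h (Or.inl ⟨globalRes_eq_none.2 fun x hx => ?_, globalRes_eq_none.2 fun x hx => ?_⟩)
    · rw [h7] at hx
      rw [← Option.some.inj hx]; exact hP
    · rw [h4] at hx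
      rw [← Option.some.inj hx, h13]; exact hP

theorem global_adj (Δ : Diag D rev w) {t s : Δ.T} (h : Δ.nx t = some s ∨ Δ.mu t = some s)
    (hts : t ≠ s) : Δ.graph.Adj t s :=
  (SimpleGraph.fromRel_adj _ _ _).2 ⟨hts, Or.inl h⟩

open Classical in
theorem global_master {E K L : ℕ} (hL : 0 < L)
    (hK : ∀ (X : Type) [Fintype X] [DecidableEq X] (G : SimpleGraph X),
      ¬ HasCliqueMinor G 7 → ∃ (R : Finset X) (cmp : X → ℕ), E * R.card ≤ Fintype.card X ∧
        (∀ x y, x ∉ R → y ∉ R → G.Adj x y → cmp x = cmp y) ∧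
        ∀ k, #{x | x ∉ R ∧ cmp x = k} ≤ K)
    {j0 : V} {κ Y Λ Cq : ℝ} (hκ : 0 ≤ κ) (hY : 0 ≤ Y) (hΛ : 0 ≤ Λ) (hCq : 0 ≤ Cq)
    (hg : D.Girth rev (2 * L)) (hci : CompIneq D rev j0 K L κ Y Λ Cq) (Δ : Diag D rev w) :
    ∃ ρ n' : ℕ, E * ρ ≤ n' ∧ L * n' ≤ 2 * Fintype.card Δ.T + L * #{t | Δ.nx t = none} ∧
      κ * Fintype.card Δ.T + (if ∃ t, D.vert (Δ.θ t) = j0 then Λ else 0) ≤
        κ * (ρ * L) + Y * ((#{t | Δ.brk t} : ℕ) + 2 * n') +
          Λ * ((#{t | Δ.nx t = none} : ℕ) + 2 * ρ) +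
          Cq * ((#{t | Δ.mu t = none} : ℕ) + ρ * L) := by
  obtain ⟨X, _, c, hX⟩ := global_exists_cells Δ.nx (fun _ _ _ => Δ.nx_inj) hL
    fun p k hk hp h => by
      refine hg (fun i => Δ.θ (p i)) k (by omega) (fun i hi => Δ.nx_spec (hp i (by omega))) ?_
      rw [← (Δ.nx_spec (hp k le_rfl)).1, h]
  obtain ⟨R, cmp, hR, hcmp, hcard⟩ := hK X (c.graph Δ.graph) fun h =>
    Δ.not_hasCliqueMinor (c.hasCliqueMinor _ (fun t s h => global_adj Δ (Or.inl h)) h)
  refine ⟨R.card, Fintype.card X, hR, by convert hX, ?_⟩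
  have hlink : ∀ t s, (Δ.nx t = some s ∨ Δ.mu t = some s) → c.cell t ∉ R → c.cell s ∉ R →
      cmp (c.cell t) = cmp (c.cell s) := by
    intro t s h ht hs
    by_cases hc : c.cell t = c.cell s
    · rw [hc]
    · exact hcmp _ _ ht hs ((SimpleGraph.fromRel_adj _ _ _).2
        ⟨hc, Or.inl ⟨t, s, rfl, rfl, global_adj Δ h fun h' => hc (by rw [h'])⟩⟩)
  set Qe : Δ.T → Prop := fun t => Δ.brk t ∨ ∃ s, Δ.mu t = some s ∧ c.idx s = 0 with hQe
  set Qn : Δ.T → Prop := fun t => Δ.nx t = none ∨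
    ∃ s, Δ.nx t = some s ∧ (c.cell s ∈ R ∧ c.idx s = 0) with hQn
  set Qm : Δ.T → Prop := fun t => Δ.mu t = none ∨ ∃ s, Δ.mu t = some s ∧ c.cell s ∈ R with hQm
  have hpiece : ∀ k : ℕ,
      κ * globalCnt (fun _ : {t // c.cell t ∉ R ∧ cmp (c.cell t) = k} => True) +
        (if ∃ t, (c.cell t ∉ R ∧ cmp (c.cell t) = k) ∧ D.vert (Δ.θ t) = j0 then Λ else 0) ≤
      Y * (globalCnt (fun t : {t // c.cell t ∉ R ∧ cmp (c.cell t) = k} => Qe t.1) + 1) +
        Λ * globalCnt (fun t : {t // c.cell t ∉ R ∧ cmp (c.cell t) = k} => Qn t.1) +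
        Cq * globalCnt (fun t : {t // c.cell t ∉ R ∧ cmp (c.cell t) = k} => Qm t.1) := by
    intro k
    obtain ⟨e⟩ : Nonempty ({x // x ∉ R ∧ cmp x = k} ↪ Fin K) :=
      Function.Embedding.nonempty_of_card_le (by
        rw [Fintype.card_fin, Fintype.card_subtype]
        convert hcard k)
    have h := hci _ (globalComp Δ c (fun x => x ∉ R ∧ cmp x = k) e)
    rw [globalCnt_eq, globalCnt_eq, globalCnt_eq, ← globalCnt_true] at h
    have e1 : globalCnt (globalComp Δ c (fun x => x ∉ R ∧ cmp x = k) e).exc ≤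
        globalCnt (fun t : {t // c.cell t ∉ R ∧ cmp (c.cell t) = k} => Qe t.1) :=
      globalCnt_mono fun t ht => globalComp_exc Δ c _ e t ht
    have e2 : globalCnt (fun t => (globalComp Δ c (fun x => x ∉ R ∧ cmp x = k) e).nx t = none) ≤
        globalCnt (fun t : {t // c.cell t ∉ R ∧ cmp (c.cell t) = k} => Qn t.1) := by
      refine globalCnt_mono fun t ht => ?_
      have ht' := globalRes_eq_none.1 ht
      rcases hs : Δ.nx t.1 with _ | s
      · exact Or.inl hs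
      · refine Or.inr ⟨s, hs, ?_, ?_⟩
        · by_contra h1
          exact ht' s hs ⟨h1, (hlink _ _ (Or.inl hs) t.2.1 h1).symm.trans t.2.2⟩
        · by_contra h1
          exact ht' s hs ((global_of_nx Δ c hs (Nat.pos_of_ne_zero h1)).1 ▸ t.2)
    have e3 : globalCnt (fun t => (globalComp Δ c (fun x => x ∉ R ∧ cmp x = k) e).mu t = none) ≤
        globalCnt (fun t : {t // c.cell t ∉ R ∧ cmp (c.cell t) = k} => Qm t.1) := by
      refine globalCnt_mono fun t ht => ?_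
      have ht' := globalRes_eq_none.1 ht
      rcases hs : Δ.mu t.1 with _ | s
      · exact Or.inl hs
      · refine Or.inr ⟨s, hs, ?_⟩
        by_contra h1
        exact ht' s hs ⟨h1, (hlink _ _ (Or.inr hs) t.2.1 h1).symm.trans t.2.2⟩
    have e1' := mul_le_mul_of_nonneg_left (Nat.cast_le (α := ℝ).2 e1) hY
    have e2' := mul_le_mul_of_nonneg_left (Nat.cast_le (α := ℝ).2 e2) hΛ
    have e3' := mul_le_mul_of_nonneg_left (Nat.cast_le (α := ℝ).2 e3) hCq
    have e4 : (∃ t, D.vert ((globalComp Δ c (fun x => x ∉ R ∧ cmp x = k) e).θ t) = j0) ↔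
        ∃ t, (c.cell t ∉ R ∧ cmp (c.cell t) = k) ∧ D.vert (Δ.θ t) = j0 :=
      ⟨fun ⟨t, ht⟩ => ⟨t.1, t.2, ht⟩, fun ⟨t, ht, ht'⟩ => ⟨⟨t, ht⟩, ht'⟩⟩
    simp only [e4] at h
    linarith
  set Ks : Finset ℕ := univ.image cmp with hKs
  have hKs1 : ∀ t, c.cell t ∉ R → cmp (c.cell t) ∈ Ks := fun t _ => mem_image_of_mem _ (mem_univ _)
  have hKs2 : Ks.card ≤ Fintype.card X := card_image_le
  have hsum := sum_le_sum fun k (_ : k ∈ Ks) => hpiece k
  simp only [sum_add_distrib, ← mul_sum, ← Nat.cast_sum, sum_const, nsmul_eq_mul, mul_one] at hsum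
  rw [globalCnt_sum (fun t => c.cell t ∉ R) (fun t => cmp (c.cell t)) Ks hKs1 (fun _ => True),
    globalCnt_sum (fun t => c.cell t ∉ R) (fun t => cmp (c.cell t)) Ks hKs1 Qe,
    globalCnt_sum (fun t => c.cell t ∉ R) (fun t => cmp (c.cell t)) Ks hKs1 Qn,
    globalCnt_sum (fun t => c.cell t ∉ R) (fun t => cmp (c.cell t)) Ks hKs1 Qm] at hsum
  have hmu : ∀ t t' s, Δ.mu t = some s → Δ.mu t' = some s → t = t' := fun t t' s h h' =>
    Option.some.inj ((Δ.mu_symm h).symm.trans (Δ.mu_symm h'))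
  have c1 : globalCnt (fun t => c.cell t ∈ R) ≤ R.card * L := by
    rw [← globalCnt_eq]; exact c.card_mem R
  have c2 : globalCnt (fun t => c.cell t ∈ R ∧ c.idx t = 0) ≤ R.card := by
    rw [← globalCnt_eq]; exact c.card_idx_zero R
  have c3 : globalCnt (fun t => c.idx t = 0) ≤ Fintype.card X := by
    have := c.card_idx_zero univ
    rw [globalCnt_eq, card_univ] at this
    exact (globalCnt_mono fun t ht => ⟨mem_univ _, ht⟩).trans this
  have f0 : Fintype.card Δ.T ≤ globalCnt (fun t => c.cell t ∉ R ∧ True) + R.card * L := by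
    rw [← globalCnt_true]
    refine le_trans (globalCnt_mono fun t _ => ?_) (globalCnt_or.trans (Nat.add_le_add_left c1 _))
    by_cases h : c.cell t ∈ R <;> simp [h]
  have f1 : globalCnt (fun t => c.cell t ∉ R ∧ Qe t) ≤ globalCnt Δ.brk + Fintype.card X :=
    (globalCnt_mono fun t ht => ht.2).trans (globalCnt_or.trans
      (Nat.add_le_add_left ((globalCnt_pull _ hmu _).trans c3) _))
  have f2 : globalCnt (fun t => c.cell t ∉ R ∧ Qn t) ≤
      globalCnt (fun t => Δ.nx t = none) + R.card :=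
    (globalCnt_mono fun t ht => ht.2).trans (globalCnt_or.trans
      (Nat.add_le_add_left ((globalCnt_pull _ (fun _ _ _ => Δ.nx_inj) _).trans c2) _))
  have f3 : globalCnt (fun t => c.cell t ∉ R ∧ Qm t) ≤
      globalCnt (fun t => Δ.mu t = none) + R.card * L :=
    (globalCnt_mono fun t ht => ht.2).trans (globalCnt_or.trans
      (Nat.add_le_add_left ((globalCnt_pull _ hmu _).trans c1) _))
  have f4 : (if ∃ t, D.vert (Δ.θ t) = j0 then Λ else 0) ≤ Λ * R.card +
      ∑ k ∈ Ks, (if ∃ t, (c.cell t ∉ R ∧ cmp (c.cell t) = k) ∧ D.vert (Δ.θ t) = j0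
        then Λ else 0) := by
    have h0 : ∀ k ∈ Ks, 0 ≤ (if ∃ t, (c.cell t ∉ R ∧ cmp (c.cell t) = k) ∧ D.vert (Δ.θ t) = j0
        then Λ else 0) := fun k _ => by split_ifs <;> simp [hΛ]
    have h1 := sum_nonneg h0
    have h2 : 0 ≤ Λ * R.card := by positivity
    split_ifs with h
    · obtain ⟨t, ht⟩ := h
      by_cases hR : c.cell t ∈ R
      · have : (1 : ℝ) ≤ R.card := by exact_mod_cast card_pos.2 ⟨_, hR⟩
        nlinarith
      · have := single_le_sum h0 (hKs1 t hR)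
        rw [if_pos ⟨t, ⟨hR, rfl⟩, ht⟩] at this
        linarith
    · linarith
  rw [globalCnt_eq, globalCnt_eq, globalCnt_eq]
  have g0 := mul_le_mul_of_nonneg_left (Nat.cast_le (α := ℝ).2 f0) hκ
  have g1 := mul_le_mul_of_nonneg_left (Nat.cast_le (α := ℝ).2 f1) hY
  have g2 := mul_le_mul_of_nonneg_left (Nat.cast_le (α := ℝ).2 f2) hΛ
  have g3 := mul_le_mul_of_nonneg_left (Nat.cast_le (α := ℝ).2 f3) hCq
  have g4 := mul_le_mul_of_nonneg_left (Nat.cast_le (α := ℝ).2 hKs2) hY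
  push_cast at g0 g1 g2 g3
  linarith

end

theorem diagBound_of_compIneq {κ Cq CΛ : ℝ} (hκ : 0 < κ) (hCq : 0 ≤ Cq) (hΛ : 0 ≤ CΛ) :
    ∃ (K : ℕ) (η : ℝ) (L₁ : ℕ), 0 < η ∧ ∀ L, L₁ ≤ L → ∀ (V S C H : Type) (D : HES V S C H)
      (rev : H → H) (j0 : V) (Λ : ℝ), 0 ≤ Λ → Λ ≤ CΛ * L → D.IsConf rev →
      D.Girth rev (2 * L) → CompIneq D rev j0 K L κ (η * L) Λ Cq → DiagBound D rev j0 := by
  classical
  obtain ⟨E, hE⟩ := exists_nat_ge (8 * (κ + 2 * CΛ + Cq) / κ)
  rw [div_le_iff₀ hκ] at hE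
  obtain ⟨L₁, hL₁⟩ := exists_nat_ge (2 * Cq / κ)
  rw [div_le_iff₀ hκ] at hL₁
  obtain ⟨K, hK⟩ := hyperfinite 7 E
  refine ⟨K, κ / 100, L₁ + 1, by positivity, fun L hL V S C H D rev j0 Λ hΛ0 hΛ1 hc hg hci => ?_⟩
  have hL0 : (0 : ℝ) ≤ L := Nat.cast_nonneg _
  have hL2 : 2 * Cq ≤ L * κ := hL₁.trans
    (mul_le_mul_of_nonneg_right (by exact_mod_cast (by omega : L₁ ≤ L)) hκ.le)
  have key : ∀ (w : List ((V ⊕ S) × Bool)) (Δ : Diag D rev w) (e u : ℕ),
      (w.countP fun x => x.1.isLeft && !x.2) ≤ e → (w.countP fun x => x.1.isRight) ≤ u →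
      κ / 2 * Fintype.card Δ.T + (if ∃ t, D.vert (Δ.θ t) = j0 then Λ else 0) ≤
        κ * L * (e / 8 + (3 * w.length + 6 + 2 * e) / 100) + Λ * e + Cq * u := by
    intro w Δ e u he hu
    obtain ⟨ρ, n', h1, h2, h3⟩ := global_master (by omega) hK hκ.le (by positivity) hΛ0 hCq hg hci Δ
    have h4 := Δ.euler hc hg
    have h5 := Δ.card_nx_none.trans he
    have h6 := Δ.card_mu_none.trans hu
    rw [globalCnt_eq] at h2 h4 h5 h6
    rw [globalCnt_eq, globalCnt_eq, globalCnt_eq] at h3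
    generalize globalCnt (fun t => Δ.nx t = none) = e0 at *
    generalize globalCnt (fun t => Δ.mu t = none) = u0 at *
    generalize globalCnt Δ.brk = b at *
    generalize Fintype.card Δ.T = T at *
    generalize (if ∃ t, D.vert (Δ.θ t) = j0 then Λ else 0) = r at *
    have h1' : (E : ℝ) * ρ ≤ n' := by exact_mod_cast h1
    have h2' : (L : ℝ) * n' ≤ 2 * T + L * e := by
      exact_mod_cast h2.trans (Nat.add_le_add_left (Nat.mul_le_mul_left _ h5) _)
    have h4' : 2 * (L : ℝ) * b ≤ 6 * T + 2 * L * (3 * w.length + 6) := by exact_mod_cast h4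
    have h5' : (e0 : ℝ) ≤ e := by exact_mod_cast h5
    have h6' : (u0 : ℝ) ≤ u := by exact_mod_cast h6
    have hρ : (0 : ℝ) ≤ ρ := Nat.cast_nonneg _
    have hT : (0 : ℝ) ≤ T := Nat.cast_nonneg _
    have a1 := mul_le_mul_of_nonneg_right hE (mul_nonneg hρ hL0)
    have a2 := mul_le_mul_of_nonneg_right h1' (mul_nonneg hL0 hκ.le)
    have a3 := mul_le_mul_of_nonneg_right h2' hκ.le
    have a4 := mul_le_mul_of_nonneg_right h4' hκ.le
    have a5 := mul_le_mul_of_nonneg_left h5' hΛ0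
    have a6 := mul_le_mul_of_nonneg_left h6' hCq
    have a7 := mul_le_mul_of_nonneg_right hΛ1 hρ
    have a8 := mul_nonneg hκ.le hT
    linarith
  have small : ∀ T : ℕ, κ / 2 * T ≤ κ * L → T ≤ 2 * L := fun T h => by
    have : (T : ℝ) ≤ 2 * L := by nlinarith
    exact_mod_cast this
  have hr : ∀ (P : Prop) [Decidable P], 0 ≤ if P then Λ else 0 := fun P _ => by
    split_ifs <;> simp [hΛ0]
  have hκL : 0 ≤ κ * L := by positivity
  refine ⟨?_, fun s => ⟨fun Δ => ?_⟩, fun j hj => ⟨fun Δ => ?_⟩⟩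
  · obtain ⟨N, hN⟩ := exists_nat_ge (2 * (κ * L + Λ + Cq) / κ)
    rw [div_le_iff₀ hκ] at hN
    refine ⟨N, fun w Δ => ?_⟩
    have h1 := key w Δ w.length w.length List.countP_le_length List.countP_le_length
    have h2 := hr (∃ t, D.vert (Δ.θ t) = j0)
    rcases Nat.eq_zero_or_pos w.length with h | h
    · have h3 : Fintype.card Δ.T ≤ 2 * L := small _ (by
        rw [h] at h1
        push_cast at h1
        linarith)
      have h4 := Δ.card_nx_none.trans (List.countP_le_length.trans h.le)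
      have := Δ.isEmpty_of_nx hg h3 fun t ht =>
        absurd (card_pos.2 ⟨t, mem_filter.2 ⟨mem_univ t, ht⟩⟩) (not_lt.2 h4)
      simp
    · have h3 : (1 : ℝ) ≤ w.length := by exact_mod_cast h
      have h4 := mul_le_mul_of_nonneg_right hN (by linarith : (0 : ℝ) ≤ w.length)
      have h5 := mul_le_mul_of_nonneg_left h3 hκL
      have h6 : 0 ≤ κ * L * w.length := by positivity
      have h7 : κ * Fintype.card Δ.T ≤ κ * (N * w.length) := by linarith
      exact_mod_cast le_of_mul_le_mul_left h7 hκ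
  · have h1 := key _ Δ 0 1 (by simp) (by simp)
    have h2 := hr (∃ t, D.vert (Δ.θ t) = j0)
    refine Δ.not_letter hg (small _ ?_)
    simp only [List.length_cons, List.length_nil] at h1
    push_cast at h1
    linarith
  · have h1 := key _ Δ 1 0 (by simp) (by simp)
    rcases Δ.exists_start (v := j0) ⟨0, by simp⟩ rfl with ⟨t, -, ht⟩ | ⟨k, hk⟩
    · rw [if_pos ⟨t, ht⟩] at h1
      refine hj (Δ.euler_root hc hg (small _ ?_))
      simp only [List.length_cons, List.length_nil] at h1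
      push_cast at h1
      linarith
    · have h2 := List.get_mem _ k
      rw [hk] at h2
      simp [hj.symm] at h2

end Crest.Agent.R184
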