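import Crest.Agent.R184.VK

/-! From diagrams to the group. -/

set_option autoImplicit false

namespace Crest.Agent.R184

namespace TP

variable {Gn R : Type} (P : TP Gn R)

theorem good_pr_of (s : Gn) : P.pr (FreeGroup.of s) = P.gen s := rfl

theorem good_pr_rel (r : R) : P.pr (P.rel r) = 1 := PresentedGroup.one_of_mem ⟨r, rfl⟩

theorem good_pr_cons (x : Gn × Bool) (w : List (Gn × Bool)) :
    P.pr (FreeGroup.mk (x :: w)) =
      (if x.2 then P.gen x.1 else (P.gen x.1)⁻¹) * P.pr (FreeGroup.mk w) := by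
  have : FreeGroup.mk (x :: w) = FreeGroup.mk [x] * FreeGroup.mk w := rfl
  rw [this, map_mul]
  congr 1
  rcases x with ⟨s, _ | _⟩
  · exact map_inv P.pr (FreeGroup.of s)
  · rfl

theorem good_pathChain_append (w w' : List (Gn × Bool)) (g : P.Grp) :
    P.pathChain g (w ++ w') = P.pathChain g w + P.pathChain (g * P.pr (FreeGroup.mk w)) w' := by
  induction w generalizing g with
  | nil => simp [pathChain, ← FreeGroup.one_eq_mk]
  | cons x w ih =>
    rw [good_pr_cons]
    rcases x with ⟨s, _ | _⟩ <;> simp [pathChain, ih, add_assoc, mul_assoc]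

/-- the 1-chain of a path, as a function of the element of the free group -/
noncomputable def goodFox (g : P.Grp) (u : FreeGroup Gn) : P.Grp × Gn →₀ ℤ :=
  Quot.lift (P.pathChain g) (by
    rintro _ _ @⟨L₁, L₂, x, b⟩
    rw [good_pathChain_append, good_pathChain_append]
    cases b <;> simp [pathChain]) u

theorem goodFox_mk (g : P.Grp) (w : List (Gn × Bool)) :
    P.goodFox g (FreeGroup.mk w) = P.pathChain g w := rfl

theorem goodFox_one (g : P.Grp) : P.goodFox g 1 = 0 := rfl

theorem goodFox_of (g : P.Grp) (s : Gn) :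
    P.goodFox g (FreeGroup.of s) = Finsupp.single (g, s) 1 := by
  change P.pathChain g [(s, true)] = _
  simp [pathChain]

theorem goodFox_mul (g : P.Grp) (u v : FreeGroup Gn) :
    P.goodFox g (u * v) = P.goodFox g u + P.goodFox (g * P.pr u) v := by
  rcases u with ⟨w⟩
  rcases v with ⟨w'⟩
  exact P.good_pathChain_append w w' g

theorem goodFox_inv (g : P.Grp) (u : FreeGroup Gn) :
    P.goodFox g u⁻¹ = -P.goodFox (g * (P.pr u)⁻¹) u := by
  have := P.goodFox_mul g u⁻¹ u
  rw [inv_mul_cancel, goodFox_one, map_inv] at this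
  exact eq_neg_of_add_eq_zero_left this.symm

theorem goodFox_rel (g : P.Grp) (r : R) :
    P.goodFox g (P.rel r) = P.bd (Finsupp.single (g, r) 1) := by
  have h := P.good_pr_rel r
  rw [rel, map_mul, map_inv] at h
  rw [rel, goodFox_mul, goodFox_mul, goodFox_inv, mul_assoc, h, mul_one]
  simp [bd, goodFox_of, good_pr_of, sub_eq_add_neg]

/-- An abstract criterion for asphericity. -/
theorem good_aspherical (Rel : FreeGroup Gn → (P.Grp × R →₀ ℤ) → Prop)
    (hmul : ∀ n c n' c', Rel n c → Rel n' c' → Rel (n * n') (c + c'))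
    (huniq : ∀ n c c', Rel n c → Rel n c' → c = c')
    (hbd : ∀ n c, Rel n c → P.pr n = 1 ∧ P.bd c = P.goodFox 1 n)
    (hker : ∀ n, P.pr n = 1 → ∃ c, Rel n c) (hall : ∀ c, ∃ n, Rel n c) : P.Aspherical := by
  classical
  choose! κ hκ using hker
  have κmul : ∀ n n', P.pr n = 1 → P.pr n' = 1 → κ (n * n') = κ n + κ n' := fun n n' h h' =>
    huniq _ _ _ (hκ _ (by rw [map_mul, h, h', one_mul])) (hmul _ _ _ _ (hκ n h) (hκ n' h'))
  have κone : κ 1 = 0 := by
    have := κmul 1 1 (map_one _) (map_one _)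
    rw [one_mul] at this
    exact left_eq_add.1 this
  have κinv : ∀ n, P.pr n = 1 → κ n⁻¹ = -κ n := fun n h => by
    have := κmul n⁻¹ n (by rw [map_inv, h, inv_one]) h
    rw [inv_mul_cancel, κone] at this
    exact eq_neg_of_add_eq_zero_left this.symm
  obtain ⟨τ, hτ, hτ1⟩ : ∃ τ : P.Grp → FreeGroup Gn, (∀ g, P.pr (τ g) = g) ∧ τ 1 = 1 := by
    have hs : Function.Surjective P.pr := PresentedGroup.mk_surjective _
    refine ⟨fun g => if g = 1 then 1 else Function.surjInv hs g, fun g => ?_, if_pos rfl⟩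
    by_cases hg : g = 1
    · simp [hg]
    · simp [hg, Function.surjInv_eq hs]
  let ρ : (P.Grp × Gn →₀ ℤ) →ₗ[ℤ] (P.Grp × R →₀ ℤ) := Finsupp.linearCombination ℤ fun x =>
    κ (τ x.1 * FreeGroup.of x.2 * (τ (x.1 * P.gen x.2))⁻¹)
  have hone : ∀ g w, P.pr (τ g * w * (τ (g * P.pr w))⁻¹) = 1 := fun g w => by
    simp [hτ]
  have key : ∀ (w : FreeGroup Gn) (g : P.Grp),
      ρ (P.goodFox g w) = κ (τ g * w * (τ (g * P.pr w))⁻¹) := by
    intro w
    induction w using FreeGroup.induction_on with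
    | C1 => intro g; simp [goodFox_one, κone]
    | of s => intro g; simp [goodFox_of, ρ, good_pr_of]
    | inv_of s ih =>
      intro g
      rw [goodFox_inv, map_neg, ih, ← κinv _ (hone _ _)]
      congr 1
      simp [mul_assoc]
    | mul u v hu hv =>
      intro g
      rw [goodFox_mul, map_add, hu, hv, ← κmul _ _ (hone _ _) (hone _ _)]
      congr 1
      simp [mul_assoc]
  refine (injective_iff_map_eq_zero P.bd).2 fun c hc => ?_
  obtain ⟨n, hn⟩ := hall c
  obtain ⟨h1, h2⟩ := hbd n c hn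
  have h3 := key n 1
  rw [← h2, hc, map_zero, h1, mul_one, hτ1, one_mul, inv_one, mul_one] at h3
  rw [huniq _ _ _ hn (hκ n h1), ← h3]

end TP

theorem good_l1_add {X : Type} (a b : X →₀ ℤ) :
    ((a + b).sum fun _ k => k.natAbs) ≤ (a.sum fun _ k => k.natAbs) + b.sum fun _ k => k.natAbs := by
  classical
  rw [Finsupp.sum_of_support_subset _ Finsupp.support_add _ (by simp),
    Finsupp.sum_of_support_subset a (Finset.subset_union_left (s₂ := b.support)) _ (by simp),
    Finsupp.sum_of_support_subset b (Finset.subset_union_right (s₁ := a.support)) _ (by simp),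
    ← Finset.sum_add_distrib]
  exact Finset.sum_le_sum fun x _ => Int.natAbs_add_le _ _

theorem good_l1_sum {X T : Type} (s : Finset T) (f : T → X →₀ ℤ)
    (hf : ∀ t, ((f t).sum fun _ k => k.natAbs) ≤ 1) :
    ((∑ t ∈ s, f t).sum fun _ k => k.natAbs) ≤ s.card := by
  classical
  induction s using Finset.induction_on with
  | empty => simp
  | insert t s ht ih =>
    rw [Finset.sum_insert ht, Finset.card_insert_of_notMem ht]
    have := good_l1_add (f t) (∑ t ∈ s, f t)
    have := hf t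
    omega

namespace HES

variable {V S C H : Type} (D : HES V S C H) {rev : H → H}

theorem good_l1_term (g : (D.tp rev).Grp) (h : H) :
    ((D.term rev g h).sum fun _ k => k.natAbs) ≤ 1 := by
  unfold term
  split_ifs
  · simp
  · rw [← Finsupp.single_neg, Finsupp.sum_single_index (by simp)]
    simp
  · simp

theorem good_tri_rev (hc : D.IsConf rev) (h : H) :
    FreeGroup.mk (D.tri rev (rev h)) = (FreeGroup.mk (D.tri rev h))⁻¹ := by
  rw [FreeGroup.inv_mk]
  simp [tri, side, FreeGroup.invRev, hc.invol, hc.lett_rev, flp]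

theorem good_term_rev (hc : D.IsConf rev) (g : (D.tp rev).Grp) (h : H) :
    D.term rev g (rev h) = -D.term rev g h := by
  have h1 : (D.lett (rev h)).2 = !(D.lett h).2 := by rw [hc.lett_rev]; rfl
  unfold term
  by_cases hb : (D.lett h).2 = true
  · have h2 : ¬ (D.lett (rev h)).2 = true := by simp [h1, hb]
    have h3 : (D.lett (rev (rev h))).2 = true := by rw [hc.invol]; exact hb
    rw [dif_neg h2, dif_pos h3, dif_pos hb]
    simp only [hc.invol]
  · have h2 : (D.lett (rev h)).2 = true := by simpa [h1] using hb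
    rw [dif_pos h2, dif_neg hb, dif_pos h2, neg_neg]

theorem good_tri_pos {h : H} (hb : (D.lett h).2 = true) :
    FreeGroup.mk (D.tri rev h) = (D.tp rev).rel ⟨h, hb⟩ := by
  simp only [tri, side, hb]
  rfl

theorem good_tri (hc : D.IsConf rev) (g : (D.tp rev).Grp) (h : H) :
    (D.tp rev).pr (FreeGroup.mk (D.tri rev h)) = 1 ∧
      (D.tp rev).goodFox g (FreeGroup.mk (D.tri rev h)) = (D.tp rev).bd (D.term rev g h) := by
  have pos : ∀ h : H, (D.lett h).2 = true → (D.tp rev).pr (FreeGroup.mk (D.tri rev h)) = 1 ∧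
      (D.tp rev).goodFox g (FreeGroup.mk (D.tri rev h)) = (D.tp rev).bd (D.term rev g h) := by
    intro h hb
    rw [D.good_tri_pos hb, term, dif_pos hb]
    exact ⟨TP.good_pr_rel _ _, TP.goodFox_rel _ _ _⟩
  by_cases hb : (D.lett h).2 = true
  · exact pos h hb
  · have h2 : (D.lett (rev h)).2 = true := by
      rw [hc.lett_rev]
      simpa [flp] using hb
    obtain ⟨h3, h4⟩ := pos _ h2
    rw [← hc.invol h, D.good_tri_rev hc (rev h), D.good_term_rev hc g (rev h), map_inv,
      TP.goodFox_inv, h3, inv_one, mul_one, h4, map_neg]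
    exact ⟨rfl, rfl⟩

/-- `n` is a product of conjugates of triangles, with total 2-chain `c` -/
def GoodRel (rev : H → H) (n : FreeGroup (V ⊕ S))
    (c : (D.tp rev).Grp × {h : H // (D.lett h).2 = true} →₀ ℤ) : Prop :=
  ∃ l : List (FreeGroup (V ⊕ S) × H),
    (l.map fun x => x.1 * FreeGroup.mk (D.tri rev x.2) * x.1⁻¹).prod = n ∧
    (l.map fun x => D.term rev ((D.tp rev).pr x.1) x.2).sum = c

theorem goodRel_one : D.GoodRel rev 1 0 := ⟨[], rfl, rfl⟩

theorem goodRel_single (u : FreeGroup (V ⊕ S)) (h : H) :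
    D.GoodRel rev (u * FreeGroup.mk (D.tri rev h) * u⁻¹) (D.term rev ((D.tp rev).pr u) h) :=
  ⟨[(u, h)], by simp, by simp⟩

theorem goodRel_mul {n n' : FreeGroup (V ⊕ S)}
    {c c' : (D.tp rev).Grp × {h : H // (D.lett h).2 = true} →₀ ℤ} (h : D.GoodRel rev n c)
    (h' : D.GoodRel rev n' c') : D.GoodRel rev (n * n') (c + c') := by
  obtain ⟨l, rfl, rfl⟩ := h
  obtain ⟨l', rfl, rfl⟩ := h'
  exact ⟨l ++ l', by simp, by simp⟩

theorem goodRel_inv (hc : D.IsConf rev) {n : FreeGroup (V ⊕ S)}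
    {c : (D.tp rev).Grp × {h : H // (D.lett h).2 = true} →₀ ℤ} (h : D.GoodRel rev n c) :
    D.GoodRel rev n⁻¹ (-c) := by
  obtain ⟨l, rfl, rfl⟩ := h
  induction l with
  | nil => simpa using D.goodRel_one
  | cons x l ih =>
    have := D.goodRel_mul ih (D.goodRel_single x.1 (rev x.2))
    rw [D.good_tri_rev hc, D.good_term_rev hc] at this
    simpa [mul_assoc] using this

theorem goodRel_bd (hc : D.IsConf rev) {n : FreeGroup (V ⊕ S)}
    {c : (D.tp rev).Grp × {h : H // (D.lett h).2 = true} →₀ ℤ} (h : D.GoodRel rev n c) :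
    (D.tp rev).pr n = 1 ∧ (D.tp rev).bd c = (D.tp rev).goodFox 1 n := by
  obtain ⟨l, rfl, rfl⟩ := h
  induction l with
  | nil => exact ⟨map_one _, map_zero _⟩
  | cons x l ih =>
    obtain ⟨h1, h2⟩ := D.good_tri hc ((D.tp rev).pr x.1) x.2
    have h3 : (D.tp rev).pr (x.1 * FreeGroup.mk (D.tri rev x.2) * x.1⁻¹) = 1 := by
      simp [h1]
    rw [List.map_cons, List.map_cons, List.prod_cons, List.sum_cons, map_mul, h3, ih.1, map_add,
      ih.2, TP.goodFox_mul, h3, mul_one, ← h2]
    refine ⟨rfl, ?_⟩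
    congr 1
    rw [TP.goodFox_mul, TP.goodFox_mul, TP.goodFox_inv]
    simp [h1]

theorem goodRel_ker (hc : D.IsConf rev) {n : FreeGroup (V ⊕ S)} (hn : (D.tp rev).pr n = 1) :
    ∃ c, D.GoodRel rev n c := by
  let N : Subgroup (FreeGroup (V ⊕ S)) :=
    { carrier := {n | ∃ c, D.GoodRel rev n c}
      one_mem' := ⟨0, D.goodRel_one⟩
      mul_mem' := fun ⟨_, h⟩ ⟨_, h'⟩ => ⟨_, D.goodRel_mul h h'⟩
      inv_mem' := fun ⟨_, h⟩ => ⟨_, D.goodRel_inv hc h⟩ }
  have hN : N.Normal := ⟨by
    rintro _ ⟨_, l, rfl, rfl⟩ u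
    induction l with
    | nil => simp
    | cons x l ih =>
      have h1 : u * x.1 * FreeGroup.mk (D.tri rev x.2) * (u * x.1)⁻¹ ∈ N :=
        ⟨_, D.goodRel_single (u * x.1) x.2⟩
      simpa [mul_assoc] using N.mul_mem h1 ih⟩
  have h1 : Subgroup.normalClosure (Set.range (D.tp rev).rel) ≤ N := by
    refine Subgroup.normalClosure_le_normal ?_
    rintro _ ⟨⟨h, hb⟩, rfl⟩
    refine ⟨D.term rev ((D.tp rev).pr 1) h, ?_⟩
    simpa [D.good_tri_pos hb] using D.goodRel_single (rev := rev) 1 h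
  exact h1 (PresentedGroup.mk_eq_one_iff.1 hn)

theorem goodRel_all (hc : D.IsConf rev)
    (c : (D.tp rev).Grp × {h : H // (D.lett h).2 = true} →₀ ℤ) : ∃ n, D.GoodRel rev n c := by
  let N : AddSubgroup ((D.tp rev).Grp × {h : H // (D.lett h).2 = true} →₀ ℤ) :=
    { carrier := {c | ∃ n, D.GoodRel rev n c}
      zero_mem' := ⟨1, D.goodRel_one⟩
      add_mem' := fun ⟨_, h⟩ ⟨_, h'⟩ => ⟨_, D.goodRel_mul h h'⟩
      neg_mem' := fun ⟨_, h⟩ => ⟨_, D.goodRel_inv hc h⟩ }
  change c ∈ N
  induction c using Finsupp.induction_linear with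
  | zero => exact N.zero_mem
  | add a b ha hb => exact N.add_mem ha hb
  | single x k =>
    obtain ⟨g, h, hb⟩ := x
    obtain ⟨u, rfl⟩ : ∃ u, (D.tp rev).pr u = g := PresentedGroup.mk_surjective _ g
    have h1 : D.term rev ((D.tp rev).pr u) h ∈ N := ⟨_, D.goodRel_single u h⟩
    rw [term, dif_pos hb] at h1
    simpa using N.zsmul_mem h1 k

end HES

theorem good_of_diagBound {V S C H : Type} (D : HES V S C H) {rev : H → H} (hc : D.IsConf rev)
    (hg : D.Girth rev 1) {j0 : V} (hb : DiagBound D rev j0) :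
    (D.tp rev).Aspherical ∧ (D.tp rev).LinIso ∧ (∀ s, (D.tp rev).gen s ≠ 1) ∧
      ∀ j, j ≠ j0 → (D.tp rev).gen (.inl j) ≠ (D.tp rev).gen (.inl j0) := by
  obtain ⟨K, hK⟩ := hb.lin
  have vk : ∀ w c, D.GoodRel rev (FreeGroup.mk w) c → ∃ (Δ : Diag D rev w)
      (base : Δ.T → (D.tp rev).Grp), ∑ t, D.term rev (base t) (Δ.θ t) = c := by
    rintro w _ ⟨l, hl, rfl⟩
    exact vanKampen D hc hg l w hl
  have diag : ∀ w, (D.tp rev).pr (FreeGroup.mk w) = 1 → Nonempty (Diag D rev w) := fun w hw => by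
    obtain ⟨c, h⟩ := D.goodRel_ker hc hw
    obtain ⟨Δ, -⟩ := vk w c h
    exact ⟨Δ⟩
  refine ⟨?_, ⟨K, fun w hw => ?_⟩, ?_, fun j hj h => ?_⟩
  · refine TP.good_aspherical _ (D.GoodRel rev) (fun _ _ _ _ => D.goodRel_mul)
      (fun n c c' h h' => ?_) (fun _ _ => D.goodRel_bd hc) (fun _ => D.goodRel_ker hc)
      (D.goodRel_all hc)
    have h1 := D.goodRel_mul h (D.goodRel_inv hc h')
    rw [mul_inv_cancel] at h1
    obtain ⟨Δ, base, h2⟩ := vk [] _ h1
    have h3 := hK [] Δ
    have : IsEmpty Δ.T := Fintype.card_eq_zero_iff.1 (by simpa using h3)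
    rw [Finset.univ_eq_empty, Finset.sum_empty] at h2
    exact eq_of_sub_eq_zero (by rw [sub_eq_add_neg, ← h2])
  · obtain ⟨c, h⟩ := D.goodRel_ker hc hw
    obtain ⟨Δ, base, h2⟩ := vk w c h
    refine ⟨c, (D.goodRel_bd hc h).2, ?_⟩
    rw [← h2]
    exact (good_l1_sum _ _ fun t => D.good_l1_term _ _).trans (hK w Δ)
  · rintro (v | s) h
    · let f : V ⊕ S → Multiplicative ℤ := Sum.elim (fun _ => Multiplicative.ofAdd 1) fun _ => 1
      have hf : ∀ r ∈ Set.range (D.tp rev).rel, FreeGroup.lift f r = 1 := by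
        rintro _ ⟨r, rfl⟩
        simp [TP.rel, HES.tp, f]
      have h1 := PresentedGroup.toGroup.of hf (x := .inl v)
      have h2 : PresentedGroup.of (rels := Set.range (D.tp rev).rel) (.inl v) = 1 := h
      rw [h2, map_one] at h1
      exact absurd (congrArg Multiplicative.toAdd h1) (by simp [f])
    · exact (hb.letter s).false (diag _ h).some
  · refine (hb.root j hj).false (diag _ ?_).some
    rw [TP.good_pr_cons, TP.good_pr_cons, ← FreeGroup.one_eq_mk, map_one]
    simp [h]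

end Crest.Agent.R184
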