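import Crest.Agent.R184.TopAAux1

/-! Auxiliary file for `TopA`: path spaces over a parameter space. -/

set_option autoImplicit false

namespace Crest.Agent.R184

open unitInterval CategoryTheory FundamentalGroupoid

variable {E : Type} [TopologicalSpace E]

/-- Extension of a path to the real line. -/
noncomputable def topAex (δ : C(I, E)) (r : ℝ) : E := δ (Set.projIcc 0 1 zero_le_one r)

theorem topAex_of_le (δ : C(I, E)) {r : ℝ} (h : r ≤ 0) : topAex δ r = δ 0 := by
  rw [topAex, Set.projIcc_of_le_left _ h]; rfl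

theorem topAex_of_ge (δ : C(I, E)) {r : ℝ} (h : 1 ≤ r) : topAex δ r = δ 1 := by
  rw [topAex, Set.projIcc_of_right_le _ h]; rfl

theorem topAex_of_eq (δ : C(I, E)) {r : ℝ} (t : I) (h : r = t) : topAex δ r = δ t := by
  rw [h, topAex, Set.projIcc_val]

theorem topA_cont_ex {Z : Type} [TopologicalSpace Z] {f : Z → C(I, E)} {a : Z → ℝ}
    (hf : Continuous f) (ha : Continuous a) : Continuous fun z => topAex (f z) (a z) :=
  hf.eval (continuous_projIcc.comp ha)

/-- Gluing of two reparametrised paths. -/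
noncomputable def topAgl (δ γ : C(I, E)) (a b : ℝ) : E :=
  if a ≤ 1 then topAex δ a else topAex γ b

theorem topAgl_of_le (δ γ : C(I, E)) {a : ℝ} (b : ℝ) (h : a ≤ 1) : topAgl δ γ a b = topAex δ a :=
  if_pos h

theorem topAgl_of_gt (δ γ : C(I, E)) {a : ℝ} (b : ℝ) (h : 1 < a) : topAgl δ γ a b = topAex γ b :=
  if_neg (not_le.2 h)

theorem topA_cont_gl {Z : Type} [TopologicalSpace Z] {f g : Z → C(I, E)} {a b : Z → ℝ}
    (hf : Continuous f) (hg : Continuous g) (ha : Continuous a) (hb : Continuous b)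
    (h : ∀ z, a z = 1 → topAex (g z) (b z) = f z 1) :
    Continuous fun z => topAgl (f z) (g z) (a z) (b z) :=
  Continuous.if_le (topA_cont_ex hf ha) (topA_cont_ex hg hb) ha continuous_const fun z hz => by
    rw [h z hz, topAex_of_ge _ hz.ge]

/-- Paths from `e0` to a point parametrised by `Q`. -/
def PQ (e0 : E) {Q : Type} [TopologicalSpace Q] (χ : C(Q, E)) : Type :=
  {z : C(I, E) × Q // z.1 0 = e0 ∧ z.1 1 = χ z.2}

namespace PQ

variable {e0 : E} {Q Q' : Type} [TopologicalSpace Q] [TopologicalSpace Q'] {χ : C(Q, E)}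
  {χ' : C(Q', E)}

instance : TopologicalSpace (PQ e0 χ) := instTopologicalSpaceSubtype

/-- the path -/
def pa (z : PQ e0 χ) : C(I, E) := z.1.1

/-- the parameter -/
def pr (z : PQ e0 χ) : Q := z.1.2

theorem pa0 (z : PQ e0 χ) : z.pa 0 = e0 := z.2.1

theorem pa1 (z : PQ e0 χ) : z.pa 1 = χ z.pr := z.2.2

@[fun_prop] theorem cont_pa : Continuous (pa : PQ e0 χ → C(I, E)) :=
  continuous_fst.comp continuous_subtype_val

@[fun_prop] theorem cont_pr : Continuous (pr : PQ e0 χ → Q) :=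
  continuous_snd.comp continuous_subtype_val

theorem ext' {z w : PQ e0 χ} (h1 : ∀ t, z.pa t = w.pa t) (h2 : z.pr = w.pr) : z = w :=
  Subtype.ext (Prod.ext (ContinuousMap.ext h1) h2)

/-- A point of the path space. -/
def pt (δ : C(I, E)) (y : Q) (h0 : δ 0 = e0) (h1 : δ 1 = χ y) : PQ e0 χ := ⟨(δ, y), h0, h1⟩

/-- Maps into the path space. -/
def lift {Z : Type} [TopologicalSpace Z] (F : C(Z × I, E)) (y : C(Z, Q))
    (h0 : ∀ z, F (z, 0) = e0) (h1 : ∀ z, F (z, 1) = χ (y z)) : C(Z, PQ e0 χ) :=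
  ⟨fun z => ⟨(F.curry z, y z), h0 z, h1 z⟩, Continuous.subtype_mk (by fun_prop) _⟩

theorem lift_pa {Z : Type} [TopologicalSpace Z] (F : C(Z × I, E)) (y : C(Z, Q))
    (h0 : ∀ z, F (z, 0) = e0) (h1 : ∀ z, F (z, 1) = χ (y z)) (z : Z) (t : I) :
    (lift F y h0 h1 z).pa t = F (z, t) := rfl

/-- Face maps. -/
def face (φ : C(Q, Q')) (h : ∀ x, χ' (φ x) = χ x) : C(PQ e0 χ, PQ e0 χ') :=
  ⟨fun z => ⟨(z.pa, φ z.pr), z.pa0, z.pa1.trans (h _).symm⟩, Continuous.subtype_mk (by fun_prop) _⟩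

end PQ

/-- The loop space. -/
abbrev Om (e0 : E) : Type := PQ e0 (ContinuousMap.const Unit e0)

/-- The constant loop. -/
def Om.c (e0 : E) : Om e0 := PQ.pt (ContinuousMap.const I e0) () rfl rfl

namespace PQ

variable {e0 : E} {Q Q' : Type} [TopologicalSpace Q] [TopologicalSpace Q'] {χ : C(Q, E)}
  {χ' : C(Q', E)}

/-- Concatenation of a loop with a path. -/
noncomputable def mu (e0 : E) (χ : C(Q, E)) : C(Om e0 × PQ e0 χ, PQ e0 χ) :=
  lift ⟨fun p => topAgl p.1.1.pa p.1.2.pa (3 * p.2 / 2) (3 * p.2 - 2),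
      topA_cont_gl (by fun_prop) (by fun_prop) (by fun_prop) (by fun_prop) fun p hp => by
        rw [topAex_of_le _ (by linarith), pa0, pa1]; rfl⟩
    ⟨fun p => p.2.pr, by fun_prop⟩
    (fun p => by
      change topAgl _ _ _ _ = _
      rw [topAgl_of_le _ _ _ (by simp), topAex_of_le _ (by simp), pa0])
    (fun p => by
      change topAgl _ _ _ _ = _
      rw [topAgl_of_gt _ _ _ (by norm_num), topAex_of_ge _ (by norm_num), pa1]; rfl)

theorem mu_pa (ω : Om e0) (z : PQ e0 χ) (t : I) :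
    (mu e0 χ (ω, z)).pa t = topAgl ω.pa z.pa (3 * t / 2) (3 * t - 2) := rfl

/-- The unit homotopy. -/
noncomputable def eta (e0 : E) (χ : C(Q, E)) : C(I × PQ e0 χ, PQ e0 χ) :=
  lift ⟨fun p => topAex p.1.2.pa ((1 - p.1.1) * p.2 + p.1.1 * (3 * p.2 - 2)),
      topA_cont_ex (by fun_prop) (by fun_prop)⟩
    ⟨fun p => p.2.pr, by fun_prop⟩
    (fun p => by
      change topAex _ _ = _
      rw [topAex_of_le _ (by simp; exact p.1.2.1), pa0])
    (fun p => by
      change topAex _ _ = _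
      rw [topAex_of_ge _ (by simp; linarith), pa1]; rfl)

/-- The action of the loop space. -/
noncomputable def A (e0 : E) (χ : C(Q, E)) : TopAAct (Om.c e0) (PQ e0 χ) where
  μ := mu e0 χ
  η := eta e0 χ
  η0 z := ext' (fun t => topAex_of_eq _ t (by simp)) rfl
  η1 z := ext' (fun t => by
    rw [mu_pa]
    change topAex z.pa _ = _
    rcases le_or_gt (3 * (t : ℝ) / 2) 1 with h | h
    · rw [topAgl_of_le _ _ _ h, topAex_of_le _ (by simp; linarith), pa0]; rfl
    · rw [topAgl_of_gt _ _ _ h]; congr 1; simp) rfl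

theorem face_act (φ : C(Q, Q')) (h : ∀ x, χ' (φ x) = χ x) (a : ob (Om.c e0) ⟶ ob (Om.c e0))
    (z : PQ e0 χ) :
    (map (face φ h)).map ((A e0 χ).act a z) = (A e0 χ').act a (face φ h z) := by
  induction a using Path.Homotopic.Quotient.ind with | mk a =>
  simp only [TopAAct.act, Functor.map_comp, Functor.map_inv]
  rfl

/-- Division of paths with the same end point. -/
noncomputable def dv {Z : Type} [TopologicalSpace Z] (f g : C(Z, PQ e0 χ))
    (h : ∀ z, (f z).pr = (g z).pr) : C(Z, Om e0) :=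
  lift ⟨fun p => topAgl (f p.1).pa (g p.1).pa (2 * p.2) (2 - 2 * p.2),
      topA_cont_gl (by fun_prop) (by fun_prop) (by fun_prop) (by fun_prop) fun p hp => by
        rw [topAex_of_ge _ (by linarith), pa1, pa1, h]⟩
    (ContinuousMap.const _ ())
    (fun p => by
      change topAgl _ _ _ _ = _
      rw [topAgl_of_le _ _ _ (by simp), topAex_of_le _ (by simp), pa0])
    (fun p => by
      change topAgl _ _ _ _ = _
      rw [topAgl_of_gt _ _ _ (by norm_num), topAex_of_le _ (by norm_num), pa0]; rfl)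

theorem dv_pa {Z : Type} [TopologicalSpace Z] (f g : C(Z, PQ e0 χ))
    (h : ∀ z, (f z).pr = (g z).pr) (z : Z) (t : I) :
    (dv f g h z).pa t = topAgl (f z).pa (g z).pa (2 * t) (2 - 2 * t) := rfl

theorem dv_homotopic {Z : Type} [TopologicalSpace Z] (f g : C(Z, PQ e0 χ))
    (h : ∀ z, (f z).pr = (g z).pr) :
    f.Homotopic ((mu e0 χ).comp ((dv f g h).prodMk g)) := by
  refine ⟨⟨lift ⟨fun p : (I × Z) × I => topAgl (f p.1.2).pa (g p.1.2).pa ((1 + 2 * p.1.1) * p.2)
      (1 - p.1.1 + |(1 + 2 * (p.1.1 : ℝ)) * p.2 - 1 - p.1.1|),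
      topA_cont_gl (by fun_prop) (by fun_prop) (by fun_prop) (by fun_prop) fun p hp => ?_⟩
    ⟨fun p => (f p.2).pr, by fun_prop⟩ (fun p => ?_) (fun p => ?_), fun z => ?_, fun z => ?_⟩⟩
  · rw [topAex_of_ge _ (by rw [hp]; simp [abs_of_nonneg p.1.1.2.1]), pa1, pa1, h]
  · change topAgl _ _ _ _ = _
    rw [topAgl_of_le _ _ _ (by simp), topAex_of_le _ (by simp), pa0]
  · change topAgl _ _ _ _ = χ (f p.2).pr
    have h0 := p.1.2.1
    rcases h0.eq_or_lt with h1 | h1
    · rw [topAgl_of_le _ _ _ (by simp; linarith), topAex_of_ge _ (by simp; linarith), pa1]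
    · rw [topAgl_of_gt _ _ _ (by simp only [Set.Icc.coe_one]; linarith), topAex_of_ge, pa1, h]
      have := le_abs_self ((1 + 2 * (p.1 : ℝ)) * (1 : I) - 1 - p.1)
      simp only [Set.Icc.coe_one] at this ⊢
      linarith
  · refine ext' (fun t => ?_) rfl
    change topAgl _ _ _ _ = _
    rw [topAgl_of_le _ _ _ (by simpa using t.2.2), topAex_of_eq _ t (by simp)]
  · refine ext' (fun t => ?_) (h z)
    change topAgl _ _ _ _ = topAgl (dv f g h z).pa (g z).pa (3 * t / 2) (3 * t - 2)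
    simp only [Set.Icc.coe_one]
    have h0 := t.2.1
    rcases le_or_gt (3 * (t : ℝ) / 2) 1 with h1 | h1
    · rw [topAgl_of_le _ _ _ h1, topAex_of_eq _ ⟨3 * t / 2, by linarith, h1⟩ rfl, dv_pa]
      congr 1
      · ring
      · rw [abs_of_nonpos (by linarith)]; ring
    · rw [topAgl_of_gt _ _ _ h1, topAgl_of_gt _ _ _ (by linarith)]
      congr 1
      rw [abs_of_nonneg (by linarith)]; ring

theorem dv_joined {Z : Type} [TopologicalSpace Z] (f g : C(Z, PQ e0 χ))
    (h : ∀ z, (f z).pr = (g z).pr) (z : Z) (hz : f z = g z) : Joined (Om.c e0) (dv f g h z) := by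
  refine ⟨⟨lift ⟨fun p : I × I => topAex (g z).pa (p.1 * min (2 * (p.2 : ℝ)) (2 - 2 * p.2)),
    topA_cont_ex (by fun_prop) (by fun_prop)⟩ (ContinuousMap.const _ ()) (fun s => ?_) fun s => ?_,
    ?_, ?_⟩⟩
  · change topAex _ _ = _
    rw [topAex_of_le _ (by simp), pa0]
  · change topAex _ _ = _
    rw [topAex_of_le _ (by simp), pa0]; rfl
  · refine ext' (fun t => ?_) rfl
    change topAex _ _ = _
    rw [topAex_of_le _ (by simp), pa0]; rfl
  · refine ext' (fun t => ?_) rfl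
    rw [dv_pa, hz]
    change topAex _ _ = _
    simp only [Set.Icc.coe_one, one_mul]
    rcases le_or_gt (2 * (t : ℝ)) 1 with h1 | h1
    · rw [topAgl_of_le _ _ _ h1, min_eq_left (by linarith)]
    · rw [topAgl_of_gt _ _ _ h1, min_eq_right (by linarith)]

/-- Sliding the end point along a family of paths in the parameter space. -/
noncomputable def slide {Z : Type} [TopologicalSpace Z] (o : PQ e0 χ) (l : C(Z × I, Q))
    (h : ∀ z, l (z, 0) = o.pr) : C(Z × I, PQ e0 χ) :=
  lift ⟨fun p => topAgl o.pa ((χ.comp l).curry p.1.1) ((1 + p.1.2) * p.2) ((1 + p.1.2) * p.2 - 1),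
      topA_cont_gl (by fun_prop) (by fun_prop) (by fun_prop) (by fun_prop) fun p hp => by
        rw [topAex_of_le _ (by linarith), pa1, ← h p.1.1]; rfl⟩ l
    (fun p => by
      change topAgl _ _ _ _ = _
      rw [topAgl_of_le _ _ _ (by simp), topAex_of_le _ (by simp), pa0])
    (fun p => by
      change topAgl _ _ _ _ = _
      obtain ⟨z, s⟩ := p
      by_cases hs : s = 0
      · subst hs
        rw [topAgl_of_le _ _ _ (by simp), topAex_of_ge _ (by simp), pa1, h]
      · have : (0 : ℝ) < s := lt_of_le_of_ne s.2.1 fun h => hs (Subtype.ext h.symm)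
        rw [topAgl_of_gt _ _ _ (by simpa using this), topAex_of_eq _ s (by simp)]
        rfl)

theorem slide_pa {Z : Type} [TopologicalSpace Z] (o : PQ e0 χ) (l : C(Z × I, Q))
    (h : ∀ z, l (z, 0) = o.pr) (z : Z) (s t : I) : (slide o l h (z, s)).pa t
      = topAgl o.pa ((χ.comp l).curry z) ((1 + s) * t) ((1 + s) * t - 1) := rfl

theorem slide_zero {Z : Type} [TopologicalSpace Z] (o : PQ e0 χ) (l : C(Z × I, Q))
    (h : ∀ z, l (z, 0) = o.pr) (z : Z) : slide o l h (z, 0) = o :=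
  ext' (fun t => by
    rw [slide_pa, topAgl_of_le _ _ _ (by simpa using t.2.2), topAex_of_eq _ t (by simp)]) (h z)

theorem act_surj (o : PQ e0 χ) (l : C(Q × I, Q)) (h0 : ∀ y, l (y, 0) = o.pr)
    (h1 : ∀ y, l (y, 1) = y) (g : ob o ⟶ ob o) : ∃ a, (A e0 χ).act a o = g := by
  let sg : C(PQ e0 χ, PQ e0 χ) := ⟨fun z => slide o l h0 (z.pr, 1), by fun_prop⟩
  have hsg : ∀ z : PQ e0 χ, (ContinuousMap.id _ z).pr = (sg z).pr := fun z => (h1 _).symm
  refine (A e0 χ).act_surj o (dv (ContinuousMap.id _) sg hsg)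
    ((dv_homotopic _ sg hsg).trans (ContinuousMap.Homotopic.symm ?_)) ?_ g
  · refine ⟨⟨⟨fun p => mu e0 χ (dv (ContinuousMap.id _) sg hsg p.2, slide o l h0 (p.2.pr, p.1)),
      by fun_prop⟩, fun z => ?_, fun z => rfl⟩⟩
    change mu e0 χ (_, slide o l h0 (z.pr, 0)) = _
    rw [slide_zero]
    rfl
  · have j1 : Joined o (sg o) :=
      ⟨⟨⟨fun s => slide o l h0 (o.pr, s), by fun_prop⟩, slide_zero o l h0 o.pr, rfl⟩⟩
    have j2 := j1.map (dv (ContinuousMap.id _) sg hsg).continuous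
    refine (dv_joined _ sg hsg (sg o) ?_).trans j2.symm
    change sg o = slide o l h0 ((sg o).pr, 1)
    rw [← hsg]
    rfl

end PQ

theorem Om.comm (e0 : E) (a b : ob (Om.c e0) ⟶ ob (Om.c e0)) : a ≫ b = b ≫ a := by
  obtain ⟨a', rfl⟩ := PQ.act_surj (Om.c e0) (ContinuousMap.const _ ()) (fun _ => rfl)
    (fun _ => rfl) a
  exact ((PQ.A e0 _).act_nat a' b).symm

end Crest.Agent.R184
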