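import Crest.Agent.R184.Defs
import Crest.Agent.R184.TopAAux2

/-! Obstruction theory in dimension two: a criterion for contractibility. -/

set_option autoImplicit false

namespace Crest.Agent.R184

section aux

open unitInterval CategoryTheory FundamentalGroupoid

/-- The first side as a continuous map. -/
def topAs0 : C(I, Tri) := ⟨Tri.s0, Continuous.subtype_mk (by fun_prop) _⟩
/-- The second side as a continuous map. -/
def topAs1 : C(I, Tri) := ⟨Tri.s1, Continuous.subtype_mk (by fun_prop) _⟩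
/-- The third side as a continuous map. -/
def topAs2 : C(I, Tri) := ⟨Tri.s2, Continuous.subtype_mk (by fun_prop) _⟩

/-- Segments in the interval. -/
def topAsegI : C((I × I) × I, I) where
  toFun p := ⟨(1 - p.2) * p.1.1 + p.2 * p.1.2, by
    have := p.2.2.1; have := p.2.2.2; have := p.1.1.2.1; have := p.1.1.2.2
    have := p.1.2.2.1; have := p.1.2.2.2
    constructor <;> nlinarith⟩
  continuous_toFun := by fun_prop

/-- Segments in the triangle. -/
def topAsegT : C((Tri × Tri) × I, Tri) where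
  toFun p := ⟨((1 - p.2) * p.1.1.1.1 + p.2 * p.1.2.1.1, (1 - p.2) * p.1.1.1.2 + p.2 * p.1.2.1.2), by
    have := p.2.2.1; have := p.2.2.2
    obtain ⟨_, _, _⟩ := p.1.1.2
    obtain ⟨_, _, _⟩ := p.1.2.2
    refine ⟨?_, ?_, ?_⟩ <;> dsimp only <;> nlinarith⟩
  continuous_toFun := by fun_prop

theorem topAsegI_zero (x y : I) : topAsegI ((x, y), 0) = x := by simp [topAsegI]
theorem topAsegI_one (x y : I) : topAsegI ((x, y), 1) = y := by simp [topAsegI]
theorem topAsegI_self (x w : I) : topAsegI ((x, x), w) = x := by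
  ext; simp only [topAsegI, ContinuousMap.coe_mk]; ring
theorem topAsegT_zero (x y : Tri) : topAsegT ((x, y), 0) = x := by simp [topAsegT]
theorem topAsegT_one (x y : Tri) : topAsegT ((x, y), 1) = y := by simp [topAsegT]
theorem topAsegT_s0 (x y w : I) :
    topAsegT ((Tri.s0 x, Tri.s0 y), w) = Tri.s0 (topAsegI ((x, y), w)) := by
  simp [topAsegT, topAsegI, Tri.s0]
theorem topAsegT_s1 (x y w : I) :
    topAsegT ((Tri.s1 x, Tri.s1 y), w) = Tri.s1 (topAsegI ((x, y), w)) := by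
  simp [topAsegT, topAsegI, Tri.s1]
theorem topAsegT_s2 (x y w : I) :
    topAsegT ((Tri.s2 x, Tri.s2 y), w) = Tri.s2 (topAsegI ((x, y), w)) := by
  simp [topAsegT, topAsegI, Tri.s2]

variable {E Vt Ed Tr : Type} [TopologicalSpace E] (X : CellSp E Vt Ed Tr)

/-- An edge as a path. -/
def CellSp.topAedge (e : Ed) {a b : Vt} (ha : X.src e = a) (hb : X.tgt e = b) :
    Path (X.pt a) (X.pt b) := ⟨X.eg e, ha ▸ X.eg0 e, hb ▸ X.eg1 e⟩

theorem CellSp.topA_step1 (v0 : Vt)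
    (conn : ∀ v, Relation.EqvGen (fun a b => ∃ e, X.src e = a ∧ X.tgt e = b) v0 v)
    (sc : ∀ (A : Type) [Group A] (m : Ed → A), (∀ t, m (X.s0 t) * m (X.s1 t) = m (X.s2 t)) →
      ∃ τ : Vt → A, ∀ e, τ (X.src e) * m e = τ (X.tgt e)) :
    ∃ γ : ∀ v, Path (X.pt v0) (X.pt v),
      ∀ e, ((γ (X.src e)).trans (X.topAedge e rfl rfl)).Homotopic (γ (X.tgt e)) := by
  have hj : ∀ a b, Relation.EqvGen (fun a b => ∃ e, X.src e = a ∧ X.tgt e = b) a b →
      Joined (X.pt a) (X.pt b) := by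
    intro a b h
    induction h with
    | rel a b h =>
      obtain ⟨e, ha, hb⟩ := h
      exact ⟨X.topAedge e ha hb⟩
    | refl a => exact Joined.refl _
    | symm a b _ ih => exact ih.symm
    | trans a b c _ _ ih ih' => exact ih.trans ih'
  let g0 : ∀ v, ob (X.pt v0) ⟶ ob (X.pt v) := fun v =>
    Path.Homotopic.Quotient.mk (hj v0 v (conn v)).somePath
  let ed : ∀ e a b, X.src e = a → X.tgt e = b → (ob (X.pt a) ⟶ ob (X.pt b)) := fun e a b ha hb =>
    Path.Homotopic.Quotient.mk (X.topAedge e ha hb)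
  let m : Ed → (ob (X.pt v0) ⟶ ob (X.pt v0)) := fun e =>
    g0 (X.src e) ≫ ed e _ _ rfl rfl ≫ inv (g0 (X.tgt e))
  have hm : ∀ e a b (ha : X.src e = a) (hb : X.tgt e = b),
      m e = g0 a ≫ ed e a b ha hb ≫ inv (g0 b) := by
    rintro e _ _ rfl rfl
    rfl
  have htri : ∀ t, m (X.s0 t) ≫ m (X.s1 t) = m (X.s2 t) := fun t => by
    have h : ed (X.s0 t) _ _ rfl rfl ≫ ed (X.s1 t) _ _ (X.tgt01 t).symm rfl
        = ed (X.s2 t) _ _ (X.src02 t).symm (X.tgt12 t).symm :=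
      Path.Homotopic.Quotient.eq.2 (topA_tri _ _ _ (X.tr t) (X.tr0 t) (X.tr1 t) (X.tr2 t))
    rw [hm (X.s0 t) _ _ rfl rfl, hm (X.s1 t) _ _ (X.tgt01 t).symm rfl,
      hm (X.s2 t) _ _ (X.src02 t).symm (X.tgt12 t).symm, ← h]
    simp only [Category.assoc, IsIso.inv_hom_id_assoc]
  obtain ⟨τ, hτ⟩ := sc (End (ob (X.pt v0)))ᵐᵒᵖ (fun e => MulOpposite.op (m e)) fun t =>
    congrArg MulOpposite.op (htri t)
  let τ' : Vt → (ob (X.pt v0) ⟶ ob (X.pt v0)) := fun v => (τ v).unop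
  have hτ' : ∀ e, τ' (X.src e) ≫ m e = τ' (X.tgt e) := fun e => congrArg MulOpposite.unop (hτ e)
  choose γ hγ using fun v => Path.Homotopic.Quotient.mk_surjective (τ' v ≫ g0 v)
  refine ⟨γ, fun e => Path.Homotopic.Quotient.eq.1 ?_⟩
  rw [Path.Homotopic.Quotient.mk_trans, hγ, hγ]
  change (τ' _ ≫ g0 _) ≫ ed e _ _ rfl rfl = _
  rw [← hτ' e]
  simp only [m, Category.assoc, IsIso.inv_hom_id, Category.comp_id]

variable {e0 : E} (γ : ∀ v, Path e0 (X.pt v))

/-- The initial point over an edge. -/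
def CellSp.topAA (e : Ed) : PQ e0 (X.eg e) :=
  PQ.pt (γ (X.src e)) 0 (γ _).source ((γ _).target.trans (X.eg0 e).symm)

/-- The final point over an edge. -/
def CellSp.topAB (e : Ed) : PQ e0 (X.eg e) :=
  PQ.pt (γ (X.tgt e)) 1 (γ _).source ((γ _).target.trans (X.eg1 e).symm)

theorem CellSp.topA_joined (e : Ed)
    (h : ((γ (X.src e)).trans (X.topAedge e rfl rfl)).Homotopic (γ (X.tgt e))) :
    Joined (X.topAA γ e) (X.topAB γ e) := by
  obtain ⟨H⟩ := h
  let l : C(Unit × I, I) := ⟨fun p => p.2, by fun_prop⟩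
  have j1 : Joined (X.topAA γ e) (PQ.slide (X.topAA γ e) l (fun _ => rfl) ((), 1)) :=
    ⟨⟨⟨fun s => PQ.slide (X.topAA γ e) l (fun _ => rfl) ((), s), by fun_prop⟩,
      PQ.slide_zero _ l (fun _ => rfl) (), rfl⟩⟩
  refine j1.trans ⟨⟨PQ.lift H.toHomotopy.toContinuousMap (ContinuousMap.const _ 1)
    (fun s => H.source s) fun s => (H.target s).trans (X.eg1 e).symm, ?_, ?_⟩⟩
  · refine PQ.ext' (fun t => ?_) rfl
    rw [PQ.slide_pa]
    refine (H.apply_zero t).trans ?_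
    change (γ (X.src e)).trans (X.topAedge e rfl rfl) t = _
    rw [Path.trans_apply]
    simp only [Set.Icc.coe_one]
    split_ifs with h
    · rw [topAgl_of_le _ _ _ (by linarith)]
      exact (topAex_of_eq _ _ (by ring)).symm
    · rw [topAgl_of_gt _ _ _ (by linarith)]
      exact (topAex_of_eq ((ContinuousMap.comp (X.eg e) l).curry ()) _ (by ring)).symm
  · exact PQ.ext' (fun t => H.apply_one t) rfl

/-- Face maps of the path spaces. -/
def CellSp.topAf0 (e0 : E) (t : Tr) : C(PQ e0 (X.eg (X.s0 t)), PQ e0 (X.tr t)) :=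
  PQ.face topAs0 (X.tr0 t)
/-- Face maps of the path spaces. -/
def CellSp.topAf1 (e0 : E) (t : Tr) : C(PQ e0 (X.eg (X.s1 t)), PQ e0 (X.tr t)) :=
  PQ.face topAs1 (X.tr1 t)
/-- Face maps of the path spaces. -/
def CellSp.topAf2 (e0 : E) (t : Tr) : C(PQ e0 (X.eg (X.s2 t)), PQ e0 (X.tr t)) :=
  PQ.face topAs2 (X.tr2 t)

theorem CellSp.topA_pa_congr {a b : Vt} (h : a = b) (t : I) : γ a t = γ b t := by rw [h]

theorem CellSp.topA_ha (t : Tr) :
    X.topAf0 e0 t (X.topAA γ (X.s0 t)) = X.topAf2 e0 t (X.topAA γ (X.s2 t)) :=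
  PQ.ext' (X.topA_pa_congr γ (X.src02 t)) rfl

theorem CellSp.topA_hb (t : Tr) :
    X.topAf0 e0 t (X.topAB γ (X.s0 t)) = X.topAf1 e0 t (X.topAA γ (X.s1 t)) :=
  PQ.ext' (X.topA_pa_congr γ (X.tgt01 t)) rfl

theorem CellSp.topA_hc (t : Tr) :
    X.topAf1 e0 t (X.topAB γ (X.s1 t)) = X.topAf2 e0 t (X.topAB γ (X.s2 t)) :=
  PQ.ext' (X.topA_pa_congr γ (X.tgt12 t)) rfl

/-- Push-forward of arrows with a change of end points. -/
def topApush {Y Z : Type} [TopologicalSpace Y] [TopologicalSpace Z] (f : C(Y, Z)) {x y : Y}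
    {x' y' : Z} (hx : x' = f x) (hy : y' = f y) (g : ob x ⟶ ob y) : ob x' ⟶ ob y' :=
  (Path.Homotopic.Quotient.map g f).cast hx hy

theorem topApush_act {Q Q' : Type} [TopologicalSpace Q] [TopologicalSpace Q'] {χ : C(Q, E)}
    {χ' : C(Q', E)} (φ : C(Q, Q')) (h : ∀ x, χ' (φ x) = χ x) {x y : PQ e0 χ} {x' y' : PQ e0 χ'}
    (hx : x' = PQ.face φ h x) (hy : y' = PQ.face φ h y) (a : ob (Om.c e0) ⟶ ob (Om.c e0))
    (g : ob x ⟶ ob y) : topApush (PQ.face φ h) hx hy ((PQ.A e0 χ).act a x ≫ g)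
      = (PQ.A e0 χ').act a x' ≫ topApush (PQ.face φ h) hx hy g := by
  subst hx hy
  simp only [topApush, Path.Homotopic.Quotient.cast_rfl_rfl]
  rw [← PQ.face_act]
  exact (map (PQ.face φ h)).map_comp _ _

theorem CellSp.topA_step2 (hj : ∀ e, Joined (X.topAA γ e) (X.topAB γ e))
    (spl : ∀ (A : Type) [AddCommGroup A] (o : Tr → A),
      ∃ b : Ed → A, ∀ t, b (X.s0 t) + b (X.s1 t) - b (X.s2 t) = o t) :
    ∃ (β : ∀ e, Path (X.topAA γ e) (X.topAB γ e)) (F : ∀ t, C(Tri, PQ e0 (X.tr t))),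
      (∀ t u, F t (Tri.s0 u) = X.topAf0 e0 t (β _ u)) ∧
      (∀ t u, F t (Tri.s1 u) = X.topAf1 e0 t (β _ u)) ∧
      ∀ t u, F t (Tri.s2 u) = X.topAf2 e0 t (β _ u) := by
  let g : ∀ e, ob (X.topAA γ e) ⟶ ob (X.topAB γ e) := fun e =>
    Path.Homotopic.Quotient.mk (hj e).somePath
  let G := End (ob (Om.c e0))
  let _ : CommGroup G := { (inferInstance : Group G) with mul_comm := fun a b => Om.comm e0 b a }
  have hsurj : ∀ t, ∃ a : G, (PQ.A e0 (X.tr t)).act a _ =
      topApush (X.topAf2 e0 t) (X.topA_ha γ t) (X.topA_hc γ t) (g _) ≫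
        inv (topApush (X.topAf0 e0 t) rfl rfl (g _) ≫
          topApush (X.topAf1 e0 t) (X.topA_hb γ t) rfl (g _)) := fun t =>
    PQ.act_surj _ ⟨fun p => topAsegT ((_, p.1), p.2), by fun_prop⟩ (fun y => topAsegT_zero _ y)
      (fun y => topAsegT_one _ y) _
  choose o ho using hsurj
  obtain ⟨b, hb⟩ := spl (Additive G) fun t => Additive.ofMul (o t)
  let b' : Ed → (ob (Om.c e0) ⟶ ob (Om.c e0)) := fun e => (b e).toMul
  have hb' : ∀ t, b' (X.s0 t) ≫ b' (X.s1 t) = b' (X.s2 t) ≫ o t := fun t => by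
    have h1 : b (X.s1 t) + b (X.s0 t) = Additive.ofMul (o t) + b (X.s2 t) := by
      rw [← hb t]; abel
    exact congrArg Additive.toMul h1
  choose β hβ using fun e => Path.Homotopic.Quotient.mk_surjective
    ((PQ.A e0 (X.eg e)).act (b' e) _ ≫ g e)
  have key : ∀ t, (((β (X.s0 t)).map (X.topAf0 e0 t).continuous).trans
      (((β (X.s1 t)).map (X.topAf1 e0 t).continuous).cast (X.topA_hb γ t) rfl)).Homotopic
      (((β (X.s2 t)).map (X.topAf2 e0 t).continuous).cast (X.topA_ha γ t) (X.topA_hc γ t)) := by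
    intro t
    refine Path.Homotopic.Quotient.eq.1 ?_
    change topApush (X.topAf0 e0 t) rfl rfl (Path.Homotopic.Quotient.mk (β _)) ≫
      topApush (X.topAf1 e0 t) (X.topA_hb γ t) rfl (Path.Homotopic.Quotient.mk (β _)) =
      topApush (X.topAf2 e0 t) (X.topA_ha γ t) (X.topA_hc γ t) (Path.Homotopic.Quotient.mk (β _))
    rw [hβ, hβ, hβ]
    have e0' := topApush_act topAs0 (X.tr0 t) rfl rfl (b' (X.s0 t)) (g (X.s0 t))
    have e1' := topApush_act topAs1 (X.tr1 t) (X.topA_hb γ t) rfl (b' (X.s1 t)) (g (X.s1 t))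
    have e2' := topApush_act topAs2 (X.tr2 t) (X.topA_ha γ t) (X.topA_hc γ t) (b' (X.s2 t))
      (g (X.s2 t))
    refine (congrArg₂ (· ≫ ·) e0' e1').trans (Eq.trans ?_ e2'.symm)
    have h1 := (PQ.A e0 (X.tr t)).act_nat (b' (X.s1 t)) (topApush (X.topAf0 e0 t) rfl rfl (g _))
    have h2 := congrArg (fun a => (PQ.A e0 (X.tr t)).act a (X.topAf0 e0 t (X.topAA γ (X.s0 t))))
      (hb' t)
    simp only [TopAAct.act_comp] at h2
    rw [ho t] at h2
    change (_ ≫ topApush (X.topAf0 e0 t) rfl rfl (g _)) ≫ _ ≫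
      topApush (X.topAf1 e0 t) (X.topA_hb γ t) rfl (g _) =
      _ ≫ topApush (X.topAf2 e0 t) (X.topA_ha γ t) (X.topA_hc γ t) (g _)
    erw [Category.assoc, reassoc_of% h1, reassoc_of% h2]
    simp only [IsIso.inv_hom_id, Category.comp_id]
    rfl
  choose F hF using fun t => topA_extend _ _ _ (key t)
  exact ⟨β, F, fun t => (hF t).1, fun t => (hF t).2.1, fun t => (hF t).2.2⟩

end aux

theorem CellSp.contractible {E Vt Ed Tr : Type} [TopologicalSpace E] (X : CellSp E Vt Ed Tr)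
    (v0 : Vt)
    (conn : ∀ v, Relation.EqvGen (fun a b => ∃ e, X.src e = a ∧ X.tgt e = b) v0 v)
    (sc : ∀ (A : Type) [Group A] (m : Ed → A), (∀ t, m (X.s0 t) * m (X.s1 t) = m (X.s2 t)) →
      ∃ τ : Vt → A, ∀ e, τ (X.src e) * m e = τ (X.tgt e))
    (spl : ∀ (A : Type) [AddCommGroup A] (o : Tr → A),
      ∃ b : Ed → A, ∀ t, b (X.s0 t) + b (X.s1 t) - b (X.s2 t) = o t) :
    ContractibleSpace E := by
  obtain ⟨γ, hγ⟩ := X.topA_step1 v0 conn sc
  obtain ⟨β, F, h0, h1, h2⟩ := X.topA_step2 γ (fun e => X.topA_joined γ e (hγ e)) spl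
  obtain ⟨S, hSv, hSe, hSt⟩ := X.glue C(unitInterval, E) (fun v => γ v)
    (fun e => ⟨fun u => (β e u).pa, by fun_prop⟩) (fun t => ⟨fun p => (F t p).pa, by fun_prop⟩)
    (fun e => congrArg PQ.pa (β e).source) (fun e => congrArg PQ.pa (β e).target)
    (fun t u => congrArg PQ.pa (h0 t u)) (fun t u => congrArg PQ.pa (h1 t u))
    fun t u => congrArg PQ.pa (h2 t u)
  obtain ⟨R, hRv, hRe, hRt⟩ := X.glue C(unitInterval, E) (fun v => ContinuousMap.const _ (X.pt v))
    (fun e => ContinuousMap.curry ⟨fun p : unitInterval × unitInterval =>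
      X.eg e (topAsegI (((β e p.1).pr, p.1), p.2)), by fun_prop⟩)
    (fun t => ContinuousMap.curry ⟨fun p : Tri × unitInterval =>
      X.tr t (topAsegT (((F t p.1).pr, p.1), p.2)), by fun_prop⟩)
    (fun e => ContinuousMap.ext fun w => by
      change X.eg e (topAsegI (((β e 0).pr, 0), w)) = X.pt _
      rw [(β e).source, ← X.eg0]
      exact congrArg _ (topAsegI_self 0 w))
    (fun e => ContinuousMap.ext fun w => by
      change X.eg e (topAsegI (((β e 1).pr, 1), w)) = X.pt _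
      rw [(β e).target, ← X.eg1]
      exact congrArg _ (topAsegI_self 1 w))
    (fun t u => ContinuousMap.ext fun w => by
      change X.tr t (topAsegT (((F t _).pr, _), w)) = X.eg _ (topAsegI (((β _ u).pr, u), w))
      rw [h0, ← X.tr0, ← topAsegT_s0]
      rfl)
    (fun t u => ContinuousMap.ext fun w => by
      change X.tr t (topAsegT (((F t _).pr, _), w)) = X.eg _ (topAsegI (((β _ u).pr, u), w))
      rw [h1, ← X.tr1, ← topAsegT_s1]
      rfl)
    fun t u => ContinuousMap.ext fun w => by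
      change X.tr t (topAsegT (((F t _).pr, _), w)) = X.eg _ (topAsegI (((β _ u).pr, u), w))
      rw [h2, ← X.tr2, ← topAsegT_s2]
      rfl
  have key : ∀ x, S x 0 = X.pt v0 ∧ S x 1 = R x 0 ∧ R x 1 = x := by
    intro x
    rcases X.cover x with ⟨v, rfl⟩ | ⟨e, u, rfl⟩ | ⟨t, p, rfl⟩
    · rw [hSv, hRv]
      exact ⟨(γ v).source, (γ v).target, rfl⟩
    · rw [hSe, hRe]
      exact ⟨(β e u).pa0, (β e u).pa1.trans (congrArg _ (topAsegI_zero _ u).symm),
        congrArg (X.eg e) (topAsegI_one _ u)⟩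
    · rw [hSt, hRt]
      exact ⟨(F t p).pa0, (F t p).pa1.trans (congrArg _ (topAsegT_zero _ p).symm),
        congrArg (X.tr t) (topAsegT_one _ p)⟩
  have H1 : (ContinuousMap.const E (X.pt v0)).Homotopic ⟨fun x => S x 1, by fun_prop⟩ :=
    ⟨⟨⟨fun p => S p.2 p.1, by fun_prop⟩, fun x => (key x).1, fun _ => rfl⟩⟩
  have H2 : (⟨fun x => S x 1, by fun_prop⟩ : C(E, E)).Homotopic (ContinuousMap.id E) :=
    ⟨⟨⟨fun p => R p.2 p.1, by fun_prop⟩, fun x => (key x).2.1.symm, fun x => (key x).2.2⟩⟩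
  exact (contractible_iff_id_nullhomotopic E).2 ⟨X.pt v0, (H1.trans H2).symm⟩

end Crest.Agent.R184
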