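import Mathlib

/-! Building finite CW complexes from characteristic maps. -/

set_option autoImplicit false

namespace Crest.Agent.R184.TopB

open Set Topology Metric

theorem exists_partialEquiv {X : Type} [TopologicalSpace X] [T2Space X] {n : ℕ}
    (χ : (Fin n → ℝ) → X) (hc : ContinuousOn χ (closedBall 0 1))
    (hi : ∀ x ∈ ball (0 : Fin n → ℝ) 1, ∀ y ∈ closedBall (0 : Fin n → ℝ) 1, χ x = χ y → x = y) :
    ∃ e : PartialEquiv (Fin n → ℝ) X, (e : (Fin n → ℝ) → X) = χ ∧ e.source = ball 0 1 ∧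
      ContinuousOn e.symm e.target := by
  have hinj : InjOn χ (ball 0 1) := fun x hx y hy h => hi x hx y (ball_subset_closedBall hy) h
  refine ⟨hinj.toPartialEquiv χ _, rfl, rfl, ?_⟩
  set e := hinj.toPartialEquiv χ _
  have hs : e.source = ball 0 1 := rfl
  have he : (e : (Fin n → ℝ) → X) = χ := rfl
  rw [continuousOn_iff_isClosed]
  intro C hC
  refine ⟨χ '' (C ∩ closedBall 0 1), ?_, ?_⟩
  · exact (((isCompact_closedBall 0 1).inter_left hC).image_of_continuousOn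
      (hc.mono inter_subset_right)).isClosed
  · ext y
    constructor
    · rintro ⟨h1, h2⟩
      refine ⟨⟨e.symm y, ⟨h1, ball_subset_closedBall (hs ▸ e.map_target h2)⟩, ?_⟩, h2⟩
      rw [← he, e.right_inv h2]
    · rintro ⟨⟨x, ⟨hx1, hx2⟩, rfl⟩, h2⟩
      refine ⟨?_, h2⟩
      have h3 : e.symm (χ x) ∈ ball (0 : Fin n → ℝ) 1 := hs ▸ e.map_target h2
      have h4 : e.symm (χ x) = x := hi _ h3 _ hx2 (e.right_inv h2)
      rw [mem_preimage, h4]
      exact hx1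

theorem exists_cw {X : Type} [TopologicalSpace X] [T2Space X] (cell : ℕ → Type)
    (χ : (n : ℕ) → cell n → (Fin n → ℝ) → X) (d : ℕ)
    (hE : ∀ n, d < n → IsEmpty (cell n)) (hF : ∀ n, Finite (cell n))
    (hc : ∀ n i, ContinuousOn (χ n i) (closedBall 0 1))
    (hi : ∀ n i, ∀ x ∈ ball (0 : Fin n → ℝ) 1, ∀ y ∈ closedBall (0 : Fin n → ℝ) 1,
      χ n i x = χ n i y → x = y)
    (hd : ∀ n i m j, ∀ x ∈ ball (0 : Fin n → ℝ) 1, ∀ y ∈ ball (0 : Fin m → ℝ) 1,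
      χ n i x = χ m j y → (⟨n, i⟩ : Σ n, cell n) = ⟨m, j⟩)
    (hb : ∀ n i, ∀ x ∈ sphere (0 : Fin n → ℝ) 1, ∃ m < n, ∃ j, ∃ y ∈ closedBall (0 : Fin m → ℝ) 1,
      χ m j y = χ n i x)
    (hu : ∀ x : X, ∃ m, ∃ j, ∃ y ∈ closedBall (0 : Fin m → ℝ) 1, χ m j y = x) :
    ∃ _ : CWComplex (univ : Set X), RelCWComplex.Finite (univ : Set X) ∧
      ∀ n : ℕ, d < n → IsEmpty (RelCWComplex.cell (univ : Set X) n) := by
  choose e he1 he2 he3 using fun n i => exists_partialEquiv (χ n i) (hc n i) (hi n i)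
  have h1 : ∀ᶠ n in Filter.atTop, IsEmpty (cell n) :=
    (Filter.eventually_gt_atTop d).mono hE
  have h2 : ∀ n i, ContinuousOn (e n i) (closedBall 0 1) := fun n i => he1 n i ▸ hc n i
  have h3 : (univ : Set (Σ n, cell n)).PairwiseDisjoint
      (fun ni => e ni.1 ni.2 '' ball 0 1) := by
    rintro ⟨n, i⟩ - ⟨m, j⟩ - hne
    refine disjoint_left.2 ?_
    rintro _ ⟨x, hx, rfl⟩ ⟨y, hy, h⟩
    simp only [he1] at h
    exact hne (hd n i m j x hx y hy h.symm)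
  have h4 : ∀ n i, MapsTo (e n i) (sphere 0 1)
      (⋃ (m < n) (j : cell m), e m j '' closedBall 0 1) := by
    intro n i x hx
    obtain ⟨m, hm, j, y, hy, h⟩ := hb n i x hx
    simp only [mem_iUnion, he1]
    exact ⟨m, hm, j, y, hy, h⟩
  have h5 : ⋃ (n : ℕ) (j : cell n), e n j '' closedBall 0 1 = univ := by
    refine eq_univ_of_forall fun x => ?_
    obtain ⟨m, j, y, hy, h⟩ := hu x
    simp only [mem_iUnion, he1]
    exact ⟨m, j, y, hy, h⟩
  exact ⟨CWComplex.mkFinite univ cell e h1 hF he2 h2 he3 h3 h4 h5,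
    CWComplex.finite_mkFinite univ cell e h1 hF he2 h2 he3 h3 h4 h5, hE⟩

/-- rescaling `[-1, 1]` to `[0, 1]` -/
noncomputable def resc (x : ℝ) : unitInterval := projIcc 0 1 zero_le_one ((x + 1) / 2)

theorem continuous_resc : Continuous resc := by
  unfold resc
  exact continuous_projIcc.comp (by fun_prop)

theorem resc_val {x : ℝ} (h : |x| ≤ 1) : (resc x : ℝ) = (x + 1) / 2 := by
  obtain ⟨h1, h2⟩ := abs_le.1 h
  unfold resc
  rw [projIcc_of_mem _ ⟨by linarith, by linarith⟩]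

theorem resc_surj (u : unitInterval) : ∃ x : ℝ, |x| ≤ 1 ∧ resc x = u := by
  have h : |2 * (u : ℝ) - 1| ≤ 1 := abs_le.2 ⟨by linarith [u.2.1], by linarith [u.2.2]⟩
  exact ⟨2 * u - 1, h, Subtype.ext (by rw [resc_val h]; ring)⟩

theorem mem_cb {n : ℕ} {x : Fin n → ℝ} : x ∈ closedBall (0 : Fin n → ℝ) 1 ↔ ∀ i, |x i| ≤ 1 := by
  rw [mem_closedBall_zero_iff, pi_norm_le_iff_of_nonneg zero_le_one]
  simp

theorem mem_ob {n : ℕ} {x : Fin n → ℝ} : x ∈ ball (0 : Fin n → ℝ) 1 ↔ ∀ i, |x i| < 1 := by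
  rw [mem_ball_zero_iff, pi_norm_lt_iff zero_lt_one]
  simp

theorem mem_sph {n : ℕ} {x : Fin n → ℝ} (h : x ∈ sphere (0 : Fin n → ℝ) 1) :
    (∀ i, |x i| ≤ 1) ∧ ¬ ∀ i, |x i| < 1 := by
  refine ⟨mem_cb.1 (sphere_subset_closedBall h), fun h' => ?_⟩
  have := mem_ob.2 h'
  rw [mem_ball_zero_iff, mem_sphere_zero_iff_norm.1 h] at this
  exact lt_irrefl _ this

end Crest.Agent.R184.TopB
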