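import Crest.Agent.R184.TopBAux
import Crest.Agent.R184.TopBAux2
import Crest.Prelude.Def_ClassifyingComplex

/-! The Cayley complex as a space, the group action and the quotient. -/

set_option autoImplicit false

namespace Crest.Agent.R184.TopB

open Set Topology Metric

variable {Gn R : Type} (P : TP Gn R)

/-- the Cayley complex -/
def Esp : Type := {f : Fn P // ∃ z, Phi P z = f}

instance : TopologicalSpace (Esp P) := instTopologicalSpaceSubtype

instance : T2Space (Esp P) := inferInstanceAs (T2Space {f : Fn P // ∃ z, Phi P z = f})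

/-- the parametrisation of a translate of the fundamental domain -/
noncomputable def ph (g : P.Grp) (k : Kc Gn R) : Esp P := ⟨Phi P (g, k), _, rfl⟩

theorem ph_surj (x : Esp P) : ∃ g k, ph P g k = x := by
  obtain ⟨_, ⟨g, k⟩, rfl⟩ := x
  exact ⟨g, k, rfl⟩

theorem ph_surj_int (x : Esp P) : ∃ g k, IsInt k ∧ ph P g k = x := by
  obtain ⟨_, z, rfl⟩ := x
  obtain ⟨⟨g, k⟩, h1, h2⟩ := norm P z
  exact ⟨g, k, h1, Subtype.ext (h2 _ _ _ _ (compat_Phi P)).symm⟩

instance : MulAction P.Grp (Esp P) where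
  smul g x := ⟨act g x.1, by
    obtain ⟨_, ⟨h, k⟩, rfl⟩ := x
    exact ⟨(g * h, k), (act_Phi g h k).symm⟩⟩
  one_smul x := Subtype.ext (by
    funext c
    change x.1 (1⁻¹ * c.1, c.2) = x.1 c
    simp)
  mul_smul g h x := Subtype.ext (by
    funext c
    change x.1 ((g * h)⁻¹ * c.1, c.2) = x.1 (h⁻¹ * (g⁻¹ * c.1), c.2)
    simp [mul_assoc])

theorem smul_ph (g h : P.Grp) (k : Kc Gn R) : g • ph P h k = ph P (g * h) k :=
  Subtype.ext (act_Phi g h k)

instance : ContinuousConstSMul P.Grp (Esp P) where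
  continuous_const_smul g := by
    refine Continuous.subtype_mk (continuous_pi fun c => ?_) _
    exact (continuous_apply (g⁻¹ * c.1, c.2)).comp continuous_subtype_val

variable {P}

theorem isCancelSMul (hgen : ∀ s, P.gen s ≠ 1) : IsCancelSMul P.Grp (Esp P) := by
  refine isCancelSMul_iff_eq_one_of_smul_eq.2 fun g x h => ?_
  obtain ⟨h', k, hk, rfl⟩ := ph_surj_int P x
  rw [smul_ph] at h
  have := Phi_inj_int hgen (z := (g * h', k)) (z' := (h', k)) hk hk (congrArg Subtype.val h)
  simpa using this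

theorem finite_vert [Finite Gn] (v : P.Grp) :
    {g : P.Grp | g⁻¹ * v ∈ insert 1 (range P.gen)}.Finite := by
  have h : (insert 1 (range P.gen)).Finite := (finite_range _).insert _
  refine (h.image fun f => v * f⁻¹).subset fun g hg => ⟨g⁻¹ * v, hg, by simp⟩

theorem star_nhds (hgen : ∀ s, P.gen s ≠ 1) (x : Esp P) :
    ∃ v, {y : Esp P | y.1 (v, .inl ()) ≠ 0} ∈ nhds x := by
  obtain ⟨g, k, rfl⟩ := ph_surj P x
  obtain ⟨v, hv⟩ := exists_vert hgen (g, k)
  refine ⟨v, IsOpen.mem_nhds ?_ hv⟩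
  have hc : Continuous fun y : Esp P => y.1 (v, .inl ()) :=
    (continuous_apply (v, Sum.inl ())).comp continuous_subtype_val
  exact isOpen_ne_fun hc continuous_const

theorem locallyFinite_ph [Finite Gn] (hgen : ∀ s, P.gen s ≠ 1) :
    LocallyFinite fun g => range (ph P g) := by
  intro x
  obtain ⟨v, hv⟩ := star_nhds hgen x
  refine ⟨_, hv, (finite_vert v).subset ?_⟩
  rintro g ⟨_, ⟨k, rfl⟩, h⟩
  exact vert_mem h

section top

variable [TopologicalSpace Gn] [DiscreteTopology Gn] [TopologicalSpace R] [DiscreteTopology R]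

theorem continuous_ph (g : P.Grp) : Continuous (ph P g) :=
  (continuous_asm continuous_egF continuous_trF g).subtype_mk _

variable [Finite Gn] [Finite R]

theorem continuous_of_ph (hgen : ∀ s, P.gen s ≠ 1) {Y : Type} [TopologicalSpace Y]
    {f : Esp P → Y} (hf : ∀ g, Continuous fun k => f (ph P g k)) : Continuous f := by
  refine continuous_iff_isClosed.2 fun C hC => ?_
  have : f ⁻¹' C = ⋃ g, ph P g '' ((fun k => f (ph P g k)) ⁻¹' C) := by
    ext x
    simp only [mem_iUnion]
    constructor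
    · intro hx
      obtain ⟨g, k, rfl⟩ := ph_surj P x
      exact ⟨g, k, hx, rfl⟩
    · rintro ⟨g, k, hk, rfl⟩
      exact hk
  rw [this]
  refine ((locallyFinite_ph hgen).subset fun g => image_subset_range _ _).isClosed_iUnion
    fun g => ?_
  exact ((hC.preimage (hf g)).isCompact.image (continuous_ph g)).isClosed

theorem locallyCompact (hgen : ∀ s, P.gen s ≠ 1) : LocallyCompactSpace (Esp P) := by
  have : WeaklyLocallyCompactSpace (Esp P) := by
    refine ⟨fun x => ?_⟩
    obtain ⟨v, hv⟩ := star_nhds hgen x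
    refine ⟨⋃ g ∈ {g : P.Grp | g⁻¹ * v ∈ insert 1 (range P.gen)}, range (ph P g),
      (finite_vert v).isCompact_biUnion fun g _ => isCompact_range (continuous_ph g), ?_⟩
    refine Filter.mem_of_superset hv fun y hy => ?_
    obtain ⟨g, k, rfl⟩ := ph_surj P y
    exact mem_biUnion (vert_mem hy) ⟨k, rfl⟩
  infer_instance

end top

theorem properlyDiscontinuous [Finite Gn] (hgen : ∀ s, P.gen s ≠ 1) :
    ProperlyDiscontinuousSMul P.Grp (Esp P) := by
  refine ⟨fun {K L} hK hL => ?_⟩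
  have hA := (locallyFinite_ph hgen).finite_nonempty_inter_compact hK
  have hB := (locallyFinite_ph hgen).finite_nonempty_inter_compact hL
  refine (hB.image2 (fun b a => b * a⁻¹) hA).subset ?_
  rintro γ ⟨_, ⟨x, hx, rfl⟩, hy⟩
  obtain ⟨g, k, rfl⟩ := ph_surj P x
  refine ⟨γ * g, ⟨_, ⟨k, rfl⟩, ?_⟩, g, ⟨_, ⟨k, rfl⟩, hx⟩, by simp⟩
  rw [← smul_ph]
  exact hy

variable (P) in
/-- the presentation complex -/
abbrev Xsp : Type := Quotient (MulAction.orbitRel P.Grp (Esp P))

variable (P) in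
/-- the parametrisation of the presentation complex -/
noncomputable def psi (k : Kc Gn R) : Xsp P := Quotient.mk _ (ph P 1 k)

theorem mk_ph (g : P.Grp) (k : Kc Gn R) :
    (Quotient.mk _ (ph P g k) : Xsp P) = psi P k :=
  Quotient.sound ⟨g, by simp only [smul_ph, mul_one]⟩

theorem psi_inj (hgen : ∀ s, P.gen s ≠ 1) {k k' : Kc Gn R} (hk : IsInt k) (hd : dim k' ≤ dim k)
    (h : psi P k = psi P k') : k = k' := by
  obtain ⟨g, hg⟩ := Quotient.exact h
  simp only [smul_ph] at hg
  have := Phi_inj hgen (z := (1, k)) (z' := (g * 1, k')) hk hd (congrArg Subtype.val hg).symm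
  exact congrArg Prod.snd this

theorem compat_psi : Compat P (fun _ => psi P (.inl ()))
    (fun e u => psi P (.inr (.inl (e.2, u)))) (fun t p => psi P (.inr (.inr (t.2, p)))) where
  e0 e := by
    rw [← mk_ph e.1, ← mk_ph e.1]
    exact congrArg _ (Subtype.ext ((compat_Phi P).e0 e))
  e1 e := by
    rw [← mk_ph e.1, ← mk_ph (e.1 * P.gen e.2)]
    exact congrArg _ (Subtype.ext ((compat_Phi P).e1 e))
  t0 t u := by
    rw [← mk_ph t.1, ← mk_ph t.1]
    exact congrArg _ (Subtype.ext ((compat_Phi P).t0 t u))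
  t1 t u := by
    rw [← mk_ph t.1, ← mk_ph (t.1 * P.gen (P.a t.2))]
    exact congrArg _ (Subtype.ext ((compat_Phi P).t1 t u))
  t2 t u := by
    rw [← mk_ph t.1, ← mk_ph t.1]
    exact congrArg _ (Subtype.ext ((compat_Phi P).t2 t u))

/-- the square onto the triangle -/
noncomputable def sqT (x : Fin 2 → ℝ) : Tri :=
  ⟨(resc (x 0), resc (x 0) * resc (x 1)), mul_nonneg (resc _).2.1 (resc _).2.1,
    mul_le_of_le_one_right (resc _).2.1 (resc _).2.2, (resc _).2.2⟩

theorem continuous_sqT : Continuous sqT := by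
  have := continuous_resc
  refine Continuous.subtype_mk ?_ _
  fun_prop

theorem sqT_surj (p : Tri) : ∃ x ∈ closedBall (0 : Fin 2 → ℝ) 1, sqT x = p := by
  obtain ⟨⟨a, b⟩, h0, h1, h2⟩ := p
  simp only at h0 h1 h2
  obtain ⟨x, hx, hx'⟩ := resc_surj ⟨a, by linarith, h2⟩
  obtain ⟨y, hy, hy'⟩ := resc_surj ⟨b / a, div_nonneg h0 (by linarith),
    div_le_one_of_le₀ h1 (by linarith)⟩
  refine ⟨![x, y], mem_cb.2 fun i => by fin_cases i <;> simpa, Subtype.ext (Prod.ext ?_ ?_)⟩
  · simp [sqT, hx']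
  · simp only [sqT, Matrix.cons_val_zero, Matrix.cons_val_one, hx', hy']
    by_cases e : a = 0
    · simp only [e, zero_mul]; linarith
    · field_simp

theorem sqT_int_iff {x : Fin 2 → ℝ} (hx : ∀ i, |x i| ≤ 1) :
    (0 < (sqT x).1.2 ∧ (sqT x).1.2 < (sqT x).1.1 ∧ (sqT x).1.1 < 1) ↔ ∀ i, |x i| < 1 := by
  simp only [sqT, resc_val (hx 0), resc_val (hx 1), Fin.forall_fin_two, abs_lt]
  obtain ⟨h1, h2⟩ := abs_le.1 (hx 0)
  obtain ⟨h3, h4⟩ := abs_le.1 (hx 1)
  constructor
  · rintro ⟨h5, h6, h7⟩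
    refine ⟨⟨?_, by linarith⟩, ?_, ?_⟩
    · by_contra h; have : x 0 = -1 := by linarith
      simp [this] at h5
    · by_contra h; have : x 1 = -1 := by linarith
      simp [this] at h5
    · by_contra h; have : x 1 = 1 := by linarith
      simp [this] at h6
  · rintro ⟨⟨h5, h6⟩, h7, h8⟩
    exact ⟨by nlinarith, by nlinarith, by linarith⟩

theorem sqT_inj {x y : Fin 2 → ℝ} (hx : ∀ i, |x i| < 1) (hy : ∀ i, |y i| ≤ 1)
    (h : sqT x = sqT y) : x = y := by
  have h1 := congrArg (fun p : Tri => p.1.1) h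
  have h2 := congrArg (fun p : Tri => p.1.2) h
  simp only [sqT, resc_val (hx 0).le, resc_val (hx 1).le, resc_val (hy 0), resc_val (hy 1)] at h1 h2
  have e0 : x 0 = y 0 := by linarith
  have h3 := (abs_lt.1 (hx 0)).1
  rw [← e0] at h2
  have e1 : x 1 = y 1 := by
    have := mul_left_cancel₀ (by linarith : (x 0 + 1) / 2 ≠ 0) h2
    linarith
  funext i
  fin_cases i
  · exact e0
  · exact e1

theorem resc_int_iff {x : ℝ} (hx : |x| ≤ 1) :
    (0 < (resc x : ℝ) ∧ (resc x : ℝ) < 1) ↔ |x| < 1 := by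
  rw [resc_val hx, abs_lt]
  constructor <;> rintro ⟨h1, h2⟩ <;> constructor <;> linarith

/-- the cells -/
def cellT (Gn R : Type) : ℕ → Type
  | 0 => Unit
  | 1 => Gn
  | 2 => R
  | _ + 3 => Empty

/-- the characteristic maps, in the fundamental domain -/
noncomputable def chK : (n : ℕ) → cellT Gn R n → (Fin n → ℝ) → Kc Gn R
  | 0, _, _ => .inl ()
  | 1, s, x => .inr (.inl (s, resc (x 0)))
  | 2, r, x => .inr (.inr (r, sqT x))
  | _ + 3, e, _ => e.elim

theorem dim_chK (n : ℕ) (i : cellT Gn R n) (x : Fin n → ℝ) : dim (chK n i x) = n := by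
  match n, i with
  | 0, _ => rfl
  | 1, _ => rfl
  | 2, _ => rfl
  | _ + 3, e => exact e.elim

theorem isInt_chK (n : ℕ) (i : cellT Gn R n) {x : Fin n → ℝ} (hx : ∀ i, |x i| ≤ 1) :
    IsInt (chK n i x) ↔ ∀ i, |x i| < 1 := by
  match n, i with
  | 0, _ => simp [chK, IsInt]
  | 1, _ => simp only [chK, IsInt, resc_int_iff (hx 0), Fin.forall_fin_one]
  | 2, _ => exact sqT_int_iff hx
  | _ + 3, e => exact e.elim

theorem chK_inj (n : ℕ) (i j : cellT Gn R n) {x y : Fin n → ℝ} (hx : ∀ i, |x i| < 1)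
    (hy : ∀ i, |y i| ≤ 1) (h : chK n i x = chK n j y) : i = j ∧ x = y := by
  match n, i, j with
  | 0, _, _ => exact ⟨rfl, Subsingleton.elim _ _⟩
  | 1, i, j =>
    simp only [chK, Sum.inr.injEq, Sum.inl.injEq, Prod.mk.injEq] at h
    refine ⟨h.1, funext fun k => ?_⟩
    have h2 := congrArg Subtype.val h.2
    rw [resc_val (hx 0).le, resc_val (hy 0)] at h2
    fin_cases k
    change x 0 = y 0
    linarith
  | 2, i, j =>
    simp only [chK, Sum.inr.injEq, Prod.mk.injEq] at h
    exact ⟨h.1, sqT_inj hx hy h.2⟩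
  | _ + 3, e, _ => exact e.elim

theorem chK_surj (k : Kc Gn R) :
    ∃ j, ∃ y ∈ closedBall (0 : Fin (dim k) → ℝ) 1, chK (dim k) j y = k := by
  obtain k | ⟨s, u⟩ | ⟨r, p⟩ := k
  · exact ⟨(), 0, mem_closedBall_self zero_le_one, rfl⟩
  · obtain ⟨x, hx, rfl⟩ := resc_surj u
    exact ⟨s, fun _ => x, mem_cb.2 fun _ => hx, rfl⟩
  · obtain ⟨x, hx, rfl⟩ := sqT_surj p
    exact ⟨r, x, hx, rfl⟩

theorem psi_bd {k : Kc Gn R} (hk : ¬ IsInt k) : ∃ k', dim k' < dim k ∧ psi P k' = psi P k := by
  obtain k | ⟨s, u⟩ | ⟨r, p⟩ := k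
  · exact (hk trivial).elim
  · rcases unit_bd u hk with rfl | rfl
    · exact ⟨.inl (), Nat.zero_lt_one, (compat_psi.e0 (1, s)).symm⟩
    · exact ⟨.inl (), Nat.zero_lt_one, (compat_psi.e1 (1, s)).symm⟩
  · obtain ⟨u, rfl | rfl | rfl⟩ := tri_bd p hk
    · exact ⟨.inr (.inl (_, u)), Nat.one_lt_two, (compat_psi.t0 (1, r) u).symm⟩
    · exact ⟨.inr (.inl (_, u)), Nat.one_lt_two, (compat_psi.t1 (1, r) u).symm⟩
    · exact ⟨.inr (.inl (_, u)), Nat.one_lt_two, (compat_psi.t2 (1, r) u).symm⟩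

theorem continuous_chK [TopologicalSpace Gn] [TopologicalSpace R] (n : ℕ) (i : cellT Gn R n) :
    Continuous (chK n i) := by
  match n, i with
  | 0, _ => exact continuous_const
  | 1, s =>
    exact continuous_inr.comp (continuous_inl.comp
      (continuous_const.prodMk (continuous_resc.comp (continuous_apply 0))))
  | 2, r => exact continuous_inr.comp (continuous_inr.comp (continuous_const.prodMk continuous_sqT))
  | _ + 3, e => exact e.elim

theorem classifying [Finite Gn] [Finite R] (hgen : ∀ s, P.gen s ≠ 1)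
    (hE : ContractibleSpace (Esp P)) : Crest.Topology.HasFiniteClassifyingComplex P.Grp 2 := by
  letI : TopologicalSpace Gn := ⊥
  haveI : DiscreteTopology Gn := ⟨rfl⟩
  letI : TopologicalSpace R := ⊥
  haveI : DiscreteTopology R := ⟨rfl⟩
  haveI := locallyCompact hgen
  haveI := properlyDiscontinuous hgen
  haveI := isCancelSMul hgen
  have hq : IsQuotientCoveringMap (Quotient.mk (MulAction.orbitRel P.Grp (Esp P))) P.Grp :=
    isQuotientCoveringMap_quotientMk_of_properlyDiscontinuousSMul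
  have hT : T2Space (Xsp P) := inferInstance
  have hpsi : Continuous (psi P) := continuous_quotient_mk'.comp (continuous_ph 1)
  obtain ⟨cw, h1, h2⟩ := exists_cw (X := Xsp P) (cellT Gn R) (fun n i x => psi P (chK n i x)) 2
    (fun n hn => by
      obtain ⟨m, rfl⟩ : ∃ m, n = m + 3 := ⟨n - 3, by omega⟩
      exact inferInstanceAs (IsEmpty Empty))
    (fun n => by
      match n with
      | 0 => exact inferInstanceAs (Finite Unit)
      | 1 => exact inferInstanceAs (Finite Gn)
      | 2 => exact inferInstanceAs (Finite R)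
      | _ + 3 => exact inferInstanceAs (Finite Empty))
    (fun n i => (hpsi.comp (continuous_chK n i)).continuousOn)
    (fun n i x hx y hy h => by
      have hx' := mem_ob.1 hx
      have := psi_inj hgen ((isInt_chK n i fun j => (hx' j).le).2 hx')
        (by rw [dim_chK, dim_chK]) h
      exact (chK_inj n i i hx' (mem_cb.1 hy) this).2)
    (fun n i m j x hx y hy h => by
      have hx' := mem_ob.1 hx
      have hy' := mem_ob.1 hy
      have hxi := (isInt_chK n i fun j => (hx' j).le).2 hx'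
      have hyi := (isInt_chK m j fun j => (hy' j).le).2 hy'
      have e : chK n i x = chK m j y := by
        rcases le_total (dim (chK m j y)) (dim (chK n i x)) with hd | hd
        · exact psi_inj hgen hxi hd h
        · exact (psi_inj hgen hyi hd h.symm).symm
      have hnm : n = m := by rw [← dim_chK n i x, e, dim_chK]
      subst hnm
      rw [(chK_inj n i j hx' (fun j => (hy' j).le) e).1])
    (fun n i x hx => by
      obtain ⟨hx1, hx2⟩ := mem_sph hx
      obtain ⟨k', hk1, hk2⟩ := psi_bd (P := P) (mt (isInt_chK n i hx1).1 hx2)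
      obtain ⟨j, y, hy, e⟩ := chK_surj k'
      rw [dim_chK] at hk1
      exact ⟨_, hk1, j, y, hy, by rw [e, hk2]⟩)
    (fun x => by
      obtain ⟨x⟩ := x
      obtain ⟨g, k, rfl⟩ := ph_surj P x
      obtain ⟨j, y, hy, e⟩ := chK_surj k
      exact ⟨_, j, y, hy, by rw [e]; exact (mk_ph g k).symm⟩)
  refine ⟨Xsp P, inferInstance, cw, hT, h1, h2,
    ⟨Esp P, inferInstance, Quotient.mk _, hE, hq.isCoveringMap, hq.surjective⟩,
    psi P (.inl ()), ⟨?_⟩⟩
  exact (hq.fundamentalGroupEquiv ⟨ph P 1 (.inl ()), rfl⟩).trans (MulEquiv.inv' P.Grp).symm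

end Crest.Agent.R184.TopB
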