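import Crest.Agent.R184.Fox
import Crest.Prelude.Def_ClassifyingComplex
import Crest.Agent.R184.TopBAux3

/-! The Cayley complex of a finite triangular presentation and its quotient. -/

set_option autoImplicit false

namespace Crest.Agent.R184

theorem TP.exists_model {Gn R : Type} [Finite Gn] [Finite R] (P : TP Gn R)
    (hgen : ∀ s, P.gen s ≠ 1) :
    ∃ (E : Type) (_ : TopologicalSpace E) (X : CellSp E P.Grp (P.Grp × Gn) (P.Grp × R)),
      (∀ e, X.src e = e.1) ∧ (∀ e, X.tgt e = e.1 * P.gen e.2) ∧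
      (∀ t, X.s0 t = (t.1, P.a t.2)) ∧ (∀ t, X.s1 t = (t.1 * P.gen (P.a t.2), P.b t.2)) ∧
      (∀ t, X.s2 t = (t.1, P.c t.2)) ∧
      (ContractibleSpace E → Crest.Topology.HasFiniteClassifyingComplex P.Grp 2) := by
  letI : TopologicalSpace Gn := ⊥
  haveI : DiscreteTopology Gn := ⟨rfl⟩
  letI : TopologicalSpace R := ⊥
  haveI : DiscreteTopology R := ⟨rfl⟩
  refine ⟨TopB.Esp P, inferInstance,
    { src := fun e => e.1
      tgt := fun e => e.1 * P.gen e.2
      s0 := fun t => (t.1, P.a t.2)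
      s1 := fun t => (t.1 * P.gen (P.a t.2), P.b t.2)
      s2 := fun t => (t.1, P.c t.2)
      src02 := fun _ => rfl
      tgt01 := fun _ => rfl
      tgt12 := fun t => by simp only [mul_assoc, TP.gen_rel]
      pt := fun g => TopB.ph P g (.inl ())
      eg := fun e => ⟨fun u => TopB.ph P e.1 (.inr (.inl (e.2, u))),
        (TopB.continuous_egF e).subtype_mk _⟩
      tr := fun t => ⟨fun p => TopB.ph P t.1 (.inr (.inr (t.2, p))),
        (TopB.continuous_trF t).subtype_mk _⟩
      eg0 := fun e => Subtype.ext ((TopB.compat_Phi P).e0 e)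
      eg1 := fun e => Subtype.ext ((TopB.compat_Phi P).e1 e)
      tr0 := fun t u => Subtype.ext ((TopB.compat_Phi P).t0 t u)
      tr1 := fun t u => Subtype.ext ((TopB.compat_Phi P).t1 t u)
      tr2 := fun t u => Subtype.ext ((TopB.compat_Phi P).t2 t u)
      cover := fun x => ?_
      glue := fun Y _ fv fe ft h0 h1 h2 h3 h4 => ?_ },
    fun _ => rfl, fun _ => rfl, fun _ => rfl, fun _ => rfl, fun _ => rfl,
    TopB.classifying hgen⟩
  · obtain ⟨g, k | ⟨s, u⟩ | ⟨r, p⟩, rfl⟩ := TopB.ph_surj P x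
    · exact Or.inl ⟨g, rfl⟩
    · exact Or.inr (Or.inl ⟨(g, s), u, rfl⟩)
    · exact Or.inr (Or.inr ⟨(g, r), p, rfl⟩)
  · have hc : TopB.Compat P fv (fun e u => fe e u) (fun t p => ft t p) := ⟨h0, h1, h2, h3, h4⟩
    let f : TopB.Esp P → Y := fun x =>
      TopB.asm fv (fun e u => fe e u) (fun t p => ft t p) x.2.choose
    have hf : ∀ g k, f (TopB.ph P g k) =
        TopB.asm fv (fun e u => fe e u) (fun t p => ft t p) (g, k) := fun g k =>
      TopB.asm_eq_of_Phi_eq hgen hc (TopB.ph P g k).2.choose_spec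
    refine ⟨⟨f, TopB.continuous_of_ph hgen fun g => ?_⟩, fun v => hf _ _, fun e u => hf _ _,
      fun t p => hf _ _⟩
    simp only [hf]
    exact TopB.continuous_asm (fun e => (fe e).continuous) (fun t => (ft t).continuous) g

end Crest.Agent.R184
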