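import Crest.Agent.R184.CI
import Crest.Agent.R184.Global
import Crest.Agent.R184.Design
import Crest.Agent.R184.Good
import Crest.Agent.R184.TopA
import Crest.Agent.R184.TopB

/-! The construction. -/

set_option autoImplicit false

namespace Crest.Agent.R184

theorem core (p : ℕ) (hp : p.Prime) :
    ∃ (V S H : Type) (_ : Fintype V) (_ : Fintype S) (_ : Fintype H) (D : HES V S (Fin 5) H)
      (rev : H → H) (blk : S × Bool → Option (Fin 3)) (sp : Fin 4 → V) (j0 : V),
      D.IsConf rev ∧ AlgOK D p blk sp ∧ D.col j0 = 4 ∧ (D.tp rev).Aspherical ∧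
      (D.tp rev).LinIso ∧ (∀ s, (D.tp rev).gen s ≠ 1) ∧
      ∀ j, j ≠ j0 → (D.tp rev).gen (.inl j) ≠ (D.tp rev).gen (.inl j0) := by
  have hp1 : 1 < p := hp.one_lt
  set y := 3 * (p ^ 2 + p + 1) with hy
  obtain ⟨e, he⟩ := pow_unbounded_of_one_lt (1000 * y ^ 2 + 100 * p ^ 2) hp1
  set q := p ^ e with hq
  set s := q ^ 2 + q + 1 + y with hs
  obtain ⟨κ, hκ, Cq, hCq, M, hM, h1⟩ := exists_compIneq q y (by positivity) (by omega)
  set n0 := p ^ 2 * (q ^ 2 + q + 1) * (q + 1) with hn0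
  have hn0' : 0 < n0 := by positivity
  have hs1 : (1 : ℝ) ≤ s := by exact_mod_cast (by omega : 1 ≤ s)
  obtain ⟨K, η, L₁, hη, h2⟩ := diagBound_of_compIneq (CΛ := Real.log (n0 * M + 1) + 6 * Real.log s)
    hκ hCq (add_nonneg (Real.log_nonneg (by
      have : (0 : ℝ) ≤ n0 * M := by positivity
      linarith)) (mul_nonneg (by norm_num) (Real.log_nonneg hs1)))
  obtain ⟨L₀, h3⟩ := h1 K η hη
  set L := L₀ + L₁ + 1 with hL
  obtain ⟨V, S, H, _, _, _, D, blk, sp, j0, hD, hA, hj⟩ :=
    exists_design p hp e (by omega) (M * s ^ (2 * L + 4)) (by positivity)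
  obtain ⟨rev, hc, hg, hci⟩ := h3 L (by omega) V S H D _ _ hD
    (Nat.le_mul_of_pos_left _ hn0') j0
  have hb := h2 L (by omega) V S (Fin 5) H D rev j0 _
    (Real.log_nonneg (le_add_of_nonneg_left (Nat.cast_nonneg _))) ?_ hc hg hci
  · have hg1 : D.Girth rev 1 := fun w k hk => hg w k (by omega)
    obtain ⟨g1, g2, g3, g4⟩ := good_of_diagBound D hc hg1 hb
    exact ⟨V, S, H, inferInstance, inferInstance, inferInstance, D, rev, blk, sp, j0, hc, hA, hj, g1, g2, g3, g4⟩
  · have hL1 : (1 : ℝ) ≤ L := by exact_mod_cast (by omega : 1 ≤ L)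
    have hpow : (1 : ℝ) ≤ (s : ℝ) ^ (2 * L + 4) := one_le_pow₀ hs1
    have hA0 : (0 : ℝ) ≤ n0 * M := by positivity
    have hl0 : 0 ≤ Real.log (n0 * M + 1) := Real.log_nonneg (by linarith)
    have hl1 : 0 ≤ Real.log s := Real.log_nonneg hs1
    calc Real.log (((n0 * (M * s ^ (2 * L + 4)) : ℕ) : ℝ) + 1)
        ≤ Real.log ((n0 * M + 1) * (s : ℝ) ^ (2 * L + 4)) := by
          refine Real.log_le_log (by positivity) ?_
          push_cast
          nlinarith
      _ = Real.log (n0 * M + 1) + (2 * L + 4 : ℕ) * Real.log s := by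
          rw [Real.log_mul (by positivity) (by positivity), Real.log_pow]
      _ ≤ _ := by
          push_cast
          nlinarith

theorem TP.classifying {Gn R : Type} [Finite Gn] [Finite R] (P : TP Gn R) (h : P.Aspherical)
    (hgen : ∀ s, P.gen s ≠ 1) : Crest.Topology.HasFiniteClassifyingComplex P.Grp 2 := by
  obtain ⟨E, _, X, h1, h2, h3, h4, h5, h6⟩ := P.exists_model hgen
  refine h6 (X.contractible 1 (fun v => ?_) (fun A _ m hm => ?_) fun A _ o => ?_)
  · have key : ∀ g ∈ Subgroup.closure (Set.range P.gen), ∀ u,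
        Relation.EqvGen (fun a b => ∃ e, X.src e = a ∧ X.tgt e = b) u (u * g) := by
      intro g hg
      induction hg using Subgroup.closure_induction with
      | mem g hg =>
        obtain ⟨s, rfl⟩ := hg
        exact fun u => .rel _ _ ⟨(u, s), h1 _, h2 _⟩
      | one => intro u; rw [mul_one]; exact .refl _
      | mul a b _ _ ha hb => intro u; rw [← mul_assoc]; exact .trans _ _ _ (ha u) (hb _)
      | inv a _ ha => intro u; simpa using (ha (u * a⁻¹)).symm
    simpa using key v (P.closure_gen ▸ Subgroup.mem_top v) 1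
  · obtain ⟨τ, hτ⟩ := P.sc A m fun g r => by simpa [h3, h4, h5] using hm (g, r)
    exact ⟨τ, fun e => by rw [h1, h2]; exact hτ _ _⟩
  · obtain ⟨b, hb⟩ := P.spl h A o
    exact ⟨b, fun t => by rw [h3, h4, h5]; exact hb _ _⟩

end Crest.Agent.R184
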