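import Mathlib

/-!
Rows 177, 184, 199: shared definitions (do not edit).

A finite labelled graph is given by half-edges `H` (`vert`, `lett`) and an involution `rev`.
The group is the triangular presentation `c_v * σ = c_w` (one relator per edge).
-/

set_option autoImplicit false

namespace Crest.Agent.R184

open Finset

/-! ## Triangular presentations -/

/-- A presentation all of whose relators read `a * b = c`. -/
structure TP (Gn R : Type) where
  a : R → Gn
  b : R → Gn
  c : R → Gn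

namespace TP

variable {Gn R : Type} (P : TP Gn R)

/-- the relator -/
def rel (r : R) : FreeGroup Gn := .of (P.a r) * .of (P.b r) * (.of (P.c r))⁻¹

/-- the presented group -/
abbrev Grp : Type := PresentedGroup (Set.range P.rel)

/-- the generators -/
def gen (s : Gn) : P.Grp := PresentedGroup.of s

/-- the projection from the free group -/
def pr : FreeGroup Gn →* P.Grp := PresentedGroup.mk _

/-- the boundary map of the Cayley complex in degree two -/
noncomputable def bd : (P.Grp × R →₀ ℤ) →ₗ[ℤ] (P.Grp × Gn →₀ ℤ) :=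
  Finsupp.linearCombination ℤ fun x =>
    Finsupp.single (x.1, P.a x.2) 1 + Finsupp.single (x.1 * P.gen (P.a x.2), P.b x.2) 1 -
      Finsupp.single (x.1, P.c x.2) 1

/-- the 1-chain of the path starting at `g` and reading a word -/
noncomputable def pathChain : P.Grp → List (Gn × Bool) → (P.Grp × Gn →₀ ℤ)
  | _, [] => 0
  | g, (s, true) :: w => Finsupp.single (g, s) 1 + pathChain (g * P.gen s) w
  | g, (s, false) :: w => -Finsupp.single (g * (P.gen s)⁻¹, s) 1 + pathChain (g * (P.gen s)⁻¹) w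

theorem pathChain_nil (g : P.Grp) : P.pathChain g [] = 0 := by
  have := @pathChain.eq_def
  have := @pathChain.eq_2
  have := @pathChain.eq_3
  rw [pathChain]

/-- no 2-cycles in the Cayley complex -/
def Aspherical : Prop := Function.Injective P.bd

/-- linear homological isoperimetric inequality -/
def LinIso : Prop :=
  ∃ C : ℕ, ∀ w : List (Gn × Bool), P.pr (FreeGroup.mk w) = 1 →
    ∃ c : P.Grp × R →₀ ℤ, P.bd c = P.pathChain 1 w ∧ (c.sum fun _ k => k.natAbs) ≤ C * w.length

end TP

/-! ## Half-edge systems -/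

/-- the inverse letter -/
def flp {S : Type} (l : S × Bool) : S × Bool := (l.1, !l.2)

/-- Half-edges `H`, each sitting at a vertex and carrying a letter; vertices are coloured. -/
structure HES (V S C H : Type) where
  vert : H → V
  lett : H → S × Bool
  col : V → C
  inj : ∀ h h', vert h = vert h' → lett h = lett h' → h = h'

namespace HES

variable {V S C H : Type} (D : HES V S C H)

/-- `rev` pairs the half-edges into edges. -/
structure IsConf (rev : H → H) : Prop where
  invol : ∀ h, rev (rev h) = h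
  lett_rev : ∀ h, D.lett (rev h) = flp (D.lett h)
  col_rev : ∀ h, D.col (D.vert (rev h)) = D.col (D.vert h)

/-- `p 0, …, p (k-1)` is a non-backtracking walk. -/
def NB (rev : H → H) (p : ℕ → H) (k : ℕ) : Prop :=
  ∀ i, i + 1 < k → D.vert (p (i + 1)) = D.vert (rev (p i)) ∧ p (i + 1) ≠ rev (p i)

/-- no non-empty closed non-backtracking walk of length at most `g` -/
def Girth (rev : H → H) (g : ℕ) : Prop :=
  ∀ (p : ℕ → H) (k : ℕ), k < g → D.NB rev p (k + 1) → D.vert (rev (p k)) ≠ D.vert (p 0)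

/-- the vertex `v` carries the letter `l` -/
def has (v : V) (l : S × Bool) : Prop := ∃ h, D.vert h = v ∧ D.lett h = l

open Classical in
/-- the half-edges of colour `c` and letter `l` -/
noncomputable def cls [Fintype H] (c : C) (l : S × Bool) : Finset H :=
  univ.filter fun h => D.col (D.vert h) = c ∧ D.lett h = l

open Classical in
/-- the vertices of colour `c` carrying both letters -/
noncomputable def pairV [Fintype V] (c : C) (l l' : S × Bool) : Finset V :=
  univ.filter fun v => D.col v = c ∧ D.has v l ∧ D.has v l'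

open Classical in
/-- the configurations of large girth -/
noncomputable def Omega [Fintype H] (g : ℕ) : Finset (H → H) :=
  univ.filter fun rev => D.IsConf rev ∧ D.Girth rev g

/-- the triangular presentation of a configuration -/
def tp (rev : H → H) : TP (V ⊕ S) {h : H // (D.lett h).2 = true} where
  a h := .inl (D.vert h.1)
  b h := .inr (D.lett h.1).1
  c h := .inl (D.vert (rev h.1))

/-- the three sides of the triangle of a half-edge -/
def side (rev : H → H) (h : H) : Fin 3 → (V ⊕ S) × Bool :=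
  ![(.inl (D.vert h), true), (.inr (D.lett h).1, (D.lett h).2), (.inl (D.vert (rev h)), false)]

/-- the boundary word of the triangle of a half-edge -/
def tri (rev : H → H) (h : H) : List ((V ⊕ S) × Bool) :=
  [D.side rev h 0, D.side rev h 1, D.side rev h 2]

/-- the 2-chain of the triangle of `h` based at `g` -/
noncomputable def term (rev : H → H) (g : (D.tp rev).Grp) (h : H) :
    (D.tp rev).Grp × {h : H // (D.lett h).2 = true} →₀ ℤ :=
  if hb : (D.lett h).2 = true then Finsupp.single (g, ⟨h, hb⟩) 1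
  else if hb' : (D.lett (rev h)).2 = true then -Finsupp.single (g, ⟨rev h, hb'⟩) 1 else 0

end HES

/-! ## Diagrams -/

/-- darts: three per triangle, and one per boundary letter -/
abbrev Dart (T : Type) (m : ℕ) : Type := (T × Fin 3) ⊕ Fin m

/-- the next dart in the face (the outer face is read backwards) -/
def Dart.nxt {T : Type} {m : ℕ} : Dart T m → Dart T m
  | .inl (t, i) => .inl (t, i + 1)
  | .inr k => .inr ((finRotate m).symm k)

/-- The gluing `α` of the faces is planar: every mod 2 cocycle is a coboundary. -/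
def Planar {T : Type} {m : ℕ} (α : Dart T m → Dart T m) : Prop :=
  ∀ z : Dart T m → ZMod 2, (∀ d, z (α d) = z d) →
    (∀ t, z (.inl (t, 0)) + z (.inl (t, 1)) + z (.inl (t, 2)) = 0) → (∑ k, z (.inr k) = 0) →
    ∃ f : Dart T m → ZMod 2, (∀ d, f d.nxt = f d + z d) ∧ ∀ d, f (α d) = f d.nxt

/-- the label of a dart -/
def HES.lab {V S C H : Type} (D : HES V S C H) (rev : H → H) (w : List ((V ⊕ S) × Bool))
    {T : Type} (θ : T → H) : Dart T w.length → (V ⊕ S) × Bool
  | .inl (t, i) => D.side rev (θ t) i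
  | .inr k => flp (w.get k)

/-- A reduced planar diagram with boundary word `w`. -/
structure Diag {V S C H : Type} (D : HES V S C H) (rev : H → H) (w : List ((V ⊕ S) × Bool)) where
  T : Type
  [fT : Fintype T]
  [dT : DecidableEq T]
  θ : T → H
  α : Dart T w.length → Dart T w.length
  α_α : ∀ d, α (α d) = d
  α_lab : ∀ d, D.lab rev w θ (α d) = flp (D.lab rev w θ d)
  planar : Planar α
  reduced : ∀ t i t' i', α (.inl (t, i)) = .inl (t', i') → θ t' ≠ rev (θ t)

attribute [instance] Diag.fT Diag.dT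

namespace Diag

variable {V S C H : Type} {D : HES V S C H} {rev : H → H} {w : List ((V ⊕ S) × Bool)}
  (Δ : Diag D rev w)

/-- the triangle on the other side of side `i` -/
def across (i : Fin 3) (t : Δ.T) : Option Δ.T :=
  match Δ.α (.inl (t, i)) with
  | .inl (t', _) => some t'
  | .inr _ => none

/-- the next triangle around the cone vertex -/
def nx (t : Δ.T) : Option Δ.T := Δ.across 2 t

/-- the triangle across the letter side -/
def mu (t : Δ.T) : Option Δ.T := Δ.across 1 t

/-- the corner after `t` is not an interior vertex of degree two -/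
def brk (t : Δ.T) : Prop :=
  ¬ ∃ s s' t', Δ.nx t = some s ∧ Δ.mu s = some s' ∧ Δ.nx s' = some t' ∧ Δ.mu t' = some t

/-- the dual graph -/
def graph : SimpleGraph Δ.T :=
  SimpleGraph.fromRel fun t s => Δ.nx t = some s ∨ Δ.mu t = some s

end Diag

/-- What the random construction gives for diagrams. -/
structure DiagBound {V S C H : Type} (D : HES V S C H) (rev : H → H) (j0 : V) : Prop where
  lin : ∃ K : ℕ, ∀ (w : List ((V ⊕ S) × Bool)) (Δ : Diag D rev w),
    Fintype.card Δ.T ≤ K * w.length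
  letter : ∀ s : S, IsEmpty (Diag D rev [(.inr s, true)])
  root : ∀ j, j ≠ j0 → IsEmpty (Diag D rev [(.inl j0, true), (.inl j, false)])

/-! ## Clique minors -/

/-- `G` has a complete minor on `h` vertices. -/
def HasCliqueMinor {X : Type} (G : SimpleGraph X) (h : ℕ) : Prop :=
  ∃ A : Fin h → Set X, (∀ i, (A i).Nonempty) ∧
    (∀ i, ∀ x ∈ A i, ∀ y ∈ A i,
      Relation.ReflTransGen (fun u v => G.Adj u v ∧ u ∈ A i ∧ v ∈ A i) x y) ∧
    (∀ i j, i ≠ j → Disjoint (A i) (A j)) ∧
    ∀ i j, i ≠ j → ∃ x ∈ A i, ∃ y ∈ A j, G.Adj x y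

/-! ## Bounded pieces of diagrams -/

/-- At most `K` non-backtracking walks (cells) of length at most `L`, with a partial matching. -/
structure Comp {V S C H : Type} (D : HES V S C H) (rev : H → H) (K L : ℕ) (I : Type) where
  θ : I → H
  cell : I → Fin K
  idx : I → Fin L
  inj : ∀ t t', cell t = cell t' → idx t = idx t' → t = t'
  nx : I → Option I
  mu : I → Option I
  nx_inj : ∀ t t' s, nx t = some s → nx t' = some s → t = t'
  nx_spec : ∀ t s, nx t = some s → D.vert (θ s) = D.vert (rev (θ t)) ∧ θ s ≠ rev (θ t)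
  prev : ∀ s, 0 < (idx s : ℕ) → ∃ t, cell t = cell s ∧ (idx t : ℕ) + 1 = idx s ∧ nx t = some s
  mu_symm : ∀ t s, mu t = some s → mu s = some t
  mu_spec : ∀ t s, mu t = some s → D.lett (θ s) = flp (D.lett (θ t)) ∧ θ s ≠ rev (θ t)

namespace Comp

variable {V S C H : Type} {D : HES V S C H} {rev : H → H} {K L : ℕ} {I : Type}
  (c : Comp D rev K L I)

/-- `s` follows `t` in its cell -/
def succ (t s : I) : Prop := c.cell t = c.cell s ∧ (c.idx t : ℕ) + 1 = c.idx s

/-- the matching does not continue in parallel after `t` -/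
def exc (t : I) : Prop :=
  ∃ s, c.succ t s ∧ ¬ ((c.mu t = none ∧ c.mu s = none) ∨
    ∃ t' s', c.mu t = some t' ∧ c.mu s = some s' ∧ c.succ s' t')

end Comp

open Classical in
/-- The inequality satisfied by all bounded pieces. -/
def CompIneq {V S C H : Type} (D : HES V S C H) (rev : H → H) (j0 : V) (K L : ℕ)
    (κ X Λ Cq : ℝ) : Prop :=
  ∀ (I : Type) [Fintype I] (c : Comp D rev K L I),
    κ * Fintype.card I + (if ∃ t, D.vert (c.θ t) = j0 then Λ else 0) ≤
      X * ((#{t | c.exc t} : ℕ) + 1) + Λ * (#{t | c.nx t = none} : ℕ) +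
        Cq * (#{t | c.mu t = none} : ℕ)

/-! ## The design -/

open Classical in
/-- The counting properties of the design. -/
structure DesignOK {V S C H : Type} [Fintype V] [Fintype S] [Fintype H] (D : HES V S C H)
    (isY : S × Bool → Prop) (q y n : ℕ) : Prop where
  card_let : Fintype.card (S × Bool) = q ^ 2 + q + 1 + y
  card_Y : #{l | isY l} = y
  Y_flp : ∀ l, isY l → ¬ isY (flp l)
  cls_ge : ∀ c l, n ≤ (D.cls c l).card
  cls_le : ∀ c l, (D.cls c l).card ≤ n + 1
  cls_flp : ∀ c l, (D.cls c (flp l)).card = (D.cls c l).card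
  pairPP : ∀ c l l', l ≠ l' → ¬ isY l → ¬ isY l' → (q + 1) * (D.pairV c l l').card ≤ n + (q + 1)
  pairPY : ∀ c l l', ¬ isY l → isY l' → q * (D.pairV c l l').card ≤ n + q

open Classical in
/-- The congruences satisfied by the design: `blk l = none` for points of the big plane,
`blk l = some m` for points of the `m`-th small plane; `sp c` is the special vertex of colour `c`. -/
structure AlgOK {V S H : Type} [Fintype S] (D : HES V S (Fin 5) H) (p : ℕ)
    (blk : S × Bool → Option (Fin 3)) (sp : Fin 4 → V) : Prop where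
  col_sp : ∀ c, D.col (sp c) = c.castSucc
  has_sp : ∀ c l, D.has (sp c) l
  meet : ∀ u v, u ∉ Set.range sp → v ∉ Set.range sp →
    #{l | D.has u l ∧ D.has v l} ≡ 1 [MOD p]
  none_nrm : ∀ u, u ∉ Set.range sp → #{l | D.has u l ∧ blk l = none} ≡ 1 [MOD p]
  some_nrm : ∀ u m, u ∉ Set.range sp → #{l | D.has u l ∧ blk l = some m} ≡ 0 [MOD p]
  blk_card : ∀ o, #{l | blk l = o} ≡ 1 [MOD p]

/-! ## Patterns -/

/-- An abstract finite labelled graph with the data of a code for its labelling. -/
structure Pat (PE PV C : Type) where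
  J : Finset PE
  W : Finset PV
  tv : PE → PV
  hv : PE → PV
  colr : PV → C
  Rg : Finset PV
  RT : Finset PV
  h1 : PV → PE × Bool
  h2 : PV → PE × Bool
  FE : Finset PE
  FV : Finset PV
  pE : PE → PE × Bool
  pV : PV → PV
  rkE : PE → ℕ
  rkV : PV → ℕ

/-- the letter carried by a half of an edge: `false` is the tail half, `true` the head half -/
def hl {PE S : Type} (lb : PE → S × Bool) (x : PE × Bool) : S × Bool :=
  if x.2 then flp (lb x.1) else lb x.1

namespace Pat

variable {PE PV C : Type} (P : Pat PE PV C)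

/-- the vertex of a half of an edge -/
def loc (x : PE × Bool) : PV := if x.2 then P.hv x.1 else P.tv x.1

/-- well-formed patterns -/
structure WF : Prop where
  tv_mem : ∀ x ∈ P.J, P.tv x ∈ P.W
  hv_mem : ∀ x ∈ P.J, P.hv x ∈ P.W
  touch : ∀ w ∈ P.W, ∃ x ∈ P.J, P.tv x = w ∨ P.hv x = w
  Rg_sub : P.Rg ⊆ P.W
  h1_mem : ∀ w ∈ P.Rg, (P.h1 w).1 ∈ P.J ∧ P.loc (P.h1 w) = w
  h2_mem : ∀ w ∈ P.Rg, (P.h2 w).1 ∈ P.J ∧ P.loc (P.h2 w) = w
  h12 : ∀ w ∈ P.Rg, P.h1 w ≠ P.h2 w
  FE_sub : P.FE ⊆ P.J
  FV_sub : P.FV ⊆ P.Rg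
  parE : ∀ x ∈ P.J, x ∉ P.FE → (P.pE x).1 ∈ P.J ∧ P.rkE (P.pE x).1 < P.rkE x
  parV : ∀ w ∈ P.Rg, w ∉ P.FV → P.pV w ∈ P.Rg ∧ P.rkV (P.pV w) < P.rkV w

/-- marked vertices: regular vertices both of whose letters are small-plane letters -/
def mark {S : Type} (isY : S × Bool → Prop) (lb : PE → S × Bool) (w : PV) : Prop :=
  w ∈ P.Rg ∧ isY (hl lb (P.h1 w)) ∧ isY (hl lb (P.h2 w))

/-- a realisation of the pattern in a configuration -/
structure Real {V S H : Type} (D : HES V S C H) (isY : S × Bool → Prop) (j0 : V) (rev : H → H)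
    (η : PE → H) (vx : PV → V) : Prop where
  vt : ∀ x ∈ P.J, D.vert (η x) = vx (P.tv x)
  vh : ∀ x ∈ P.J, D.vert (rev (η x)) = vx (P.hv x)
  cl : ∀ w ∈ P.W, D.col (vx w) = P.colr w
  rt : ∀ w ∈ P.RT, vx w = j0
  dis : ∀ x ∈ P.J, ∀ x' ∈ P.J, x ≠ x' → η x ≠ η x' ∧ η x ≠ rev (η x')
  cE : ∀ x ∈ P.J, x ∉ P.FE → D.lett (η x) = hl (fun x => D.lett (η x)) (P.pE x)
  cV : ∀ w ∈ P.Rg, w ∉ P.FV →
    (P.mark isY (fun x => D.lett (η x)) w ↔ P.mark isY (fun x => D.lett (η x)) (P.pV w))

open Classical in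
/-- the bound for the number of images of a vertex -/
noncomputable def Nh {S : Type} (nb : S × Bool → S × Bool → ℝ) (nh : ℝ) (lb : PE → S × Bool)
    (w : PV) : ℝ :=
  if w ∈ P.RT then 1 else if w ∈ P.Rg then nb (hl lb (P.h1 w)) (hl lb (P.h2 w)) else nh

open Classical in
/-- the weight of a labelling -/
noncomputable def wt {S : Type} (isY : S × Bool → Prop) (pm : Bool → ℝ)
    (pe : Bool → S × Bool → ℝ) (nb : S × Bool → S × Bool → ℝ) (nh : ℝ) (lb : PE → S × Bool) : ℝ :=
  (∏ w ∈ P.FV, pm (decide (P.mark isY lb w))) *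
    (∏ x ∈ P.FE, pe (decide (P.mark isY lb (P.tv x) ∨ P.mark isY lb (P.hv x))) (lb x)) *
    ∏ w ∈ P.W, (P.Nh nb nh lb w)⁻¹

end Pat

/-! ## Two-dimensional cell spaces -/

/-- the model triangle, with corners `(0,0)`, `(1,0)`, `(1,1)` -/
def Tri : Set (ℝ × ℝ) := {p | 0 ≤ p.2 ∧ p.2 ≤ p.1 ∧ p.1 ≤ 1}

/-- the side from `(0,0)` to `(1,0)` -/
def Tri.s0 (u : unitInterval) : Tri := ⟨(u, 0), le_rfl, u.2.1, u.2.2⟩
/-- the side from `(1,0)` to `(1,1)` -/
def Tri.s1 (u : unitInterval) : Tri := ⟨(1, u), u.2.1, u.2.2, le_rfl⟩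
/-- the side from `(0,0)` to `(1,1)` -/
def Tri.s2 (u : unitInterval) : Tri := ⟨(u, u), u.2.1, le_rfl, u.2.2⟩

/-- `E` is glued from points, segments and triangles. -/
structure CellSp (E Vt Ed Tr : Type) [TopologicalSpace E] where
  src : Ed → Vt
  tgt : Ed → Vt
  s0 : Tr → Ed
  s1 : Tr → Ed
  s2 : Tr → Ed
  src02 : ∀ t, src (s0 t) = src (s2 t)
  tgt01 : ∀ t, tgt (s0 t) = src (s1 t)
  tgt12 : ∀ t, tgt (s1 t) = tgt (s2 t)
  pt : Vt → E
  eg : Ed → C(unitInterval, E)
  tr : Tr → C(Tri, E)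
  eg0 : ∀ e, eg e 0 = pt (src e)
  eg1 : ∀ e, eg e 1 = pt (tgt e)
  tr0 : ∀ t u, tr t (Tri.s0 u) = eg (s0 t) u
  tr1 : ∀ t u, tr t (Tri.s1 u) = eg (s1 t) u
  tr2 : ∀ t u, tr t (Tri.s2 u) = eg (s2 t) u
  cover : ∀ x, (∃ v, pt v = x) ∨ (∃ e u, eg e u = x) ∨ ∃ t p, tr t p = x
  glue : ∀ (Y : Type) [TopologicalSpace Y] (fv : Vt → Y) (fe : Ed → C(unitInterval, Y))
    (ft : Tr → C(Tri, Y)), (∀ e, fe e 0 = fv (src e)) → (∀ e, fe e 1 = fv (tgt e)) →
    (∀ t u, ft t (Tri.s0 u) = fe (s0 t) u) → (∀ t u, ft t (Tri.s1 u) = fe (s1 t) u) →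
    (∀ t u, ft t (Tri.s2 u) = fe (s2 t) u) →
    ∃ f : C(E, Y), (∀ v, f (pt v) = fv v) ∧ (∀ e u, f (eg e u) = fe e u) ∧
      ∀ t p, f (tr t p) = ft t p

end Crest.Agent.R184
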