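import Crest.Agent.R184.DetAux1

/-! Abstract computation of the determinant from the factorisation `L * M = U`. -/

set_option autoImplicit false

namespace Crest.Agent.R184

section Ring

variable {R : Type*} [Ring R]

lemma Det_isUnit_one_add {e N : R} (h1 : e * N = 0) (h2 : N * e = N) : IsUnit (1 + N) := by
  have hN : N * N = 0 := by
    calc N * N = N * e * N := by rw [h2]
      _ = N * (e * N) := by rw [mul_assoc]
      _ = 0 := by rw [h1, mul_zero]
  refine ⟨⟨1 + N, 1 - N, ?_, ?_⟩, rfl⟩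
  · calc (1 + N) * (1 - N) = 1 - N * N := by noncomm_ring
      _ = 1 := by rw [hN, sub_zero]
  · calc (1 - N) * (1 + N) = 1 - N * N := by noncomm_ring
      _ = 1 := by rw [hN, sub_zero]

lemma Det_isUnit_diag (h3 : IsUnit (3 : R)) {e Z : R} (he : e * e = e) (hZ : Z * Z = 1)
    (heZ : Z * e = e * Z) : IsUnit (1 + e * (Z - 3)) := by
  have k1 : e * Z * e = e * Z := by rw [mul_assoc, heZ, ← mul_assoc, he]
  have k2 : e * Z * (e * Z) = e := by rw [← mul_assoc, k1, mul_assoc, hZ, mul_one]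
  have k3 : e * (e * Z) = e * Z := by rw [← mul_assoc, he]
  have a1 : (1 + e * (Z - 3)) * (3 - e * (Z + 5)) = 3 := by
    calc (1 + e * (Z - 3)) * (3 - e * (Z + 5))
        = 3 + (2 : ℤ) • (e * Z) - (14 : ℤ) • e - e * Z * (e * Z) - (5 : ℤ) • (e * Z * e)
          + (3 : ℤ) • (e * (e * Z)) + (15 : ℤ) • (e * e) := by
          rw [show (3 : R) = 1 + 1 + 1 by norm_num]; noncomm_ring
      _ = 3 := by rw [k1, k2, k3, he]; noncomm_ring
  have a2 : (3 - e * (Z + 5)) * (1 + e * (Z - 3)) = 3 := by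
    calc (3 - e * (Z + 5)) * (1 + e * (Z - 3))
        = 3 + (2 : ℤ) • (e * Z) - (14 : ℤ) • e - e * Z * (e * Z) + (3 : ℤ) • (e * Z * e)
          - (5 : ℤ) • (e * (e * Z)) + (15 : ℤ) • (e * e) := by noncomm_ring
      _ = 3 := by rw [k1, k2, k3, he]; noncomm_ring
  have hc : Commute (1 + e * (Z - 3)) (3 - e * (Z + 5)) := a1.trans a2.symm
  exact (hc.isUnit_mul_iff.mp (a1.symm ▸ h3)).1

lemma Det_sq_refl {e : R} (he : e * e = e) : (2 * e - 1) * (2 * e - 1) = 1 := by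
  calc (2 * e - 1) * (2 * e - 1) = (4 : ℤ) • (e * e) - (4 : ℤ) • e + 1 := by noncomm_ring
    _ = 1 := by rw [he]; noncomm_ring

/-- The data of the factorisation. -/
structure DetData (e Z N₁ N₂ M : R) : Prop where
  he : e * e = e
  hZ : Z * Z = 1
  heZ : Z * e = e * Z
  h1 : e * N₁ = 0
  h2 : N₁ * e = N₁
  h3 : (1 - e) * N₂ = 0
  h4 : N₂ * (1 - e) = N₂
  hM : (1 + N₁) * (1 + (1 - e) * (Z - 3)) * M = (1 + N₂) * (1 + e * (Z - 3)) * (2 * e - 1)

lemma DetData.map {S : Type*} [Ring S] (f : R →+* S) {e Z N₁ N₂ M : R} (h : DetData e Z N₁ N₂ M) :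
    DetData (f e) (f Z) (f N₁) (f N₂) (f M) where
  he := by rw [← map_mul, h.he]
  hZ := by rw [← map_mul, h.hZ, map_one]
  heZ := by rw [← map_mul, h.heZ, map_mul]
  h1 := by rw [← map_mul, h.h1, map_zero]
  h2 := by rw [← map_mul, h.h2]
  h3 := by simpa using congrArg f h.h3
  h4 := by simpa using congrArg f h.h4
  hM := by
    have := congrArg f h.hM
    simpa only [map_mul, map_add, map_sub, map_one, map_ofNat] using this

lemma DetData.he' {e Z N₁ N₂ M : R} (h : DetData e Z N₁ N₂ M) : (1 - e) * (1 - e) = 1 - e := by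
  calc (1 - e) * (1 - e) = 1 - e - e + e * e := by noncomm_ring
    _ = 1 - e := by rw [h.he]; noncomm_ring

lemma DetData.heZ' {e Z N₁ N₂ M : R} (h : DetData e Z N₁ N₂ M) : Z * (1 - e) = (1 - e) * Z := by
  rw [mul_sub, sub_mul, h.heZ, mul_one, one_mul]

lemma DetData.isUnit (h3 : IsUnit (3 : R)) {e Z N₁ N₂ M : R} (h : DetData e Z N₁ N₂ M) :
    IsUnit M := by
  have u1 := Det_isUnit_one_add h.h1 h.h2
  have u2 := Det_isUnit_one_add h.h3 h.h4
  have u3 := Det_isUnit_diag h3 h.he h.hZ h.heZ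
  have u4 := Det_isUnit_diag h3 h.he' h.hZ h.heZ'
  have u5 : IsUnit (2 * e - 1) := ⟨⟨_, _, Det_sq_refl h.he, Det_sq_refl h.he⟩, rfl⟩
  have := (u2.mul u3).mul u5
  rw [← h.hM] at this
  exact ((u1.mul u4).unit.isUnit_units_mul M).mp this

end Ring

variable {A : Type*} [CStarAlgebra A]

lemma Det_isUnit_ofNat (n : ℕ) [n.AtLeastTwo] : IsUnit (OfNat.ofNat n : A) := by
  have : (OfNat.ofNat n : A) = algebraMap ℂ A (OfNat.ofNat n) := (map_ofNat _ n).symm
  rw [this]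
  exact (IsUnit.mk0 _ (OfNat.ofNat_ne_zero n)).map _

lemma DetPhi_of_sq (τ : A →L[ℝ] ℝ) (hτ : ∀ x y, τ (x * y) = τ (y * x)) {x : A}
    (hx : x * x = 1) : DetPhi τ x = 0 := by
  have hu : IsUnit x := ⟨⟨x, x, hx, hx⟩, rfl⟩
  have := DetPhi_mul τ hτ hu hu
  rw [hx, DetPhi_one] at this
  linarith

lemma DetPhi_one_add (τ : A →L[ℝ] ℝ) (hτ : ∀ x y, τ (x * y) = τ (y * x)) {e N : A}
    (he : e * e = e) (h1 : e * N = 0) (h2 : N * e = N) : DetPhi τ (1 + N) = 0 := by
  have hN : N * N = 0 := by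
    calc N * N = N * e * N := by rw [h2]
      _ = N * (e * N) := by rw [mul_assoc]
      _ = 0 := by rw [h1, mul_zero]
  have u1 := Det_isUnit_one_add h1 h2
  have u2 : IsUnit (1 + e) := by
    have a1 : (1 + e) * (2 - e) = 2 := by
      calc (1 + e) * (2 - e) = 2 + e - e * e := by
            rw [show (2 : A) = 1 + 1 by norm_num]; noncomm_ring
        _ = 2 := by rw [he]; noncomm_ring
    have a2 : (2 - e) * (1 + e) = 2 := by
      calc (2 - e) * (1 + e) = 2 + e - e * e := by noncomm_ring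
        _ = 2 := by rw [he]; noncomm_ring
    have hc : Commute (1 + e) (2 - e) := a1.trans a2.symm
    exact (hc.isUnit_mul_iff.mp (a1.symm ▸ Det_isUnit_ofNat 2)).1
  have key : (1 + N) * (1 + e) = (1 + e) * ((1 + N) * (1 + N)) := by
    calc (1 + N) * (1 + e) = 1 + e + N + N * e := by noncomm_ring
      _ = 1 + e + N + N + N * N + e * N + e * N + e * N * N := by rw [h2, hN, h1]; noncomm_ring
      _ = _ := by noncomm_ring
  have := congrArg (DetPhi τ) key
  rw [DetPhi_mul τ hτ u1 u2, DetPhi_mul τ hτ u2 (u1.mul u1), DetPhi_mul τ hτ u1 u1] at this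
  linarith

lemma Det_cfc_log_proj {p : A} (hp : IsSelfAdjoint p) (hpp : p * p = p) :
    cfc Real.log (1 + (8 : ℝ) • p) = Real.log 9 • p := by
  have hspec : ∀ t ∈ spectrum ℝ p, t = 0 ∨ t = 1 := by
    intro t ht
    have := IsIdempotentElem.spectrum_subset ℝ (p := p) hpp ht
    simpa using this
  have h1 : (1 : A) + (8 : ℝ) • p = cfc (fun t : ℝ => 1 + 8 * t) p := by
    rw [cfc_add _ _ _ (by fun_prop) (by fun_prop), cfc_const_one ℝ p hp,
      cfc_const_mul _ _ _ (by fun_prop), cfc_id' ℝ p hp]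
  have h2 : Real.log 9 • p = cfc (fun t : ℝ => Real.log 9 * t) p := by
    rw [cfc_const_mul _ _ _ (by fun_prop), cfc_id' ℝ p hp]
  rw [h1, h2, ← cfc_comp' Real.log (fun t : ℝ => 1 + 8 * t) p ?_ (by fun_prop) hp]
  · refine cfc_congr fun t ht => ?_
    rcases hspec t ht with rfl | rfl
    · simp
    · norm_num
  · refine Real.continuousOn_log.mono ?_
    rintro _ ⟨t, ht, rfl⟩
    rcases hspec t ht with rfl | rfl <;> norm_num

lemma DetPhi_diag (τ : A →L[ℝ] ℝ) {e Z : A} (he : e * e = e) (hZ : Z * Z = 1)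
    (heZ : Z * e = e * Z) (hes : IsSelfAdjoint e) (hZs : IsSelfAdjoint Z) :
    DetPhi τ (1 + e * (Z - 3)) = Real.log 9 * ((τ e - τ (e * Z)) / 2) := by
  have k1 : e * Z * e = e * Z := by rw [mul_assoc, heZ, ← mul_assoc, he]
  have k2 : e * Z * (e * Z) = e := by rw [← mul_assoc, k1, mul_assoc, hZ, mul_one]
  have k3 : e * (e * Z) = e * Z := by rw [← mul_assoc, he]
  have hq : IsSelfAdjoint (e * Z) := by
    rw [IsSelfAdjoint, star_mul, hes.star_eq, hZs.star_eq, heZ]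
  set p : A := (2⁻¹ : ℝ) • (e - e * Z) with hpdef
  have hp : IsSelfAdjoint p := (IsSelfAdjoint.all _).smul (hes.sub hq)
  have hqq : (e - e * Z) * (e - e * Z) = (2 : ℝ) • (e - e * Z) := by
    calc (e - e * Z) * (e - e * Z) = e * e - e * (e * Z) - e * Z * e + e * Z * (e * Z) := by
          noncomm_ring
      _ = _ := by rw [he, k1, k2, k3, two_smul]; noncomm_ring
  have hpp : p * p = p := by
    rw [hpdef, smul_mul_smul_comm, hqq, smul_smul]
    norm_num
  have hT : IsSelfAdjoint (1 + e * (Z - 3)) := by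
    have : 1 + e * (Z - 3) = 1 + e * Z - e - e - e := by noncomm_ring
    rw [this]
    exact ((((IsSelfAdjoint.one A).add hq).sub hes).sub hes).sub hes
  have hTT : (1 + e * (Z - 3)) * (1 + e * (Z - 3)) = 1 + (8 : ℝ) • p := by
    have : (8 : ℝ) • p = (4 : ℤ) • (e - e * Z) := by
      rw [hpdef, smul_smul, ← Int.cast_smul_eq_zsmul ℝ]
      norm_num
    rw [this]
    calc (1 + e * (Z - 3)) * (1 + e * (Z - 3))
        = 1 + (2 : ℤ) • (e * Z) - (6 : ℤ) • e + e * Z * (e * Z) - (3 : ℤ) • (e * Z * e)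
          - (3 : ℤ) • (e * (e * Z)) + (9 : ℤ) • (e * e) := by noncomm_ring
      _ = _ := by rw [he, k1, k2, k3]; noncomm_ring
  unfold DetPhi
  rw [hT.star_eq, hTT, Det_cfc_log_proj hp hpp, map_smul, hpdef, map_smul, map_sub]
  simp only [smul_eq_mul]
  ring

theorem DetData.phi_neg (τ : A →L[ℝ] ℝ) (hτ : ∀ x y, τ (x * y) = τ (y * x)) {e Z N₁ N₂ M : A}
    (h : DetData e Z N₁ N₂ M) (hes : IsSelfAdjoint e) (hZs : IsSelfAdjoint Z)
    (t1 : τ 1 = 3) (te : τ e = 1) (tZ : τ Z = 0) (teZ : τ (e * Z) = 0) :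
    DetPhi τ M < 0 := by
  have h3 : IsUnit (3 : A) := Det_isUnit_ofNat 3
  have u1 := Det_isUnit_one_add h.h1 h.h2
  have u2 := Det_isUnit_one_add h.h3 h.h4
  have u3 := Det_isUnit_diag h3 h.he h.hZ h.heZ
  have u4 := Det_isUnit_diag h3 h.he' h.hZ h.heZ'
  have u5 : IsUnit (2 * e - 1) := ⟨⟨_, _, Det_sq_refl h.he, Det_sq_refl h.he⟩, rfl⟩
  have uM := h.isUnit h3
  have := congrArg (DetPhi τ) h.hM
  rw [DetPhi_mul τ hτ (u1.mul u4) uM, DetPhi_mul τ hτ u1 u4, DetPhi_mul τ hτ (u2.mul u3) u5,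
    DetPhi_mul τ hτ u2 u3, DetPhi_one_add τ hτ h.he h.h1 h.h2,
    DetPhi_one_add τ hτ h.he' h.h3 h.h4, DetPhi_of_sq τ hτ (Det_sq_refl h.he),
    DetPhi_diag τ h.he h.hZ h.heZ hes hZs,
    DetPhi_diag τ h.he' h.hZ h.heZ' ((IsSelfAdjoint.one A).sub hes) hZs,
    sub_mul 1 e Z, one_mul, map_sub, map_sub, t1, te, tZ, teZ] at this
  have h9 : 0 < Real.log 9 := Real.log_pos (by norm_num)
  linarith

end Crest.Agent.R184
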