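import Mathlib

/-! The regular representation of matrices over `ℤ[G]` on a Hilbert space with basis `Fin n × G`,
the commutant of the right translations and its trace. -/

set_option autoImplicit false
set_option linter.unusedSectionVars false

namespace Crest.Agent.R184

section General

variable {ι H : Type*} [NormedAddCommGroup H] [InnerProductSpace ℂ H] [CompleteSpace H]
  (b : HilbertBasis ι ℂ H)

omit [CompleteSpace H] in
lemma Det_ext {S T : H →L[ℂ] H} (h : ∀ i, S (b i) = T (b i)) : S = T := by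
  refine ContinuousLinearMap.ext_on (s := Set.range b) ?_ ?_
  · exact Submodule.dense_iff_topologicalClosure_eq_top.mpr b.dense_span
  · rintro _ ⟨i, rfl⟩
    exact h i

omit [CompleteSpace H] in
lemma Det_ext_vec {x y : H} (h : ∀ i, inner ℂ (b i) x = inner ℂ (b i) y) : x = y := by
  apply b.repr.injective
  ext i
  rw [b.repr_apply_apply, b.repr_apply_apply, h]

omit [CompleteSpace H] in
lemma Det_ext_inner {S T : H →L[ℂ] H}
    (h : ∀ i j, inner ℂ (b i) (S (b j)) = inner ℂ (b i) (T (b j))) : S = T :=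
  Det_ext b fun j => Det_ext_vec b fun i => h i j

lemma Det_exists_op {v : ι → H} (hv : Orthonormal ℂ v) :
    ∃ U : H →L[ℂ] H, ∀ i, U (b i) = v i := by
  classical
  refine ⟨(hv.orthogonalFamily.linearIsometry.comp b.repr.toLinearIsometry).toContinuousLinearMap,
    fun i => ?_⟩
  simp [b.repr_self]

omit [CompleteSpace H] in
lemma Det_inner_basis [DecidableEq ι] (i j : ι) :
    inner ℂ (b i) (b j) = if i = j then (1 : ℂ) else 0 :=
  orthonormal_iff_ite.mp b.orthonormal i j

lemma Det_inner_star (S : H →L[ℂ] H) (x y : H) :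
    inner ℂ x ((star S) y) = inner ℂ (S x) y := by
  rw [ContinuousLinearMap.star_eq_adjoint, ContinuousLinearMap.adjoint_inner_right]

end General

variable {G : Type*} [Group G] {n : ℕ} {H : Type*} [NormedAddCommGroup H]
  [InnerProductSpace ℂ H] [CompleteSpace H] (b : HilbertBasis (Fin n × G) ℂ H)

lemma Det_exists_L (g : G) : ∃ U : H →L[ℂ] H, ∀ k h, U (b (k, h)) = b (k, g * h) := by
  have hv : Orthonormal ℂ (fun p : Fin n × G => b (p.1, g * p.2)) :=
    b.orthonormal.comp (fun p : Fin n × G => (p.1, g * p.2)) (by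
      rintro ⟨k, h⟩ ⟨k', h'⟩ e
      simpa using e)
  obtain ⟨U, hU⟩ := Det_exists_op b hv
  exact ⟨U, fun k h => hU (k, h)⟩

lemma Det_exists_R (g : G) : ∃ U : H →L[ℂ] H, ∀ k h, U (b (k, h)) = b (k, h * g) := by
  have hv : Orthonormal ℂ (fun p : Fin n × G => b (p.1, p.2 * g)) :=
    b.orthonormal.comp (fun p : Fin n × G => (p.1, p.2 * g)) (by
      rintro ⟨k, h⟩ ⟨k', h'⟩ e
      simpa using e)
  obtain ⟨U, hU⟩ := Det_exists_op b hv
  exact ⟨U, fun k h => hU (k, h)⟩

omit [Group G] in
lemma Det_exists_E (i j : Fin n) :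
    ∃ U : H →L[ℂ] H, ∀ k h, U (b (k, h)) = if k = j then b (i, h) else 0 := by
  classical
  have hv : Orthonormal ℂ (fun p : Fin n × G => b (Equiv.swap i j p.1, p.2)) :=
    b.orthonormal.comp (fun p : Fin n × G => (Equiv.swap i j p.1, p.2)) (by
      rintro ⟨k, h⟩ ⟨k', h'⟩ e
      simpa using e)
  have hw : Orthonormal ℂ (fun p : Fin n × G =>
      if p.1 = j then - b (Equiv.swap i j p.1, p.2) else b (Equiv.swap i j p.1, p.2)) := by
    refine hv.orthonormal_of_forall_eq_or_eq_neg fun p => ?_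
    by_cases hp : p.1 = j <;> simp [hp]
  obtain ⟨U, hU⟩ := Det_exists_op b hv
  obtain ⟨V, hV⟩ := Det_exists_op b hw
  refine ⟨(2⁻¹ : ℂ) • (U - V), fun k h => ?_⟩
  rw [smul_apply, sub_apply, hU, hV]
  by_cases hk : k = j
  · subst hk
    simp only [if_true, Equiv.swap_apply_right, sub_neg_eq_add]
    rw [← two_smul ℂ, smul_smul]
    norm_num
  · simp [hk]

/-- Left translation. -/
noncomputable def DetL : G →* (H →L[ℂ] H) where
  toFun g := (Det_exists_L b g).choose
  map_one' := Det_ext b fun ⟨k, h⟩ => by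
    rw [(Det_exists_L b 1).choose_spec]; simp
  map_mul' g g' := Det_ext b fun ⟨k, h⟩ => by
    rw [mul_apply_eq_comp, (Det_exists_L b _).choose_spec,
      (Det_exists_L b _).choose_spec, (Det_exists_L b _).choose_spec, mul_assoc]

lemma DetL_apply (g : G) (k : Fin n) (h : G) : DetL b g (b (k, h)) = b (k, g * h) :=
  (Det_exists_L b g).choose_spec k h

/-- Right translation. -/
noncomputable def DetR (g : G) : H →L[ℂ] H := (Det_exists_R b g).choose

lemma DetR_apply (g : G) (k : Fin n) (h : G) : DetR b g (b (k, h)) = b (k, h * g) :=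
  (Det_exists_R b g).choose_spec k h

/-- Matrix units. -/
noncomputable def DetE (i j : Fin n) : H →L[ℂ] H := (Det_exists_E b i j).choose

lemma DetE_apply (i j k : Fin n) (h : G) :
    DetE b i j (b (k, h)) = if k = j then b (i, h) else 0 :=
  (Det_exists_E b i j).choose_spec k h

lemma DetE_mul (i j k l : Fin n) :
    DetE b i j * DetE b k l = if j = k then DetE b i l else 0 := by
  refine Det_ext b fun ⟨m, h⟩ => ?_
  rw [mul_apply_eq_comp, DetE_apply]
  by_cases h1 : m = l <;> by_cases h2 : j = k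
  · simp [h1, h2, DetE_apply]
  · simp [h1, h2, DetE_apply, Ne.symm h2]
  · simp [h1, h2, DetE_apply]
  · simp [h1, h2]

lemma DetE_sum : ∑ i, DetE b i i = 1 := by
  refine Det_ext b fun ⟨m, h⟩ => ?_
  simp [DetE_apply]

lemma DetE_comm_L (i j : Fin n) (g : G) : DetE b i j * DetL b g = DetL b g * DetE b i j := by
  refine Det_ext b fun ⟨m, h⟩ => ?_
  rw [mul_apply_eq_comp, mul_apply_eq_comp, DetL_apply, DetE_apply,
    DetE_apply]
  by_cases h1 : m = j <;> simp [h1, DetL_apply]

/-- The left regular representation of the group ring. -/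
noncomputable def DetLam : MonoidAlgebra ℤ G →ₐ[ℤ] (H →L[ℂ] H) :=
  MonoidAlgebra.lift ℤ (H →L[ℂ] H) G (DetL b)

lemma DetLam_single (g : G) (c : ℤ) : DetLam b (MonoidAlgebra.single g c) = c • DetL b g := by
  simp [DetLam]

lemma DetE_comm_Lam (i j : Fin n) (a : MonoidAlgebra ℤ G) :
    DetE b i j * DetLam b a = DetLam b a * DetE b i j := by
  induction a using MonoidAlgebra.induction_linear with
  | zero => simp
  | add x y hx hy => rw [map_add, mul_add, add_mul, hx, hy]
  | single g c => rw [DetLam_single, mul_smul_comm, smul_mul_assoc, DetE_comm_L]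

lemma DetLam_inner (a : MonoidAlgebra ℤ G) (i j : Fin n) (g h : G) :
    inner ℂ (b (i, h)) (DetLam b a (b (j, g)))
      = if i = j then (a.coeff (h * g⁻¹) : ℂ) else 0 := by
  classical
  induction a using MonoidAlgebra.induction_linear with
  | zero => simp
  | add x y hx hy =>
    rw [map_add, add_apply, inner_add_right, hx, hy]
    by_cases hij : i = j <;> simp [hij]
  | single k c =>
    rw [DetLam_single, smul_apply, DetL_apply, ← Int.cast_smul_eq_zsmul ℂ, inner_smul_right,
      Det_inner_basis, MonoidAlgebra.coeff_single, Finsupp.single_apply]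
    by_cases hij : i = j
    · subst hij
      by_cases hk : k = h * g⁻¹
      · simp [hk]
      · have : h ≠ k * g := fun e => hk (by rw [e]; simp)
        simp [hk, this]
    · simp [hij]

/-- The representation of the matrix ring. -/
noncomputable def DetRho : Matrix (Fin n) (Fin n) (MonoidAlgebra ℤ G) →+* (H →L[ℂ] H) where
  toFun A := ∑ i, ∑ j, DetLam b (A i j) * DetE b i j
  map_one' := by
    rw [← DetE_sum b]
    refine Finset.sum_congr rfl fun i _ => ?_
    rw [Finset.sum_eq_single i]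
    · simp
    · intro j _ hj
      simp [Matrix.one_apply_ne hj.symm]
    · simp
  map_mul' A B := by
    have key : ∀ i j k l : Fin n, (DetLam b (A i j) * DetE b i j) * (DetLam b (B k l) * DetE b k l)
        = if j = k then DetLam b (A i j * B k l) * DetE b i l else 0 := by
      intro i j k l
      rw [mul_assoc, ← mul_assoc (DetE b i j), DetE_comm_Lam, mul_assoc, DetE_mul, map_mul]
      by_cases hjk : j = k <;> simp [hjk, mul_assoc]
    rw [Finset.sum_mul]
    refine Finset.sum_congr rfl fun i _ => ?_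
    rw [Finset.sum_mul]
    simp only [Finset.mul_sum, key, Matrix.mul_apply, map_sum, Finset.sum_mul]
    rw [Finset.sum_comm]
    refine Finset.sum_congr rfl fun j _ => ?_
    rw [Finset.sum_comm]
    refine Finset.sum_congr rfl fun l _ => ?_
    simp
  map_zero' := by simp
  map_add' A B := by simp [add_mul, Finset.sum_add_distrib]

lemma DetRho_inner (A : Matrix (Fin n) (Fin n) (MonoidAlgebra ℤ G)) (i j : Fin n) (g h : G) :
    inner ℂ (b (i, h)) (DetRho b A (b (j, g))) = ((A i j).coeff (h * g⁻¹) : ℂ) := by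
  change inner ℂ (b (i, h)) ((∑ i, ∑ j, DetLam b (A i j) * DetE b i j) (b (j, g))) = _
  simp only [sum_apply, mul_apply_eq_comp, DetE_apply, inner_sum]
  rw [Finset.sum_eq_single i, Finset.sum_eq_single j]
  · simp [DetLam_inner]
  · intro l _ hl
    simp [Ne.symm hl]
  · simp
  · intro k _ hk
    refine Finset.sum_eq_zero fun l _ => ?_
    by_cases hl : j = l
    · simp [hl, DetLam_inner, Ne.symm hk]
    · simp [hl]
  · simp

lemma DetR_star (g : G) : star (DetR b g) = DetR b g⁻¹ := by
  classical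
  refine Det_ext_inner b fun ⟨i, h⟩ ⟨j, k⟩ => ?_
  rw [Det_inner_star, DetR_apply, DetR_apply, Det_inner_basis, Det_inner_basis]
  simp only [Prod.mk.injEq, eq_mul_inv_iff_mul_eq]

lemma DetR_mul (g g' : G) : DetR b g * DetR b g' = DetR b (g' * g) := by
  refine Det_ext b fun ⟨i, h⟩ => ?_
  rw [mul_apply_eq_comp, DetR_apply, DetR_apply, DetR_apply, mul_assoc]

lemma DetR_one : DetR b (1 : G) = 1 := by
  refine Det_ext b fun ⟨i, h⟩ => ?_
  rw [DetR_apply]; simp

lemma DetR_inner (g : G) (i : Fin n) (h : G) (x : H) :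
    inner ℂ (b (i, h)) (DetR b g x) = inner ℂ (b (i, h * g⁻¹)) x := by
  rw [← star_star (DetR b g), Det_inner_star, DetR_star, DetR_apply]

lemma DetR_comm_Rho (g : G) (A : Matrix (Fin n) (Fin n) (MonoidAlgebra ℤ G)) :
    DetR b g * DetRho b A = DetRho b A * DetR b g := by
  refine Det_ext_inner b fun ⟨i, h⟩ ⟨j, k⟩ => ?_
  rw [mul_apply_eq_comp, mul_apply_eq_comp, DetR_inner, DetR_apply,
    DetRho_inner, DetRho_inner, mul_inv_rev, mul_assoc]

lemma DetRho_isSelfAdjoint {A : Matrix (Fin n) (Fin n) (MonoidAlgebra ℤ G)}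
    (hA : ∀ i j g, (A i j).coeff g⁻¹ = (A j i).coeff g) : IsSelfAdjoint (DetRho b A) := by
  refine Det_ext_inner b fun ⟨i, h⟩ ⟨j, k⟩ => ?_
  rw [Det_inner_star, ← inner_conj_symm, DetRho_inner, DetRho_inner, ← hA]
  simp

/-- The commutant of the right translations. -/
noncomputable def DetN : StarSubalgebra ℂ (H →L[ℂ] H) :=
  StarSubalgebra.centralizer ℂ (Set.range (DetR b))

instance DetN_isClosed : IsClosed (DetN b : Set (H →L[ℂ] H)) := Set.isClosed_centralizer _

lemma Det_mem_N {S : H →L[ℂ] H} : S ∈ DetN b ↔ ∀ g, DetR b g * S = S * DetR b g := by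
  rw [DetN, StarSubalgebra.mem_centralizer_iff]
  constructor
  · intro h g
    exact (h _ ⟨g, rfl⟩).1
  · rintro h _ ⟨g, rfl⟩
    exact ⟨h g, by rw [DetR_star]; exact h _⟩

lemma Det_inv_of_mem {S : H →L[ℂ] H} (hS : S ∈ DetN b) (i j : Fin n) (h k g : G) :
    inner ℂ (b (i, h * g)) (S (b (j, k * g))) = inner ℂ (b (i, h)) (S (b (j, k))) := by
  rw [← DetR_apply b g j k, ← mul_apply_eq_comp, ← (Det_mem_N b).mp hS g,
    mul_apply_eq_comp, DetR_inner, mul_inv_cancel_right]

lemma Det_parseval (S T : H →L[ℂ] H) (i : Fin n) :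
    inner ℂ (b (i, 1)) ((S * T) (b (i, 1)))
      = ∑ j, ∑' g : G, inner ℂ (b (i, 1)) (S (b (j, g))) * inner ℂ (b (j, g)) (T (b (i, 1))) := by
  have h1 := b.hasSum_inner_mul_inner ((star S) (b (i, 1))) (T (b (i, 1)))
  have e : ∀ y, inner ℂ ((star S) (b (i, 1))) y = inner ℂ (b (i, 1)) (S y) := by
    intro y
    rw [← Det_inner_star, star_star]
  simp only [e] at h1
  rw [mul_apply_eq_comp, ← h1.tsum_eq, h1.summable.tsum_prod, tsum_fintype]

lemma Det_trace_comm {S T : H →L[ℂ] H} (hS : S ∈ DetN b) (hT : T ∈ DetN b) :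
    ∑ i, inner ℂ (b (i, 1)) ((S * T) (b (i, 1))) = ∑ i, inner ℂ (b (i, 1)) ((T * S) (b (i, 1))) := by
  simp only [Det_parseval]
  rw [Finset.sum_comm]
  refine Finset.sum_congr rfl fun j _ => Finset.sum_congr rfl fun i _ => ?_
  rw [← (Equiv.inv G).tsum_eq]
  refine tsum_congr fun g => ?_
  have e1 := Det_inv_of_mem b hS i j 1 g⁻¹ g
  have e2 := Det_inv_of_mem b hT j i g⁻¹ 1 g
  simp only [one_mul, inv_mul_cancel] at e1 e2
  simp only [Equiv.inv_apply]
  rw [← e1, ← e2, mul_comm]

/-- The real trace on the commutant. -/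
noncomputable def DetTau : DetN b →L[ℝ] ℝ where
  toFun S := ∑ i, (inner ℂ (b (i, 1)) ((S : H →L[ℂ] H) (b (i, 1)))).re
  map_add' S T := by simp [Finset.sum_add_distrib]
  map_smul' c S := by
    simp only [RingHom.id_apply, smul_eq_mul, Finset.mul_sum]
    refine Finset.sum_congr rfl fun i _ => ?_
    have : ((c • S : DetN b) : H →L[ℂ] H) = (c : ℂ) • (S : H →L[ℂ] H) := rfl
    rw [this, smul_apply, inner_smul_right]
    simp
  cont := by fun_prop

lemma DetTau_apply (S : DetN b) :
    DetTau b S = ∑ i, (inner ℂ (b (i, 1)) ((S : H →L[ℂ] H) (b (i, 1)))).re := rfl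

lemma DetTau_comm (S T : DetN b) : DetTau b (S * T) = DetTau b (T * S) := by
  have := congrArg Complex.re (Det_trace_comm b S.2 T.2)
  simp only [Complex.re_sum] at this
  exact this

/-- The representation with values in the commutant. -/
noncomputable def DetRho' : Matrix (Fin n) (Fin n) (MonoidAlgebra ℤ G) →+* DetN b :=
  (DetRho b).codRestrict (DetN b) fun A => (Det_mem_N b).mpr fun g => DetR_comm_Rho b g A

lemma DetRho'_coe (A : Matrix (Fin n) (Fin n) (MonoidAlgebra ℤ G)) :
    (DetRho' b A : H →L[ℂ] H) = DetRho b A := rfl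

lemma DetTau_rho (A : Matrix (Fin n) (Fin n) (MonoidAlgebra ℤ G)) :
    DetTau b (DetRho' b A) = ∑ i, ((A i i).coeff 1 : ℝ) := by
  rw [DetTau_apply]
  refine Finset.sum_congr rfl fun i _ => ?_
  rw [DetRho'_coe, DetRho_inner]
  simp

lemma Det_cfc_coe (S : DetN b) (hS : IsUnit S) :
    ((cfc Real.log (star S * S) : DetN b) : H →L[ℂ] H)
      = cfc Real.log (star (S : H →L[ℂ] H) * (S : H →L[ℂ] H)) := by
  have hcont : ContinuousOn Real.log (spectrum ℝ (star S * S)) := by
    refine Real.continuousOn_log.mono fun t ht h0 => ?_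
    rw [Set.mem_singleton_iff] at h0
    subst h0
    exact (spectrum.zero_notMem_iff ℝ).mpr (hS.star.mul hS) ht
  exact (DetN b).subtype.map_cfc Real.log (star S * S) hcont continuous_subtype_val
    (IsSelfAdjoint.star_mul_self S) (IsSelfAdjoint.star_mul_self (S : H →L[ℂ] H))

end Crest.Agent.R184
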