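import Mathlib
import Crest.Prelude.Def_GroupRingDet
import Crest.Agent.R184.DetAux2
import Crest.Agent.R184.DetAux3

/-! A matrix of determinant less than one. -/

set_option autoImplicit false

namespace Crest.Agent.R184

open Crest.AlgebraR.GroupRingDet

lemma Det_data {R : Type*} [Ring R] (ζ : R) (hζ : ∀ x, ζ * x = x * ζ) (hζ2 : ζ * ζ = 1)
    (a b : Fin 2 → R) (X : Matrix (Fin 2) (Fin 2) R)
    (h : ∀ r s, a r * b s = (if r = s then 1 else 0) + (ζ - 2) * X r s) :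
    DetData (R := Matrix (Fin 3) (Fin 3) R) !![1, 0, 0; 0, 0, 0; 0, 0, 0]
      !![ζ, 0, 0; 0, ζ, 0; 0, 0, ζ] !![0, 0, 0; -a 0, 0, 0; -a 1, 0, 0]
      !![0, -b 0, -b 1; 0, 0, 0; 0, 0, 0]
      !![ζ - 2, b 0, b 1; a 0, X 0 0, X 0 1; a 1, X 1 0, X 1 1] := by
  have h1 : (1 : Matrix (Fin 3) (Fin 3) R) = !![1, 0, 0; 0, 1, 0; 0, 0, 1] := Matrix.one_fin_three
  have h2 : (2 : Matrix (Fin 3) (Fin 3) R) = !![2, 0, 0; 0, 2, 0; 0, 0, 2] := by
    rw [← one_add_one_eq_two, h1]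
    simp [one_add_one_eq_two]
  have h3 : (3 : Matrix (Fin 3) (Fin 3) R) = !![3, 0, 0; 0, 3, 0; 0, 0, 3] := by
    rw [← two_add_one_eq_three (R := Matrix (Fin 3) (Fin 3) R), h1, h2]
    simp [two_add_one_eq_three]
  have k : (1 : R) + (ζ - 3) = ζ - 2 := by
    rw [← two_add_one_eq_three]; abel
  have k2 : (2 : R) - 1 = 1 := by
    rw [← one_add_one_eq_two]; abel
  have kc : ∀ x : R, (ζ - 2) * x = x * (ζ - 2) := by
    intro x
    rw [sub_mul, mul_sub, hζ, two_mul, mul_two]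
  constructor
  · ext i j; fin_cases i <;> fin_cases j <;> simp
  · simp [h1, hζ2]
  · simp
  · ext i j; fin_cases i <;> fin_cases j <;> simp
  · ext i j; fin_cases i <;> fin_cases j <;> simp
  · rw [h1]; ext i j; fin_cases i <;> fin_cases j <;> simp
  · rw [h1]; ext i j; fin_cases i <;> fin_cases j <;> simp
  · rw [h3, h2, h1]
    simp [k, k2, h, kc]

lemma Det_logDet_neg {G : Type*} [Group G] {H : Type*} [NormedAddCommGroup H]
    [InnerProductSpace ℂ H] [CompleteSpace H] (β : HilbertBasis (Fin 3 × G) ℂ H)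
    {e Z N₁ N₂ M : Matrix (Fin 3) (Fin 3) (MonoidAlgebra ℤ G)} (hD : DetData e Z N₁ N₂ M)
    (he : ∀ i j g, (e i j).coeff g⁻¹ = (e j i).coeff g)
    (hZ : ∀ i j g, (Z i j).coeff g⁻¹ = (Z j i).coeff g)
    (te : ∑ i, ((e i i).coeff 1 : ℝ) = 1) (tZ : ∑ i, ((Z i i).coeff 1 : ℝ) = 0)
    (teZ : ∑ i, (((e * Z) i i).coeff 1 : ℝ) = 0) :
    logDet β (DetRho β M) < 0 := by
  have hA := hD.map (DetRho' β)
  have c11 : (1 : MonoidAlgebra ℤ G).coeff 1 = 1 := by
    simp [MonoidAlgebra.one_def]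
  have s1 : IsSelfAdjoint (DetRho' β e) := Subtype.ext (DetRho_isSelfAdjoint β he)
  have s2 : IsSelfAdjoint (DetRho' β Z) := Subtype.ext (DetRho_isSelfAdjoint β hZ)
  have t1 : DetTau β 1 = 3 := by
    rw [← (DetRho' β).map_one, DetTau_rho]; simp [c11]
  have t2 : DetTau β (DetRho' β e) = 1 := by rw [DetTau_rho, te]
  have t3 : DetTau β (DetRho' β Z) = 0 := by rw [DetTau_rho, tZ]
  have t4 : DetTau β (DetRho' β e * DetRho' β Z) = 0 := by
    rw [← (DetRho' β).map_mul, DetTau_rho, teZ]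
  have hneg := hA.phi_neg (DetTau β) (DetTau_comm β) s1 s2 t1 t2 t3 t4
  have hU : IsUnit (DetRho' β M) := hA.isUnit (Det_isUnit_ofNat 3)
  rw [DetPhi, DetTau_apply, Det_cfc_coe β _ hU, DetRho'_coe] at hneg
  unfold logDet opTrace
  linarith

theorem exists_logDet_neg {G : Type} [Group G] (z : G) (hz : ∀ x, z * x = x * z)
    (hz2 : z * z = 1) (hz1 : z ≠ 1) (a b : Fin 2 → MonoidAlgebra ℤ G)
    (X : Matrix (Fin 2) (Fin 2) (MonoidAlgebra ℤ G))
    (h : ∀ r s, a r * b s = (if r = s then 1 else 0) + (MonoidAlgebra.of ℤ G z - 2) * X r s) :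
    ∃ (n : ℕ) (A : Matrix (Fin n) (Fin n) (MonoidAlgebra ℤ G))
      (H : Type) (_ : NormedAddCommGroup H) (_ : InnerProductSpace ℂ H) (_ : CompleteSpace H)
      (b : HilbertBasis (Fin n × G) ℂ H) (T : H →L[ℂ] H),
      1 ≤ n ∧ IsUnit (A.map (MonoidAlgebra.mapRingHom G (Int.castRingHom ℚ))) ∧
      IsRegularRepOperator b A T ∧ logDet b T < 0 := by
  classical
  set ζ : MonoidAlgebra ℤ G := MonoidAlgebra.of ℤ G z with hζdef
  have hζ : ∀ x, ζ * x = x * ζ := by
    intro x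
    induction x using MonoidAlgebra.induction_linear with
    | zero => simp
    | add x y hx hy => rw [mul_add, add_mul, hx, hy]
    | single g c => simp [hζdef, MonoidAlgebra.single_mul_single, hz]
  have hζ2 : ζ * ζ = 1 := by rw [hζdef, ← map_mul, hz2, map_one]
  have hD := Det_data ζ hζ hζ2 a b X h
  set M : Matrix (Fin 3) (Fin 3) (MonoidAlgebra ℤ G) :=
    !![ζ - 2, b 0, b 1; a 0, X 0 0, X 0 1; a 1, X 1 0, X 1 1] with hM
  let β : HilbertBasis (Fin 3 × G) ℂ (lp (fun _ : Fin 3 × G => ℂ) 2) := default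
  refine ⟨3, M, lp (fun _ : Fin 3 × G => ℂ) 2, inferInstance, inferInstance, inferInstance, β,
    DetRho β M, by norm_num, ?_, fun i j g h => DetRho_inner β M i j g h, ?_⟩
  · have hQ := hD.map (RingHom.mapMatrix (MonoidAlgebra.mapRingHom G (Int.castRingHom ℚ)))
    refine hQ.isUnit ?_
    have : (3 : Matrix (Fin 3) (Fin 3) (MonoidAlgebra ℚ G)) = algebraMap ℚ _ 3 :=
      (map_ofNat _ 3).symm
    rw [this]
    exact (IsUnit.mk0 (3 : ℚ) (by norm_num)).map _
  · have hzinv : z⁻¹ = z := inv_eq_of_mul_eq_one_right hz2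
    have c1 : ∀ g : G, (1 : MonoidAlgebra ℤ G).coeff g⁻¹ = (1 : MonoidAlgebra ℤ G).coeff g := by
      intro g
      simp [MonoidAlgebra.one_def, Finsupp.single_apply, eq_comm]
    have cz : ∀ g : G, ζ.coeff g⁻¹ = ζ.coeff g := by
      intro g
      have : z = g⁻¹ ↔ z = g := by
        rw [← inv_eq_iff_eq_inv, hzinv]
      simp [hζdef, Finsupp.single_apply, this]
    have c11 : (1 : MonoidAlgebra ℤ G).coeff 1 = 1 := by
      simp [MonoidAlgebra.one_def]
    have cz1 : ζ.coeff 1 = 0 := by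
      simp [hζdef, hz1]
    refine Det_logDet_neg β hD (fun i j g => ?_) (fun i j g => ?_) ?_ ?_ ?_
    · fin_cases i <;> fin_cases j <;> simp [c1]
    · fin_cases i <;> fin_cases j <;> simp [cz]
    · simp [Fin.sum_univ_three, c11]
    · simp [Fin.sum_univ_three, cz1]
    · simp [Fin.sum_univ_three, cz1]

end Crest.Agent.R184
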