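import Mathlib

/-! The trace of the logarithm in a C⋆-algebra with a continuous real trace: multiplicativity. -/

set_option autoImplicit false

namespace Crest.Agent.R184

open Filter Topology

variable {A : Type*} [CStarAlgebra A]

/-- The series `∑ τ(w^(n+1))/(n+1)`. -/
noncomputable def DetG (τ : A →L[ℝ] ℝ) (w : A) : ℝ :=
  ∑' n : ℕ, ((n : ℝ) + 1)⁻¹ * τ (w ^ (n + 1))

lemma Det_norm_pow_le (x : A) (n : ℕ) : ‖x ^ n‖ ≤ ‖(1 : A)‖ * ‖x‖ ^ n := by
  induction n with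
  | zero => simp
  | succ n ih =>
    rw [pow_succ, pow_succ, ← mul_assoc]
    exact (norm_mul_le _ _).trans (mul_le_mul_of_nonneg_right ih (norm_nonneg _))

lemma Det_term_hasFDerivAt (τ : A →L[ℝ] ℝ) (hτ : ∀ x y, τ (x * y) = τ (y * x)) (n : ℕ) (w : A) :
    HasFDerivAt (fun w : A => ((n : ℝ) + 1)⁻¹ * τ (w ^ (n + 1)))
      (τ.comp (ContinuousLinearMap.mul ℝ A (w ^ n))) w := by
  have h1 := (τ.hasFDerivAt.comp w (hasFDerivAt_pow' (𝕜 := ℝ) (n + 1) (x := w))).const_mul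
    ((n : ℝ) + 1)⁻¹
  refine h1.congr_fderiv ?_
  ext h
  have hn : ((n : ℝ) + 1) ≠ 0 := by positivity
  simp only [smul_apply, ContinuousLinearMap.comp_apply,
    sum_apply, map_sum, ContinuousLinearMap.mul_apply', smul_eq_mul]
  have : ∀ i ∈ Finset.range (n + 1),
      τ (MulOpposite.op (w ^ i) • (w ^ ((n + 1).pred - i) * (ContinuousLinearMap.id ℝ A) h))
        = τ (w ^ n * h) := by
    intro i hi
    have hi' : i ≤ n := Nat.lt_succ_iff.mp (Finset.mem_range.mp hi)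
    simp only [ContinuousLinearMap.id_apply, MulOpposite.smul_eq_mul_unop, MulOpposite.unop_op,
      Nat.pred_succ]
    rw [hτ, ← mul_assoc, ← pow_add, Nat.add_sub_cancel' hi']
  rw [Finset.sum_congr rfl this]
  simp only [Finset.sum_const, Finset.card_range, nsmul_eq_mul, Nat.cast_add, Nat.cast_one]
  field_simp

lemma DetG_hasFDerivAt (τ : A →L[ℝ] ℝ) (hτ : ∀ x y, τ (x * y) = τ (y * x)) {w : A}
    (hw : ‖w‖ < 1) :
    HasFDerivAt (DetG τ) (τ.comp (ContinuousLinearMap.mul ℝ A (Ring.inverse (1 - w)))) w := by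
  obtain ⟨r, hwr, hr1⟩ := exists_between hw
  have hr0 : 0 < r := lt_of_le_of_lt (norm_nonneg _) hwr
  have hu : Summable (fun n : ℕ => ‖τ‖ * (‖(1 : A)‖ * r ^ n)) :=
    ((summable_geometric_of_lt_one hr0.le hr1).mul_left _).mul_left _
  have h := hasFDerivAt_tsum_of_isPreconnected (𝕜 := ℝ) (s := Metric.ball (0 : A) r)
    (f := fun (n : ℕ) (w : A) => ((n : ℝ) + 1)⁻¹ * τ (w ^ (n + 1)))
    (f' := fun n w => τ.comp (ContinuousLinearMap.mul ℝ A (w ^ n))) (x₀ := 0) (x := w)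
    hu Metric.isOpen_ball (convex_ball _ _).isPreconnected
    (fun n x _ => Det_term_hasFDerivAt τ hτ n x)
    (fun n x hx => by
      have hx' : ‖x‖ ≤ r := by simpa using (mem_ball_zero_iff.mp hx).le
      refine (ContinuousLinearMap.opNorm_comp_le _ _).trans ?_
      refine mul_le_mul_of_nonneg_left ?_ (norm_nonneg _)
      refine (ContinuousLinearMap.opNorm_mul_apply_le _ _ _).trans ?_
      refine (Det_norm_pow_le _ _).trans ?_
      gcongr)
    (Metric.mem_ball_self hr0) (by simp [summable_zero]) (mem_ball_zero_iff.mpr hwr)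
  refine h.congr_fderiv ?_
  have hs := hasSum_geom_series_inverse w hw
  have := ((ContinuousLinearMap.compL ℝ A A ℝ τ).comp (ContinuousLinearMap.mul ℝ A)).hasSum hs
  exact this.tsum_eq

/-- For self-adjoint `w` of norm `< 1`, `τ (log (1 - w)) = - G w`. -/
lemma Det_log_one_sub (τ : A →L[ℝ] ℝ) {w : A} (hsa : IsSelfAdjoint w) (hw : ‖w‖ < 1) :
    τ (cfc (fun t : ℝ => Real.log (1 - t)) w) = - DetG τ w := by
  obtain ⟨r, hwr, hr1⟩ := exists_between hw
  have hr0 : 0 < r := lt_of_le_of_lt (norm_nonneg _) hwr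
  have hspec : ∀ t ∈ spectrum ℝ w, |t| ≤ r := by
    intro t ht
    rcases subsingleton_or_nontrivial A with hA | hA
    · simp [spectrum.of_subsingleton] at ht
    · exact (spectrum.norm_le_norm_of_mem ht).trans hwr.le
  have hunif : TendstoUniformlyOn
      (fun (N : ℕ) (t : ℝ) => ∑ n ∈ Finset.range N, ((n : ℝ) + 1)⁻¹ * t ^ (n + 1))
      (fun t => ∑' n : ℕ, ((n : ℝ) + 1)⁻¹ * t ^ (n + 1)) atTop (spectrum ℝ w) := by
    refine tendstoUniformlyOn_tsum_nat (u := fun n => r ^ n)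
      (summable_geometric_of_lt_one hr0.le hr1) ?_
    intro n t ht
    have h1 := hspec t ht
    rw [norm_mul, norm_pow, Real.norm_eq_abs t]
    have h2 : ‖((n : ℝ) + 1)⁻¹‖ ≤ 1 := by
      rw [Real.norm_eq_abs, abs_of_pos (by positivity)]
      exact inv_le_one_of_one_le₀ (by simp)
    calc ‖((n : ℝ) + 1)⁻¹‖ * |t| ^ (n + 1) ≤ 1 * r ^ (n + 1) := by gcongr
      _ = r ^ n * r := by ring
      _ ≤ r ^ n * 1 := by gcongr
      _ = r ^ n := by ring
  have hlim := tendsto_cfc_fun (a := w) hunif (Eventually.of_forall fun N => by fun_prop)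
  have heq : cfc (fun t : ℝ => ∑' n : ℕ, ((n : ℝ) + 1)⁻¹ * t ^ (n + 1)) w
      = - cfc (fun t : ℝ => Real.log (1 - t)) w := by
    rw [← cfc_neg]
    refine cfc_congr fun t ht => ?_
    have := Real.hasSum_pow_div_log_of_abs_lt_one (x := t) ((hspec t ht).trans_lt hr1)
    rw [← this.tsum_eq]
    refine tsum_congr fun n => ?_
    rw [div_eq_inv_mul]
  have hpart : ∀ N : ℕ, τ (cfc (fun t : ℝ => ∑ n ∈ Finset.range N, ((n : ℝ) + 1)⁻¹ * t ^ (n + 1)) w)
      = ∑ n ∈ Finset.range N, ((n : ℝ) + 1)⁻¹ * τ (w ^ (n + 1)) := by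
    intro N
    have := cfc_sum (fun (n : ℕ) (t : ℝ) => ((n : ℝ) + 1)⁻¹ * t ^ (n + 1)) w (Finset.range N)
      (fun i _ => by fun_prop)
    have e : (fun t : ℝ => ∑ n ∈ Finset.range N, ((n : ℝ) + 1)⁻¹ * t ^ (n + 1))
        = ∑ n ∈ Finset.range N, fun t : ℝ => ((n : ℝ) + 1)⁻¹ * t ^ (n + 1) := by
      ext t; simp
    rw [e, this, map_sum]
    refine Finset.sum_congr rfl fun n _ => ?_
    rw [cfc_const_mul _ _ _ (by fun_prop), cfc_pow_id (R := ℝ) w (n + 1) hsa, map_smul, smul_eq_mul]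
  have hlim2 := (τ.continuous.tendsto _).comp hlim
  have hsum : Summable (fun n : ℕ => ((n : ℝ) + 1)⁻¹ * τ (w ^ (n + 1))) := by
    refine Summable.of_norm_bounded (g := fun n => ‖τ‖ * (‖(1 : A)‖ * r ^ n))
      (((summable_geometric_of_lt_one hr0.le hr1).mul_left _).mul_left _) fun n => ?_
    have h2 : ‖((n : ℝ) + 1)⁻¹‖ ≤ 1 := by
      rw [Real.norm_eq_abs, abs_of_pos (by positivity)]
      exact inv_le_one_of_one_le₀ (by simp)
    rw [norm_mul]
    calc ‖((n : ℝ) + 1)⁻¹‖ * ‖τ (w ^ (n + 1))‖ ≤ 1 * (‖τ‖ * (‖(1 : A)‖ * r ^ (n + 1))) := by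
          gcongr
          refine (τ.le_opNorm _).trans ?_
          gcongr
          refine (Det_norm_pow_le _ _).trans ?_
          gcongr
      _ = ‖τ‖ * (‖(1 : A)‖ * (r ^ n * r)) := by ring
      _ ≤ ‖τ‖ * (‖(1 : A)‖ * (r ^ n * 1)) := by gcongr
      _ = _ := by ring
  have hlim3 := hsum.hasSum.tendsto_sum_nat
  have : τ (cfc (fun t : ℝ => ∑' n : ℕ, ((n : ℝ) + 1)⁻¹ * t ^ (n + 1)) w) = DetG τ w := by
    refine tendsto_nhds_unique hlim2 ?_
    refine hlim3.congr fun N => ?_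
    exact (hpart N).symm
  rw [heq, map_neg] at this
  linarith

lemma Det_log_local (τ : A →L[ℝ] ℝ) {x : A} (hsa : IsSelfAdjoint x) {c : ℝ} (hc : 0 < c)
    (hw : ‖1 - c⁻¹ • x‖ < 1) :
    τ (cfc Real.log x) = Real.log c * τ 1 - DetG τ (1 - c⁻¹ • x) := by
  set w : A := 1 - c⁻¹ • x with hwdef
  have hwsa : IsSelfAdjoint w := by
    rw [hwdef]
    exact (IsSelfAdjoint.one A).sub ((IsSelfAdjoint.all _).smul hsa)
  have hspec : ∀ t ∈ spectrum ℝ w, 0 < 1 - t := by
    intro t ht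
    rcases subsingleton_or_nontrivial A with hA | hA
    · simp [spectrum.of_subsingleton] at ht
    · have := (spectrum.norm_le_norm_of_mem ht).trans_lt hw
      rw [Real.norm_eq_abs, abs_lt] at this
      linarith
  have hx : x = cfc (fun t : ℝ => c * (1 - t)) w := by
    rw [cfc_const_mul _ _ _ (by fun_prop), cfc_sub _ _ _ (by fun_prop) (by fun_prop),
      cfc_const_one ℝ w hwsa, cfc_id' ℝ w hwsa, hwdef]
    simp [smul_smul, hc.ne']
  have hcont : ContinuousOn (fun t : ℝ => Real.log (1 - t)) (spectrum ℝ w) :=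
    ContinuousOn.log (by fun_prop) fun t ht => (hspec t ht).ne'
  have h1 : cfc Real.log x = cfc (fun t : ℝ => Real.log c + Real.log (1 - t)) w := by
    conv_lhs => rw [hx]
    rw [← cfc_comp' Real.log (fun t : ℝ => c * (1 - t)) w ?_ (by fun_prop) hwsa]
    · refine cfc_congr fun t ht => ?_
      exact Real.log_mul hc.ne' (hspec t ht).ne'
    · refine Real.continuousOn_log.mono ?_
      rintro _ ⟨t, ht, rfl⟩
      exact (mul_pos hc (hspec t ht)).ne'
  rw [h1, cfc_const_add _ _ _ hcont hwsa, map_add, Det_log_one_sub τ hwsa hw,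
    Algebra.algebraMap_eq_smul_one, map_smul, smul_eq_mul]
  ring

section Order

variable [PartialOrder A] [StarOrderedRing A]

lemma Det_exists_scale {x : A} (hx : IsStrictlyPositive x) :
    ∃ c : ℝ, 0 < c ∧ ‖1 - c⁻¹ • x‖ < 1 := by
  refine ⟨‖x‖ + 1, by positivity, ?_⟩
  have hsa : IsSelfAdjoint x := hx.isSelfAdjoint
  have : (1 : A) - (‖x‖ + 1)⁻¹ • x = cfc (fun t : ℝ => 1 - (‖x‖ + 1)⁻¹ * t) x := by
    rw [cfc_sub _ _ _ (by fun_prop) (by fun_prop), cfc_const_one ℝ x hsa,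
      cfc_const_mul _ _ _ (by fun_prop), cfc_id' ℝ x hsa]
  rw [this]
  refine norm_cfc_lt one_pos fun t ht => ?_
  have h0 : 0 < t := hx.spectrum_pos ht
  have h1 : t ≤ ‖x‖ := by
    rcases subsingleton_or_nontrivial A with hA | hA
    · simp [spectrum.of_subsingleton] at ht
    · exact (le_abs_self t).trans (spectrum.norm_le_norm_of_mem ht)
  have h2 : 0 < (‖x‖ + 1)⁻¹ * t := by positivity
  have h3 : (‖x‖ + 1)⁻¹ * t < 1 := by
    rw [inv_mul_lt_iff₀ (by positivity)]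
    linarith
  rw [Real.norm_eq_abs, abs_lt]
  constructor <;> linarith

lemma Det_hasDerivAt (τ : A →L[ℝ] ℝ) (hτ : ∀ x y, τ (x * y) = τ (y * x)) {x d : A}
    (hx : IsSelfAdjoint x) (hd : IsSelfAdjoint d) {t₀ : ℝ} (h : IsStrictlyPositive (x + t₀ • d))
    {y : A} (hy : y * (x + t₀ • d) = 1) :
    HasDerivAt (fun t : ℝ => τ (cfc Real.log (x + t • d))) (τ (y * d)) t₀ := by
  obtain ⟨c, hc, hw⟩ := Det_exists_scale h
  have hpath : HasDerivAt (fun t : ℝ => 1 - c⁻¹ • (x + t • d)) (-(c⁻¹ • d)) t₀ := by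
    have h1 : HasDerivAt (fun t : ℝ => x + t • d) d t₀ := by
      simpa using ((hasDerivAt_id t₀).smul_const d).const_add x
    exact (h1.const_smul c⁻¹).const_sub 1
  have h2 := ((DetG_hasFDerivAt τ hτ hw).comp_hasDerivAt t₀ hpath).const_sub (Real.log c * τ 1)
  have hev : ∀ᶠ t in 𝓝 t₀, ‖1 - c⁻¹ • (x + t • d)‖ < 1 :=
    (hpath.continuousAt.norm).eventually_lt continuousAt_const hw
  have h3 : (fun t : ℝ => τ (cfc Real.log (x + t • d))) =ᶠ[𝓝 t₀]
      fun t => Real.log c * τ 1 - (DetG τ ∘ fun t : ℝ => 1 - c⁻¹ • (x + t • d)) t := by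
    filter_upwards [hev] with t ht
    exact Det_log_local τ (hx.add ((IsSelfAdjoint.all _).smul hd)) hc ht
  refine (h2.congr_of_eventuallyEq h3).congr_deriv ?_
  have hu : IsUnit (x + t₀ • d) := h.isUnit
  have hinv : Ring.inverse (1 - (1 - c⁻¹ • (x + t₀ • d))) = c • y := by
    have hu' : IsUnit (c⁻¹ • (x + t₀ • d)) := (h.smul (inv_pos.mpr hc)).isUnit
    rw [sub_sub_cancel]
    have : (c • y) * (c⁻¹ • (x + t₀ • d)) = 1 := by
      rw [smul_mul_smul_comm, mul_inv_cancel₀ hc.ne', hy, one_smul]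
    rw [← one_mul (Ring.inverse _), ← this, mul_assoc, Ring.mul_inverse_cancel _ hu', mul_one]
  rw [hinv]
  simp only [ContinuousLinearMap.comp_apply, ContinuousLinearMap.mul_apply', map_neg,
    neg_neg]
  rw [smul_mul_smul_comm, mul_inv_cancel₀ hc.ne', one_smul]

/-- `τ log (T⋆ P T) = τ log P + τ log (T⋆ T)`. -/
lemma Det_conj (τ : A →L[ℝ] ℝ) (hτ : ∀ x y, τ (x * y) = τ (y * x)) {P T : A}
    (hP : IsStrictlyPositive P) (hT : IsUnit T) :
    τ (cfc Real.log (star T * P * T)) = τ (cfc Real.log P) + τ (cfc Real.log (star T * T)) := by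
  have hPsa : IsSelfAdjoint P := hP.isSelfAdjoint
  have hd : IsSelfAdjoint (P - 1) := hPsa.sub (IsSelfAdjoint.one A)
  have hpos : ∀ t ∈ Set.Icc (0 : ℝ) 1, IsStrictlyPositive (1 + t • (P - 1)) := by
    intro t ht
    have e : 1 + t • (P - 1) = (1 - t) • (1 : A) + t • P := by
      rw [smul_sub, sub_smul, one_smul]; abel
    rw [e]
    rcases eq_or_lt_of_le ht.1 with h0 | h0
    · subst h0; simp
    · exact IsStrictlyPositive.nonneg_add (smul_nonneg (sub_nonneg.mpr ht.2) zero_le_one)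
        (hP.smul h0)
  obtain ⟨u, rfl⟩ := hT
  have hderiv : ∀ t ∈ Set.Icc (0 : ℝ) 1, HasDerivAt (fun t : ℝ =>
      τ (cfc Real.log (star (u : A) * u + t • (star (u : A) * (P - 1) * u)))
        - τ (cfc Real.log (1 + t • (P - 1)))) 0 t := by
    intro t ht
    obtain ⟨v, hv⟩ := (hpos t ht).isUnit
    have e : star (u : A) * u + t • (star (u : A) * (P - 1) * u)
        = star (u : A) * (1 + t • (P - 1)) * u := by
      simp [mul_add, add_mul]
    have h1 := Det_hasDerivAt τ hτ (x := star (u : A) * u) (d := star (u : A) * (P - 1) * u)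
      (IsSelfAdjoint.star_mul_self _) (hd.conjugate' _) (t₀ := t)
      (by rw [e]; exact (u.isUnit.isStrictlyPositive_star_left_conjugate_iff).mpr (hpos t ht))
      (y := ↑u⁻¹ * ↑v⁻¹ * star (↑u⁻¹ : A)) (by
        rw [e, ← hv]
        have : star (↑u⁻¹ : A) * star (u : A) = 1 := by rw [← star_mul]; simp
        calc (↑u⁻¹ * ↑v⁻¹ * star (↑u⁻¹ : A)) * (star (u : A) * v * u)
            = ↑u⁻¹ * (↑v⁻¹ * ((star (↑u⁻¹ : A) * star (u : A)) * v)) * u := by noncomm_ring
          _ = 1 := by rw [this]; simp)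
    have h2 := Det_hasDerivAt τ hτ (x := 1) (d := P - 1) (IsSelfAdjoint.one A) hd (t₀ := t)
      (hpos t ht) (y := ↑v⁻¹) (by rw [← hv]; simp)
    refine (h1.sub h2).congr_deriv ?_
    have : star (↑u⁻¹ : A) * star (u : A) = 1 := by rw [← star_mul]; simp
    have e2 : (↑u⁻¹ * ↑v⁻¹ * star (↑u⁻¹ : A)) * (star (u : A) * (P - 1) * u)
        = ↑u⁻¹ * ((↑v⁻¹ * (P - 1)) * u) := by
      calc (↑u⁻¹ * ↑v⁻¹ * star (↑u⁻¹ : A)) * (star (u : A) * (P - 1) * u)
          = ↑u⁻¹ * (↑v⁻¹ * ((star (↑u⁻¹ : A) * star (u : A)) * (P - 1)) * u) := by noncomm_ring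
        _ = _ := by rw [this, one_mul]
    rw [e2, hτ, mul_assoc, Units.mul_inv, mul_one, sub_self]
  have := constant_of_has_deriv_right_zero (a := 0) (b := 1)
    (fun t ht => (hderiv t ht).continuousAt.continuousWithinAt)
    (fun t ht => (hderiv t (Set.Ico_subset_Icc_self ht)).hasDerivWithinAt) 1
    (by simp)
  have e1 : star (u : A) * u + (1 : ℝ) • (star (u : A) * (P - 1) * u) = star (u : A) * P * u := by
    simp [mul_sub, sub_mul]
  have e2 : 1 + (1 : ℝ) • (P - 1) = P := by simp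
  have e3 : cfc Real.log (1 : A) = 0 := by simp
  simp only [e1, e2, zero_smul, add_zero, e3, map_zero] at this
  linarith

end Order

/-- Twice the logarithm of the determinant. -/
noncomputable def DetPhi (τ : A →L[ℝ] ℝ) (x : A) : ℝ := τ (cfc Real.log (star x * x))

lemma DetPhi_mul (τ : A →L[ℝ] ℝ) (hτ : ∀ x y, τ (x * y) = τ (y * x)) {x y : A}
    (hx : IsUnit x) (hy : IsUnit y) : DetPhi τ (x * y) = DetPhi τ x + DetPhi τ y := by
  let _ := CStarAlgebra.spectralOrder A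
  have _ := CStarAlgebra.spectralOrderedRing A
  have hP : IsStrictlyPositive (star x * x) :=
    (hx.star.mul hx).isStrictlyPositive (star_mul_self_nonneg x)
  have := Det_conj τ hτ hP hy
  unfold DetPhi
  rw [← this, star_mul]
  congr 2
  noncomm_ring

lemma DetPhi_one (τ : A →L[ℝ] ℝ) : DetPhi τ 1 = 0 := by
  simp [DetPhi]

end Crest.Agent.R184
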