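import Crest.Agent.R184.Defs

/-! Euler's inequality for planar gluings, by counting cocycles. -/

set_option autoImplicit false

namespace Crest.Agent.R184

open Finset Module

lemma Euler_card_countP {X : Type} (w : List X) (p : X → Bool) :
    #{k : Fin w.length | p (w.get k) = true} = w.countP p := by
  have h := (List.nodup_finRange w.length).card_eq_countP (P := fun k => p (w.get k) = true)
  rw [List.toFinset_finRange] at h
  rw [h]
  conv_rhs => rw [← List.map_get_finRange w, List.countP_map]
  simp [Function.comp_def]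

lemma Euler_flp_flp {S : Type} (l : S × Bool) : flp (flp l) = l := by
  simp [flp]

lemma Euler_flp_ne {S : Type} (l : S × Bool) : flp l ≠ l := by
  intro h
  have := congrArg Prod.snd h
  simp [flp] at this

lemma Euler_flp_inj {S : Type} {l l' : S × Bool} (h : flp l = flp l') : l = l' := by
  rw [← Euler_flp_flp l, h, Euler_flp_flp]

theorem Euler_abstract {T : Type} [Fintype T] {m : ℕ} (α : Dart T m → Dart T m)
    (hα : ∀ d, α (α d) = d) (hne : ∀ d, α d ≠ d) (hP : Planar α) [Nonempty (Dart T m)]
    {Q : Type} [Fintype Q] (π : Dart T m → Q)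
    (hπ : ∀ f : Dart T m → ZMod 2, (∀ d, f (α d) = f d.nxt) →
      ∃ f' : Q → ZMod 2, ∀ d, f' (π d) = f d) :
    Fintype.card T + m + 2 ≤ 2 * Fintype.card Q := by
  classical
  let r : Setoid (Dart T m) := ⟨fun d e => e = d ∨ e = α d, fun _ => Or.inl rfl,
    fun {d e} h => by
      rcases h with rfl | rfl
      · exact Or.inl rfl
      · exact Or.inr (hα d).symm,
    fun {d e f} h h' => by
      rcases h with rfl | rfl
      · exact h'
      · rcases h' with rfl | rfl
        · exact Or.inr rfl
        · exact Or.inl (hα d)⟩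
  have hE : 3 * Fintype.card T + m ≤ 2 * Fintype.card (Quotient r) := by
    have h1 := Finset.card_le_mul_card_image (f := Quotient.mk r) (univ : Finset (Dart T m)) 2
      fun q _ => by
        obtain ⟨d, rfl⟩ := Quotient.mk_surjective q
        refine (Finset.card_le_card (t := {d, α d}) fun e he => ?_).trans Finset.card_le_two
        have := Quotient.exact (Finset.mem_filter.1 he).2.symm
        simpa using (show e = d ∨ e = α d from this)
    have h2 := Finset.card_le_univ (univ.image (Quotient.mk r))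
    simp only [Finset.card_univ, Fintype.card_sum, Fintype.card_prod, Fintype.card_fin] at h1
    omega
  let ι : (Quotient r → ZMod 2) →ₗ[ZMod 2] (Dart T m → ZMod 2) :=
    LinearMap.funLeft _ _ (Quotient.mk r)
  have hι : Function.Injective ι :=
    LinearMap.funLeft_injective_of_surjective _ _ _ Quotient.mk_surjective
  let L : (Quotient r → ZMod 2) →ₗ[ZMod 2] (T → ZMod 2) :=
    LinearMap.funLeft _ _ (fun t => Quotient.mk r (.inl (t, 0))) +
      LinearMap.funLeft _ _ (fun t => Quotient.mk r (.inl (t, 1))) +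
      LinearMap.funLeft _ _ (fun t => Quotient.mk r (.inl (t, 2)))
  let δ : (Q → ZMod 2) →ₗ[ZMod 2] (Dart T m → ZMod 2) :=
    LinearMap.funLeft _ _ (fun d : Dart T m => π d.nxt) - LinearMap.funLeft _ _ π
  have h1 : (LinearMap.ker L).map ι ≤ LinearMap.range δ := by
    rintro _ ⟨z, hz, rfl⟩
    have a1 : ∀ d, ι z (α d) = ι z d := fun d =>
      congrArg z (Quotient.sound (show r (α d) d from Or.inr (hα d).symm))
    have a2 : ∀ t, ι z (.inl (t, 0)) + ι z (.inl (t, 1)) + ι z (.inl (t, 2)) = 0 := fun t =>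
      congrFun (LinearMap.mem_ker.1 hz) t
    have a3 : ∑ d, ι z d = 0 :=
      Finset.sum_involution (fun d _ => α d)
        (fun d _ => by rw [a1]; exact CharTwo.add_self_eq_zero _) (fun d _ _ => hne d)
        (fun _ _ => Finset.mem_univ _) (fun d _ => hα d)
    rw [Fintype.sum_sum_type, Fintype.sum_prod_type] at a3
    simp only [Fin.sum_univ_three, a2, Finset.sum_const_zero, zero_add] at a3
    obtain ⟨f, f1, f2⟩ := hP (ι z) a1 a2 a3
    obtain ⟨f', hf'⟩ := hπ f f2
    refine ⟨f', funext fun d => ?_⟩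
    show f' (π d.nxt) - f' (π d) = _
    rw [hf', hf', f1, add_sub_cancel_left]
  have h2 : finrank (ZMod 2) (LinearMap.ker L) = finrank (ZMod 2) ((LinearMap.ker L).map ι) :=
    (Submodule.equivMapOfInjective ι hι _).finrank_eq
  have h3 := L.finrank_range_add_finrank_ker
  have h4 := (LinearMap.range L).finrank_le
  have h5 := δ.finrank_range_add_finrank_ker
  have h6 : 0 < finrank (ZMod 2) (LinearMap.ker δ) := by
    rw [Module.finrank_pos_iff_exists_ne_zero]
    refine ⟨⟨fun _ => 1, LinearMap.mem_ker.2 (funext fun d => sub_self _)⟩, fun h => ?_⟩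
    exact one_ne_zero (congrFun (congrArg Subtype.val h) (π (Classical.arbitrary _)))
  have h7 := Submodule.finrank_mono h1
  rw [Module.finrank_fintype_fun_eq_card] at h3 h4 h5
  omega

/-- The vertices of a gluing. -/
def Euler_Vx {T : Type} {m : ℕ} (α : Dart T m → Dart T m) : Type :=
  Quot fun d e : Dart T m => ∃ x, d = α x ∧ e = x.nxt

/-- The initial vertex of a dart. -/
def Euler_vx {T : Type} {m : ℕ} (α : Dart T m → Dart T m) (d : Dart T m) : Euler_Vx α :=
  Quot.mk _ d

lemma Euler_vx_alpha {T : Type} {m : ℕ} (α : Dart T m → Dart T m) (d : Dart T m) :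
    Euler_vx α (α d) = Euler_vx α d.nxt := Quot.sound ⟨d, rfl, rfl⟩

/-- Euler's inequality with weights on the corners. -/
theorem Euler_weight {T : Type} [Fintype T] {m : ℕ} (α : Dart T m → Dart T m)
    (hα : ∀ d, α (α d) = d) (hne : ∀ d, α d ≠ d) (hP : Planar α) [Nonempty (Dart T m)]
    (wt : Dart T m → ℕ) (c : ℕ)
    (h : ∀ d, ∃ A : Finset (Dart T m), (∀ e ∈ A, Euler_vx α e = Euler_vx α d) ∧
      c ≤ ∑ e ∈ A, wt e) :
    c * (Fintype.card T + m + 2) ≤ 2 * ∑ d, wt d := by
  classical
  have : Finite (Euler_Vx α) := Finite.of_surjective (Euler_vx α) Quot.mk_surjective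
  let _ := Fintype.ofFinite (Euler_Vx α)
  have h1 := Euler_abstract α hα hne hP (Euler_vx α) fun f hf =>
    ⟨Quot.lift f (by rintro _ _ ⟨x, rfl, rfl⟩; exact hf x), fun _ => rfl⟩
  have h2 : Fintype.card (Euler_Vx α) * c ≤ ∑ d, wt d := by
    rw [← Finset.sum_fiberwise univ (Euler_vx α) wt]
    refine Finset.card_nsmul_le_sum univ _ c fun q _ => ?_
    obtain ⟨d, rfl⟩ := Quot.mk_surjective q
    obtain ⟨A, hA, hc⟩ := h d
    exact hc.trans (Finset.sum_le_sum_of_subset fun e he =>
      Finset.mem_filter.2 ⟨Finset.mem_univ _, hA e he⟩)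
  nlinarith

end Crest.Agent.R184
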