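import Crest.Agent.R184.Defs
import Crest.Agent.R184.EulerAux

/-! Local structure of diagrams and Euler's inequality. -/

set_option autoImplicit false

namespace Crest.Agent.R184

open Finset

namespace Diag

variable {V S C H : Type} {D : HES V S C H} {rev : H → H} {w : List ((V ⊕ S) × Bool)}
  (Δ : Diag D rev w)

lemma Euler_alpha_ne (d : Dart Δ.T w.length) : Δ.α d ≠ d := fun h => by
  have := Δ.α_lab d
  rw [h] at this
  exact Euler_flp_ne _ this.symm

lemma Euler_alpha_symm {d e : Dart Δ.T w.length} (h : Δ.α d = e) : Δ.α e = d := by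
  rw [← h, Δ.α_α]

lemma Euler_side2 {t s : Δ.T} {i : Fin 3} (h : Δ.α (.inl (t, 2)) = .inl (s, i)) : i = 0 := by
  have := Δ.α_lab (.inl (t, 2))
  rw [h] at this
  fin_cases i <;> simp [HES.lab, HES.side, flp] at this ⊢

lemma Euler_side1 {t s : Δ.T} {i : Fin 3} (h : Δ.α (.inl (t, 1)) = .inl (s, i)) : i = 1 := by
  have := Δ.α_lab (.inl (t, 1))
  rw [h] at this
  fin_cases i <;> simp [HES.lab, HES.side, flp] at this ⊢

lemma Euler_across_some {i : Fin 3} {t s : Δ.T} :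
    Δ.across i t = some s ↔ ∃ j, Δ.α (.inl (t, i)) = .inl (s, j) := by
  unfold across
  rcases Δ.α (.inl (t, i)) with ⟨t', j⟩ | k <;> simp

lemma Euler_across_none {i : Fin 3} {t : Δ.T} :
    Δ.across i t = none ↔ ∃ k, Δ.α (.inl (t, i)) = .inr k := by
  unfold across
  rcases Δ.α (.inl (t, i)) with ⟨t', j⟩ | k <;> simp

theorem nx_eq_some {t s : Δ.T} : Δ.nx t = some s ↔ Δ.α (.inl (t, 2)) = .inl (s, 0) := by
  unfold nx
  rw [Euler_across_some]
  exact ⟨fun ⟨j, hj⟩ => Δ.Euler_side2 hj ▸ hj, fun h => ⟨0, h⟩⟩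

theorem mu_eq_some {t s : Δ.T} : Δ.mu t = some s ↔ Δ.α (.inl (t, 1)) = .inl (s, 1) := by
  unfold mu
  rw [Euler_across_some]
  exact ⟨fun ⟨j, hj⟩ => Δ.Euler_side1 hj ▸ hj, fun h => ⟨1, h⟩⟩

theorem nx_inj {t t' s : Δ.T} (h : Δ.nx t = some s) (h' : Δ.nx t' = some s) : t = t' := by
  have h1 := Δ.Euler_alpha_symm (Δ.nx_eq_some.1 h)
  have h2 := Δ.Euler_alpha_symm (Δ.nx_eq_some.1 h')
  simpa using h1.symm.trans h2

theorem nx_spec {t s : Δ.T} (h : Δ.nx t = some s) :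
    D.vert (Δ.θ s) = D.vert (rev (Δ.θ t)) ∧ Δ.θ s ≠ rev (Δ.θ t) := by
  have h1 := Δ.nx_eq_some.1 h
  refine ⟨?_, Δ.reduced _ _ _ _ h1⟩
  have := Δ.α_lab (.inl (t, 2))
  rw [h1] at this
  simpa [HES.lab, HES.side, flp] using this

theorem mu_symm {t s : Δ.T} (h : Δ.mu t = some s) : Δ.mu s = some t := by
  exact Δ.mu_eq_some.2 (Δ.Euler_alpha_symm (Δ.mu_eq_some.1 h))

theorem mu_spec {t s : Δ.T} (h : Δ.mu t = some s) :
    D.lett (Δ.θ s) = flp (D.lett (Δ.θ t)) ∧ Δ.θ s ≠ rev (Δ.θ t) := by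
  have h1 := Δ.mu_eq_some.1 h
  refine ⟨?_, Δ.reduced _ _ _ _ h1⟩
  have := Δ.α_lab (.inl (t, 1))
  rw [h1] at this
  simp only [HES.lab, HES.side, flp, Matrix.cons_val_one, Matrix.cons_val_zero, Prod.mk.injEq,
    Sum.inr.injEq] at this
  exact Prod.ext this.1 this.2

lemma Euler_card_none (i : Fin 3) (p : (V ⊕ S) × Bool → Bool)
    (hp : ∀ h, p (D.side rev h i) = true) : #{t | Δ.across i t = none} ≤ w.countP p := by
  classical
  rw [← Euler_card_countP,
    ← Finset.card_map (Function.Embedding.inr (α := Δ.T × Fin 3) (β := Fin w.length))]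
  refine Finset.card_le_card_of_injOn (fun t => Δ.α (.inl (t, i))) (fun t ht => ?_)
    fun t _ t' _ h => ?_
  · obtain ⟨k, hk⟩ := Δ.Euler_across_none.1 (Finset.mem_filter.1 (Finset.mem_coe.1 ht)).2
    have := Δ.α_lab (.inl (t, i))
    rw [hk] at this
    have e : w.get k = D.side rev (Δ.θ t) i := Euler_flp_inj this
    refine Finset.mem_coe.2 (Finset.mem_map.2 ⟨k, Finset.mem_filter.2 ⟨Finset.mem_univ _, ?_⟩,
      hk.symm⟩)
    rw [e, hp]
  · have := congrArg Δ.α h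
    simpa [Δ.α_α] using this

/-- triangles without successor come from boundary letters `c_v⁻¹` -/
theorem card_nx_none :
    #{t | Δ.nx t = none} ≤ w.countP fun x => x.1.isLeft && !x.2 := by
  exact Δ.Euler_card_none 2 _ fun h => by simp [HES.side]

/-- unmatched triangles come from boundary letters of the second kind -/
theorem card_mu_none : #{t | Δ.mu t = none} ≤ w.countP fun x => x.1.isRight := by
  exact Δ.Euler_card_none 1 _ fun h => by simp [HES.side]

/-- if the boundary word starts with `c_v`, a triangle sits at `v` unless that boundary edge is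
glued to another boundary edge -/
theorem exists_start {v : V} (k : Fin w.length) (hk : w.get k = (.inl v, true)) :
    (∃ t, Δ.α (.inr k) = .inl (t, 0) ∧ D.vert (Δ.θ t) = v) ∨
      ∃ k' : Fin w.length, w.get k' = (.inl v, false) := by
  have h1 := Δ.α_lab (.inr k)
  have h2 : D.lab rev w Δ.θ (.inr k) = flp (w.get k) := rfl
  rw [h2, Euler_flp_flp, hk] at h1
  rcases h : Δ.α (.inr k) with ⟨t, i⟩ | k'
  · rw [h] at h1
    left
    fin_cases i
    · exact ⟨t, rfl, by simpa [HES.lab, HES.side] using h1⟩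
    · simp [HES.lab, HES.side] at h1
    · simp [HES.lab, HES.side] at h1
  · rw [h] at h1
    exact Or.inr ⟨k', Euler_flp_inj h1⟩

/-- A non-empty set of triangles closed under `nx` has more than `g` elements. -/
lemma Euler_chain {g : ℕ} (hg : D.Girth rev g) (A : Finset Δ.T) {t₀ : Δ.T} (h₀ : t₀ ∈ A)
    (h : ∀ t ∈ A, ∃ s ∈ A, Δ.nx t = some s) : g + 1 ≤ #A := by
  choose F hF hF' using h
  let G : A → A := fun t => ⟨F t.1 t.2, hF t.1 t.2⟩
  let τ : ℕ → Δ.T := fun n => (G^[n] ⟨t₀, h₀⟩).1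
  have h1 : ∀ n, Δ.nx (τ n) = some (τ (n + 1)) := fun n => by
    simp only [τ, Function.iterate_succ_apply']
    exact hF' _ _
  have h2 : ∀ i j, i < j → j ≤ g → τ i ≠ τ j := by
    intro i j hij hj e
    obtain ⟨k, rfl⟩ := Nat.exists_eq_add_of_lt hij
    refine hg (fun n => Δ.θ (τ (i + n))) k (by omega) (fun n _ => Δ.nx_spec (h1 (i + n))) ?_
    rw [← (Δ.nx_spec (h1 (i + k))).1, ← e]
    rfl
  rw [← Finset.card_range (g + 1)]
  refine Finset.card_le_card_of_injOn τ (fun n _ => (G^[n] ⟨t₀, h₀⟩).2) fun i hi j hj e => ?_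
  have hi' : i < g + 1 := by simpa using hi
  have hj' : j < g + 1 := by simpa using hj
  rcases lt_trichotomy i j with h3 | h3 | h3
  · exact absurd e (h2 i j h3 (by omega))
  · exact h3
  · exact absurd e.symm (h2 j i h3 (by omega))

/-- a small diagram in which every triangle has a successor is empty -/
theorem isEmpty_of_nx {g : ℕ} (hg : D.Girth rev g) (hT : Fintype.card Δ.T ≤ g)
    (h : ∀ t, Δ.nx t ≠ none) : IsEmpty Δ.T := by
  refine ⟨fun t₀ => ?_⟩
  have := Δ.Euler_chain hg univ (Finset.mem_univ t₀) fun t _ => by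
    obtain ⟨s, hs⟩ := Option.ne_none_iff_exists'.1 (h t)
    exact ⟨s, Finset.mem_univ _, hs⟩
  rw [Finset.card_univ] at this
  omega

lemma Euler_vx_turn (d : Dart Δ.T w.length) : Euler_vx Δ.α (Δ.α d).nxt = Euler_vx Δ.α d := by
  rw [← Euler_vx_alpha, Δ.α_α]

/-- An interior cone vertex has more than `g` corners. -/
lemma Euler_cone {g : ℕ} (hg : D.Girth rev g) {q : Euler_Vx Δ.α}
    (hq : ∀ k, Euler_vx Δ.α (.inr k) ≠ q) {t : Δ.T} (ht : Euler_vx Δ.α (.inl (t, 0)) = q) :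
    ∃ A : Finset Δ.T, (∀ s ∈ A, Euler_vx Δ.α (.inl (s, 0)) = q) ∧ g + 1 ≤ #A := by
  classical
  refine ⟨univ.filter fun s => Euler_vx Δ.α (.inl (s, 0)) = q, fun s hs => (Finset.mem_filter.1 hs).2,
    Δ.Euler_chain hg _ (t₀ := t) (by simpa using ht) fun s hs => ?_⟩
  have h1 : Euler_vx Δ.α (Δ.α (.inl (s, 2))) = q :=
    (Euler_vx_alpha Δ.α _).trans (Finset.mem_filter.1 hs).2
  rcases h : Δ.nx s with _ | s'
  · obtain ⟨k, hk⟩ := Δ.Euler_across_none.1 h
    rw [hk] at h1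
    exact absurd h1 (hq k)
  · rw [Δ.nx_eq_some.1 h] at h1
    exact ⟨s', by simpa using h1, rfl⟩

lemma Euler_one {q : Euler_Vx Δ.α} (hq : ∀ k, Euler_vx Δ.α (.inr k) ≠ q) {t : Δ.T}
    (ht : Euler_vx Δ.α (.inl (t, 1)) = q) :
    ∃ s, Δ.mu t = some s ∧ Euler_vx Δ.α (.inl (s, 2)) = q := by
  have h1 := (Δ.Euler_vx_turn _).trans ht
  rcases h : Δ.mu t with _ | s
  · obtain ⟨k, hk⟩ := Δ.Euler_across_none.1 h
    rw [hk] at h1
    exact absurd h1 (hq _)
  · rw [Δ.mu_eq_some.1 h] at h1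
    exact ⟨s, rfl, h1⟩

lemma Euler_two (hc : D.IsConf rev) {q : Euler_Vx Δ.α} (hq : ∀ k, Euler_vx Δ.α (.inr k) ≠ q)
    {t : Δ.T} (ht : Euler_vx Δ.α (.inl (t, 2)) = q) :
    ∃ s s', Δ.nx t = some s ∧ Δ.mu s = some s' ∧ s' ≠ t ∧ Euler_vx Δ.α (.inl (s', 2)) = q := by
  have h1 := (Δ.Euler_vx_turn _).trans ht
  rcases h : Δ.nx t with _ | s
  · obtain ⟨k, hk⟩ := Δ.Euler_across_none.1 h
    rw [hk] at h1
    exact absurd h1 (hq _)
  · rw [Δ.nx_eq_some.1 h] at h1
    obtain ⟨s', h2, h3⟩ := Δ.Euler_one hq h1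
    refine ⟨s, s', rfl, h2, ?_, h3⟩
    rintro rfl
    refine (Δ.nx_spec h).2 (D.inj _ _ (Δ.nx_spec h).1 ?_)
    rw [hc.lett_rev]
    exact (Δ.mu_spec (Δ.mu_symm h2)).1

/-- The three kinds of vertices. -/
lemma Euler_cases (d : Dart Δ.T w.length) :
    (∃ k, Euler_vx Δ.α (.inr k) = Euler_vx Δ.α d) ∨
      ((∀ k, Euler_vx Δ.α (.inr k) ≠ Euler_vx Δ.α d) ∧
        ((∃ t, Euler_vx Δ.α (.inl (t, 0)) = Euler_vx Δ.α d) ∨
          ∃ t, Euler_vx Δ.α (.inl (t, 2)) = Euler_vx Δ.α d)) := by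
  by_cases hq : ∃ k, Euler_vx Δ.α (.inr k) = Euler_vx Δ.α d
  · exact Or.inl hq
  · have hq' := not_exists.1 hq
    refine Or.inr ⟨hq', ?_⟩
    rcases d with ⟨t, i⟩ | k
    · fin_cases i
      · exact Or.inl ⟨t, rfl⟩
      · obtain ⟨s, -, hs⟩ := Δ.Euler_one hq' (t := t) rfl
        exact Or.inr ⟨s, hs⟩
      · exact Or.inr ⟨t, rfl⟩
    · exact absurd rfl (hq' k)

/-- The corners of type `i`. -/
def Euler_emb (i : Fin 3) : Δ.T ↪ Dart Δ.T w.length :=
  ⟨fun t => .inl (t, i), fun _ _ h => by simpa using h⟩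

/-- Euler's inequality with weights depending on the kind of corner. -/
lemma Euler_main [Nonempty Δ.T] (c : ℕ) (a b : Δ.T → ℕ)
    (ha : ∀ (q : Euler_Vx Δ.α) (t : Δ.T), (∀ k, Euler_vx Δ.α (.inr k) ≠ q) →
      Euler_vx Δ.α (.inl (t, 0)) = q →
      ∃ A : Finset Δ.T, (∀ s ∈ A, Euler_vx Δ.α (.inl (s, 0)) = q) ∧ c ≤ ∑ s ∈ A, a s)
    (hb : ∀ (q : Euler_Vx Δ.α) (t : Δ.T), (∀ k, Euler_vx Δ.α (.inr k) ≠ q) →
      Euler_vx Δ.α (.inl (t, 2)) = q →
      ∃ A : Finset Δ.T, (∀ s ∈ A, Euler_vx Δ.α (.inl (s, 2)) = q) ∧ c ≤ ∑ s ∈ A, b s) :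
    c * (Fintype.card Δ.T + w.length + 2) ≤ 2 * (∑ t, a t + ∑ t, b t + w.length * c) := by
  have : Nonempty (Dart Δ.T w.length) := ⟨.inl (Classical.arbitrary _, 0)⟩
  have h := Euler_weight Δ.α Δ.α_α Δ.Euler_alpha_ne Δ.planar
    (Sum.elim (fun x => ![a x.1, 0, b x.1] x.2) fun _ => c) c fun d => by
      rcases Δ.Euler_cases d with ⟨k, hk⟩ | ⟨hq, ⟨t, ht⟩ | ⟨t, ht⟩⟩
      · exact ⟨{.inr k}, by simpa using hk, by simp⟩
      · obtain ⟨A, h1, h2⟩ := ha _ t hq ht
        refine ⟨A.map (Δ.Euler_emb 0), fun e he => ?_, by rw [Finset.sum_map]; exact h2⟩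
        obtain ⟨s, hs, rfl⟩ := Finset.mem_map.1 he
        exact h1 s hs
      · obtain ⟨A, h1, h2⟩ := hb _ t hq ht
        refine ⟨A.map (Δ.Euler_emb 2), fun e he => ?_, by rw [Finset.sum_map]; exact h2⟩
        obtain ⟨s, hs, rfl⟩ := Finset.mem_map.1 he
        exact h1 s hs
  rw [Fintype.sum_sum_type, Fintype.sum_prod_type] at h
  simpa [Fin.sum_univ_three, Finset.sum_add_distrib] using h

open Classical in
theorem euler (hc : D.IsConf rev) {g : ℕ} (hg : D.Girth rev g) :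
    g * #{t | Δ.brk t} ≤ 6 * Fintype.card Δ.T + g * (3 * w.length + 6) := by
  rcases isEmpty_or_nonempty Δ.T with hT | hT
  · simp
  have h := Δ.Euler_main (6 * g) (fun _ => 6) (fun t => if Δ.brk t then 2 * g else 3 * g)
    (fun q t hq ht => by
      obtain ⟨A, h1, h2⟩ := Δ.Euler_cone hg hq ht
      refine ⟨A, h1, ?_⟩
      rw [Finset.sum_const, smul_eq_mul]
      omega)
    (fun q t hq ht => by
      obtain ⟨s, s', a1, a2, a3, a4⟩ := Δ.Euler_two hc hq ht
      obtain ⟨u, u', b1, b2, b3, b4⟩ := Δ.Euler_two hc hq a4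
      by_cases e : u' = t
      · subst e
        refine ⟨{s', u'}, by simp [ht, a4], ?_⟩
        have c1 : ¬ Δ.brk s' := fun h => h ⟨u, u', s, b1, b2, a1, a2⟩
        have c2 : ¬ Δ.brk u' := fun h => h ⟨s, s', u, a1, a2, b1, b2⟩
        rw [Finset.sum_pair a3, if_neg c1, if_neg c2]
        omega
      · refine ⟨{t, s', u'}, by simp [ht, a4, b4], ?_⟩
        rw [Finset.sum_insert (by simp [a3.symm, Ne.symm e]), Finset.sum_pair b3.symm]
        split_ifs <;> omega)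
  have h2 : ∑ t, (if Δ.brk t then 2 * g else 3 * g) + g * #{t | Δ.brk t} =
      Fintype.card Δ.T * (3 * g) := by
    rw [Finset.card_filter, Finset.mul_sum, ← Finset.sum_add_distrib, ← Finset.card_univ]
    refine Finset.sum_const_nat fun t _ => ?_
    split_ifs <;> omega
  rw [Finset.sum_const, Finset.card_univ, smul_eq_mul] at h
  nlinarith

end Diag

theorem Diag.euler_root {V S C H : Type} {D : HES V S C H} {rev : H → H} (hc : D.IsConf rev)
    {g : ℕ} (hg : D.Girth rev g) {j0 j : V} (Δ : Diag D rev [(.inl j0, true), (.inl j, false)])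
    (hT : Fintype.card Δ.T ≤ g) : j = j0 := by
  have hE : IsEmpty Δ.T := by
    refine Δ.isEmpty_of_nx hg hT fun t₀ h₀ => ?_
    have : Nonempty Δ.T := ⟨t₀⟩
    have h := Δ.Euler_main 2 (fun _ => 0) (fun t => if t = t₀ then 0 else 1)
      (fun q t hq ht => by
        obtain ⟨A, -, h2⟩ := Δ.Euler_cone hg hq ht
        have := Finset.card_le_univ A
        omega)
      (fun q t hq ht => by
        obtain ⟨s, s', a1, a2, a3, a4⟩ := Δ.Euler_two hc hq ht
        obtain ⟨u, u', b1, b2, b3, b4⟩ := Δ.Euler_two hc hq a4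
        refine ⟨{s', t}, by simp [ht, a4], ?_⟩
        rw [Finset.sum_pair a3, if_neg (by rintro rfl; simp [h₀] at b1),
          if_neg (by rintro rfl; simp [h₀] at a1)])
    have h2 : ∑ t, (if t = t₀ then 0 else 1) + 1 = Fintype.card Δ.T := by
      have h3 : ∑ t : Δ.T, (if t = t₀ then 1 else 0) = 1 := by simp
      have h4 : ∑ t : Δ.T, ((if t = t₀ then 0 else 1) + if t = t₀ then 1 else 0) =
          #(univ : Finset Δ.T) * 1 := Finset.sum_const_nat fun t _ => by split_ifs <;> rfl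
      rwa [Finset.sum_add_distrib, h3, mul_one] at h4
    simp only [Finset.sum_const_zero, List.length_cons, List.length_nil] at h
    omega
  rcases Δ.exists_start (v := j0) ⟨0, by simp⟩ rfl with ⟨t, -⟩ | ⟨k, hk⟩
  · exact hE.elim t
  · fin_cases k
    · simp at hk
    · simpa using hk

theorem Diag.not_letter {V S C H : Type} {D : HES V S C H} {rev : H → H}
    {g : ℕ} (hg : D.Girth rev g) {s : S} (Δ : Diag D rev [(.inr s, true)])
    (hT : Fintype.card Δ.T ≤ g) : False := by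
  have hE : IsEmpty Δ.T := by
    refine Δ.isEmpty_of_nx hg hT fun t₀ h₀ => ?_
    have h := Δ.card_nx_none
    have h1 : 0 < #{t | Δ.nx t = none} := Finset.card_pos.2 ⟨t₀, by simpa using h₀⟩
    exact absurd (h1.trans_le h) (by simp)
  refine Δ.Euler_alpha_ne (.inr ⟨0, by simp⟩) ?_
  rcases Δ.α (.inr ⟨0, by simp⟩) with ⟨t, i⟩ | k
  · exact hE.elim t
  · congr 1
    exact Subsingleton.elim (α := Fin 1) _ _

end Crest.Agent.R184
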