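import Crest.Agent.R184.Defs

/-! Algebraic consequences of asphericity for triangular presentations. -/

set_option autoImplicit false

namespace Crest.Agent.R184.TP

variable {Gn R : Type} (P : TP Gn R)

theorem gen_rel (r : R) : P.gen (P.a r) * P.gen (P.b r) = P.gen (P.c r) := by
  have h : PresentedGroup.mk (Set.range P.rel) (P.rel r) = 1 :=
    PresentedGroup.one_of_mem ⟨r, rfl⟩
  rw [rel, map_mul, map_mul, map_inv, mul_inv_eq_one] at h
  exact h

theorem closure_gen : Subgroup.closure (Set.range P.gen) = ⊤ :=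
  PresentedGroup.closure_range_of _

/-- the skew right multiplication by a generator -/
def foxSig {A : Type} [Group A] (m : P.Grp × Gn → A) (s : Gn) : Equiv.Perm (P.Grp × A) where
  toFun p := (p.1 * P.gen s, p.2 * m (p.1, s))
  invFun p := (p.1 * (P.gen s)⁻¹, p.2 * (m (p.1 * (P.gen s)⁻¹, s))⁻¹)
  left_inv p := by simp
  right_inv p := by simp

theorem foxSig_apply {A : Type} [Group A] (m : P.Grp × Gn → A) (s : Gn) (p : P.Grp × A) :
    P.foxSig m s p = (p.1 * P.gen s, p.2 * m (p.1, s)) := rfl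

/-- permutations covering a right translation -/
def foxCov (A : Type) : Subgroup (Equiv.Perm (P.Grp × A)) where
  carrier := {x | ∃ u : P.Grp, ∀ p, (x p).1 = p.1 * u}
  one_mem' := ⟨1, fun p => by simp⟩
  mul_mem' := fun {x y} ⟨u, hu⟩ ⟨v, hv⟩ => ⟨v * u, fun p => by
    rw [Equiv.Perm.mul_apply, hu, hv, mul_assoc]⟩
  inv_mem' := fun {x} ⟨u, hu⟩ => ⟨u⁻¹, fun p => by
    have : p.1 = (x⁻¹ p).1 * u := by simpa using hu (x⁻¹ p)
    rw [this, mul_inv_cancel_right]⟩

/-- the covered translation -/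
def foxPi (A : Type) [Group A] : P.foxCov A →* P.Grp where
  toFun x := ((x.1 (1, 1)).1)⁻¹
  map_one' := by simp
  map_mul' x y := by
    obtain ⟨u, hu⟩ := x.2
    obtain ⟨v, hv⟩ := y.2
    simp [hu, hv]

theorem foxSig_inv_mem {A : Type} [Group A] (m : P.Grp × Gn → A) (s : Gn) :
    (P.foxSig m s)⁻¹ ∈ P.foxCov A :=
  (P.foxCov A).inv_mem ⟨P.gen s, fun _ => rfl⟩

theorem foxPi_sig {A : Type} [Group A] (m : P.Grp × Gn → A) (s : Gn) :
    P.foxPi A ⟨_, P.foxSig_inv_mem m s⟩ = P.gen s := by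
  change ((1 : P.Grp) * (P.gen s)⁻¹)⁻¹ = _
  simp

/-- the Cayley complex is simply connected -/
theorem sc (A : Type) [Group A] (m : P.Grp × Gn → A)
    (hm : ∀ g r, m (g, P.a r) * m (g * P.gen (P.a r), P.b r) = m (g, P.c r)) :
    ∃ τ : P.Grp → A, ∀ g s, τ g * m (g, s) = τ (g * P.gen s) := by
  let f : Gn → P.foxCov A := fun s => ⟨_, P.foxSig_inv_mem m s⟩
  have hf : ∀ r ∈ Set.range P.rel, FreeGroup.lift f r = 1 := by
    rintro _ ⟨r, rfl⟩
    simp only [rel, map_mul, map_inv, FreeGroup.lift_apply_of, mul_inv_eq_one]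
    apply Subtype.ext
    change (P.foxSig m _)⁻¹ * (P.foxSig m _)⁻¹ = (P.foxSig m _)⁻¹
    rw [← mul_inv_rev, inv_inj]
    ext p : 1
    simp only [Equiv.Perm.mul_apply, foxSig_apply, mul_assoc, hm, gen_rel]
  let φ : P.Grp →* P.foxCov A := PresentedGroup.toGroup hf
  have hφ : ∀ s, φ (P.gen s) = f s := fun s => PresentedGroup.toGroup.of hf
  have h1 : (P.foxPi A).comp φ = MonoidHom.id _ := by
    refine PresentedGroup.ext fun s => ?_
    change P.foxPi A (φ (P.gen s)) = P.gen s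
    rw [hφ]
    exact P.foxPi_sig m s
  have h2 : ∀ g, ((φ g⁻¹).1 (1, 1)).1 = g := fun g => by
    have := DFunLike.congr_fun h1 g⁻¹
    exact inv_injective this
  refine ⟨fun g => ((φ g⁻¹).1 (1, 1)).2, fun g s => ?_⟩
  simp only [mul_inv_rev, map_mul]
  rw [map_inv φ (P.gen s), hφ]
  change _ = ((P.foxSig m s)⁻¹⁻¹ ((φ g⁻¹).1 (1, 1))).2
  rw [inv_inv, foxSig_apply, h2]

theorem fox_bd_single (g : P.Grp) (r : R) : P.bd (Finsupp.single (g, r) 1) =
    Finsupp.single (g, P.a r) 1 + Finsupp.single (g * P.gen (P.a r), P.b r) 1 -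
      Finsupp.single (g, P.c r) 1 := by
  simp [bd]

theorem fox_exists_tau : ∃ τ : P.Grp → (P.Grp × Gn →₀ ℤ) ⧸ LinearMap.range P.bd,
    ∀ g s, τ g + (LinearMap.range P.bd).mkQ (Finsupp.single (g, s) 1) = τ (g * P.gen s) := by
  obtain ⟨τ, hτ⟩ := P.sc (Multiplicative ((P.Grp × Gn →₀ ℤ) ⧸ LinearMap.range P.bd))
    (fun x => Multiplicative.ofAdd ((LinearMap.range P.bd).mkQ (Finsupp.single x 1)))
    (fun g r => by
      rw [← ofAdd_add, ← map_add]
      congr 1
      rw [Submodule.mkQ_apply, Submodule.mkQ_apply, Submodule.Quotient.eq]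
      exact ⟨_, P.fox_bd_single g r⟩)
  exact ⟨fun g => (τ g).toAdd, fun g s => congrArg Multiplicative.toAdd (hτ g s)⟩

/-- every 2-cochain is a coboundary -/
theorem spl (h : P.Aspherical) (A : Type) [AddCommGroup A] (o : P.Grp × R → A) :
    ∃ b : P.Grp × Gn → A,
      ∀ g r, b (g, P.a r) + b (g * P.gen (P.a r), P.b r) - b (g, P.c r) = o (g, r) := by
  obtain ⟨τ, hτ⟩ := P.fox_exists_tau
  choose t ht using fun g => (LinearMap.range P.bd).mkQ_surjective (τ g)
  have h1 : ∀ x : P.Grp × Gn, ∃ c, P.bd c = t x.1 + Finsupp.single x 1 - t (x.1 * P.gen x.2) := by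
    rintro ⟨g, s⟩
    rw [← LinearMap.mem_range, ← Submodule.Quotient.mk_eq_zero, ← Submodule.mkQ_apply, map_sub,
      map_add, ht, ht, hτ, sub_self]
  choose ρ hρ using h1
  refine ⟨fun x => Finsupp.linearCombination ℤ o (ρ x), fun g r => ?_⟩
  have h2 : ρ (g, P.a r) + ρ (g * P.gen (P.a r), P.b r) - ρ (g, P.c r)
      = Finsupp.single (g, r) 1 := by
    apply h
    rw [map_sub, map_add, hρ, hρ, hρ, fox_bd_single]
    simp only [mul_assoc, gen_rel]
    abel
  rw [← map_add, ← map_sub, h2]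
  simp

/-- the boundary map in degree one -/
noncomputable def foxBd1 : (P.Grp × Gn →₀ ℤ) →ₗ[ℤ] (P.Grp × Unit →₀ ℤ) :=
  Finsupp.linearCombination ℤ fun x =>
    Finsupp.single (x.1 * P.gen x.2, ()) 1 - Finsupp.single (x.1, ()) 1

theorem foxBd1_single (g : P.Grp) (s : Gn) : P.foxBd1 (Finsupp.single (g, s) 1) =
    Finsupp.single (g * P.gen s, ()) 1 - Finsupp.single (g, ()) 1 := by
  simp [foxBd1]

theorem fox_bd1_bd (c : P.Grp × R →₀ ℤ) : P.foxBd1 (P.bd c) = 0 := by
  have : P.foxBd1.comp P.bd = 0 := by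
    refine Finsupp.lhom_ext' fun ⟨g, r⟩ => LinearMap.ext_ring ?_
    simp only [LinearMap.comp_apply, Finsupp.lsingle_apply, fox_bd_single, map_sub, map_add,
      foxBd1_single, mul_assoc, gen_rel, LinearMap.zero_apply]
    abel
  exact DFunLike.congr_fun this c

theorem fox_exact1 {c : P.Grp × Gn →₀ ℤ} (hc : P.foxBd1 c = 0) : ∃ e, P.bd e = c := by
  obtain ⟨τ, hτ⟩ := P.fox_exists_tau
  have : (Finsupp.linearCombination ℤ fun x : P.Grp × Unit => τ x.1).comp P.foxBd1
      = (LinearMap.range P.bd).mkQ := by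
    refine Finsupp.lhom_ext' fun ⟨g, s⟩ => LinearMap.ext_ring ?_
    simp only [LinearMap.comp_apply, Finsupp.lsingle_apply, foxBd1_single, map_sub,
      Finsupp.linearCombination_single, one_smul, ← hτ, add_sub_cancel_left]
  have h1 := DFunLike.congr_fun this c
  rw [LinearMap.comp_apply, hc, map_zero, eq_comm, Submodule.mkQ_apply,
    Submodule.Quotient.mk_eq_zero] at h1
  exact h1

theorem fox_exact0 (u : P.Grp) : ∀ g : P.Grp, ∃ c, P.foxBd1 c =
    Finsupp.single (g * u, ()) 1 - Finsupp.single (g, ()) 1 := by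
  have hu : u ∈ Subgroup.closure (Set.range P.gen) := by rw [closure_gen]; trivial
  induction hu using Subgroup.closure_induction with
  | mem x hx =>
    obtain ⟨s, rfl⟩ := hx
    exact fun g => ⟨_, P.foxBd1_single g s⟩
  | one => exact fun g => ⟨0, by simp⟩
  | mul x y _ _ hx hy =>
    intro g
    obtain ⟨c, hc⟩ := hx g
    obtain ⟨e, he⟩ := hy (g * x)
    exact ⟨c + e, by rw [map_add, hc, he, mul_assoc]; abel⟩
  | inv x _ hx =>
    intro g
    obtain ⟨c, hc⟩ := hx (g * x⁻¹)
    exact ⟨-c, by rw [map_neg, hc]; simp⟩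

section cyclic

variable {G : Type} [Group G]

/-- left translation of chains -/
noncomputable def foxT (Y : Type) (u : G) : Module.End ℤ (G × Y →₀ ℤ) :=
  Finsupp.lmapDomain ℤ ℤ fun x => (u * x.1, x.2)

theorem foxT_single (Y : Type) (u g : G) (y : Y) (k : ℤ) :
    foxT Y u (Finsupp.single (g, y) k) = Finsupp.single (u * g, y) k := by
  simp [foxT]

theorem foxT_pow_single (Y : Type) (u g : G) (y : Y) (k : ℤ) (i : ℕ) :
    (foxT Y u ^ i) (Finsupp.single (g, y) k) = Finsupp.single (u ^ i * g, y) k := by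
  induction i with
  | zero => simp
  | succ i ih => rw [pow_succ', Module.End.mul_apply, ih, foxT_single, pow_succ', mul_assoc]

theorem foxT_pow_order (Y : Type) (u : G) : foxT Y u ^ orderOf u = 1 := by
  refine Finsupp.lhom_ext' fun ⟨g, y⟩ => LinearMap.ext_ring ?_
  simp [foxT_pow_single]

theorem fox_exists_phi {u : G} (hu : IsOfFinOrder u) :
    ∃ φ : G → ℤ, ∀ g, ∑ i ∈ Finset.range (orderOf u), φ (u ^ i * g) = 1 := by
  classical
  let q : G → G := fun g => Quotient.out (Quotient.mk (QuotientGroup.rightRel (Subgroup.zpowers u)) g)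
  have hq : ∀ i g, q (u ^ i * g) = q g := fun i g => by
    have : Quotient.mk (QuotientGroup.rightRel (Subgroup.zpowers u)) (u ^ i * g)
        = Quotient.mk (QuotientGroup.rightRel (Subgroup.zpowers u)) g := by
      refine (Quotient.sound ?_).symm
      refine QuotientGroup.rightRel_apply.2 ?_
      simp
    simp only [q, this]
  have hq2 : ∀ g, ∃ i < orderOf u, u ^ i * g = q g := fun g => by
    have h1 : q g * g⁻¹ ∈ Subgroup.zpowers u :=
      QuotientGroup.rightRel_apply.1 (Quotient.exact (Quotient.out_eq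
        (Quotient.mk (QuotientGroup.rightRel (Subgroup.zpowers u)) g)).symm)
    obtain ⟨i, hi⟩ := hu.mem_powers_iff_mem_zpowers.2 h1
    refine ⟨i % orderOf u, Nat.mod_lt _ hu.orderOf_pos, ?_⟩
    rw [pow_mod_orderOf]
    simp only at hi
    rw [hi, inv_mul_cancel_right]
  refine ⟨fun g => if g = q g then 1 else 0, fun g => ?_⟩
  obtain ⟨i, hi, h⟩ := hq2 g
  rw [Finset.sum_eq_single i]
  · show (if u ^ i * g = q (u ^ i * g) then (1 : ℤ) else 0) = 1
    rw [hq, if_pos h]
  · intro j hj hji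
    simp only [hq]
    rw [if_neg]
    intro h'
    exact hji (pow_injOn_Iio_orderOf (Finset.mem_range.1 hj) hi
      (mul_right_cancel (h'.trans h.symm)))
  · intro h'
    exact (h' (Finset.mem_range.2 hi)).elim

theorem fox_exists_M (Y : Type) {u : G} (hu : IsOfFinOrder u) :
    ∃ M : Module.End ℤ (G × Y →₀ ℤ), ∑ i ∈ Finset.range (orderOf u),
      foxT Y u ^ (orderOf u - 1 - i) * M * foxT Y u ^ (i + 1) = 1 := by
  obtain ⟨φ, hφ⟩ := fox_exists_phi hu
  refine ⟨Finsupp.linearCombination ℤ fun x => Finsupp.single x (φ x.1), ?_⟩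
  refine Finsupp.lhom_ext' fun ⟨g, y⟩ => LinearMap.ext_ring ?_
  simp only [LinearMap.comp_apply, Finsupp.lsingle_apply, LinearMap.sum_apply,
    Module.End.mul_apply, foxT_pow_single, Finsupp.linearCombination_single, one_smul,
    Module.End.one_apply]
  rw [← hφ (u * g), Finsupp.single_finsetSum]
  refine Finset.sum_congr rfl fun i hi => ?_
  have hi' := Finset.mem_range.1 hi
  rw [← mul_assoc, ← pow_add, show orderOf u - 1 - i + (i + 1) = orderOf u by omega,
    pow_orderOf_eq_one, one_mul, pow_succ, mul_assoc]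

theorem fox_kerD (Y : Type) {u : G} (hu : IsOfFinOrder u) {c : G × Y →₀ ℤ}
    (hc : (foxT Y u - 1) c = 0) :
    ∃ e, (∑ i ∈ Finset.range (orderOf u), foxT Y u ^ i) e = c := by
  obtain ⟨M, hM⟩ := fox_exists_M Y hu
  have h1 : foxT Y u c = c := by simpa [sub_eq_zero] using hc
  have h2 : ∀ i, (foxT Y u ^ i) c = c := fun i => by
    induction i with
    | zero => simp
    | succ i ih => rw [pow_succ, Module.End.mul_apply, h1, ih]
  refine ⟨M c, ?_⟩
  rw [← Finset.sum_range_reflect]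
  have h3 := DFunLike.congr_fun hM c
  simp only [LinearMap.sum_apply, Module.End.mul_apply, h2, Module.End.one_apply] at h3 ⊢
  exact h3

theorem fox_kerN (Y : Type) {u : G} (hu : IsOfFinOrder u) {c : G × Y →₀ ℤ}
    (hc : (∑ i ∈ Finset.range (orderOf u), foxT Y u ^ i) c = 0) :
    ∃ e, (foxT Y u - 1) e = c := by
  obtain ⟨M, hM⟩ := fox_exists_M Y hu
  set T := foxT Y u
  have h1 : ∑ i ∈ Finset.range (orderOf u), (M * T ^ (i + 1)) c = 0 := by
    have : ∑ i ∈ Finset.range (orderOf u), M * T ^ (i + 1)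
        = M * T * ∑ i ∈ Finset.range (orderOf u), T ^ i := by
      rw [Finset.mul_sum]
      exact Finset.sum_congr rfl fun i _ => by rw [pow_succ', mul_assoc]
    rw [← LinearMap.sum_apply, this, Module.End.mul_apply, hc, map_zero]
  refine ⟨∑ i ∈ Finset.range (orderOf u),
    (∑ j ∈ Finset.range (orderOf u - 1 - i), T ^ j) ((M * T ^ (i + 1)) c), ?_⟩
  rw [map_sum]
  have h3 := DFunLike.congr_fun hM c
  rw [Module.End.one_apply, LinearMap.sum_apply] at h3
  refine Eq.trans ?_ ((congrArg₂ (· - ·) h3 h1).trans (sub_zero c))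
  rw [← Finset.sum_sub_distrib]
  refine Finset.sum_congr rfl fun i _ => ?_
  rw [← Module.End.mul_apply, mul_geom_sum]
  simp only [Module.End.mul_apply, LinearMap.sub_apply, Module.End.one_apply]

theorem fox_comm {M N : Type} [AddCommGroup M] [AddCommGroup N] {f : M →ₗ[ℤ] N}
    {S : Module.End ℤ M} {T : Module.End ℤ N} (h : ∀ c, f (S c) = T (f c)) (n : ℕ) (c : M) :
    f ((S - 1) c) = (T - 1) (f c) ∧
      f ((∑ i ∈ Finset.range n, S ^ i) c) = (∑ i ∈ Finset.range n, T ^ i) (f c) := by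
  have h2 : ∀ i c, f ((S ^ i) c) = (T ^ i) (f c) := fun i => by
    induction i with
    | zero => simp
    | succ i ih => intro c; rw [pow_succ, pow_succ, Module.End.mul_apply, Module.End.mul_apply, ih, h]
  constructor
  · simp [h]
  · simp only [LinearMap.sum_apply, map_sum, h2]

end cyclic

theorem torsionFree (h : P.Aspherical) (g : P.Grp) (hg : IsOfFinOrder g) : g = 1 := by
  have e2 : ∀ c, P.bd (foxT R g c) = foxT Gn g (P.bd c) := fun c => by
    have : P.bd.comp (foxT R g) = (foxT Gn g).comp P.bd := by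
      refine Finsupp.lhom_ext' fun ⟨k, r⟩ => LinearMap.ext_ring ?_
      simp only [LinearMap.comp_apply, Finsupp.lsingle_apply, foxT_single, fox_bd_single, map_sub,
        map_add, mul_assoc]
    exact DFunLike.congr_fun this c
  have e1 : ∀ c, P.foxBd1 (foxT Gn g c) = foxT Unit g (P.foxBd1 c) := fun c => by
    have : P.foxBd1.comp (foxT Gn g) = (foxT Unit g).comp P.foxBd1 := by
      refine Finsupp.lhom_ext' fun ⟨k, r⟩ => LinearMap.ext_ring ?_
      simp only [LinearMap.comp_apply, Finsupp.lsingle_apply, foxT_single, foxBd1_single, map_sub,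
        mul_assoc]
    exact DFunLike.congr_fun this c
  let aug : (P.Grp × Unit →₀ ℤ) →ₗ[ℤ] ℤ := Finsupp.linearCombination ℤ fun _ => 1
  have e0 : ∀ c, aug (foxT Unit g c) = (1 : Module.End ℤ ℤ) (aug c) := fun c => by
    have : aug.comp (foxT Unit g) = aug := by
      refine Finsupp.lhom_ext' fun ⟨k, r⟩ => LinearMap.ext_ring ?_
      simp [aug, foxT_single]
    exact DFunLike.congr_fun this c
  have ea : ∀ c, aug (P.foxBd1 c) = 0 := fun c => by
    have : aug.comp P.foxBd1 = 0 := by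
      refine Finsupp.lhom_ext' fun ⟨k, r⟩ => LinearMap.ext_ring ?_
      simp [aug, foxBd1_single]
    exact DFunLike.congr_fun this c
  have hND : ∀ (Y : Type) (c : P.Grp × Y →₀ ℤ),
      (∑ i ∈ Finset.range (orderOf g), foxT Y g ^ i) ((foxT Y g - 1) c) = 0 := fun Y c => by
    rw [← Module.End.mul_apply, geom_sum_mul, foxT_pow_order, sub_self, LinearMap.zero_apply]
  have hDN : ∀ (Y : Type) (c : P.Grp × Y →₀ ℤ),
      (foxT Y g - 1) ((∑ i ∈ Finset.range (orderOf g), foxT Y g ^ i) c) = 0 := fun Y c => by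
    rw [← Module.End.mul_apply, mul_geom_sum, foxT_pow_order, sub_self, LinearMap.zero_apply]
  obtain ⟨c1, hc1⟩ := P.fox_exact0 g 1
  have hc1' : P.foxBd1 c1 = (foxT Unit g - 1) (Finsupp.single (1, ()) 1) := by
    rw [hc1]; simp [foxT_single]
  obtain ⟨c2, hc2⟩ := P.fox_exact1 (c := (∑ i ∈ Finset.range (orderOf g), foxT Gn g ^ i) c1)
    (by rw [(fox_comm e1 _ _).2, hc1', hND])
  obtain ⟨c2', hc2'⟩ := fox_kerD R hg (c := c2)
    (h (by rw [(fox_comm e2 0 _).1, hc2, hDN, map_zero]))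
  obtain ⟨c1', hc1''⟩ := fox_kerN Gn hg (c := c1 - P.bd c2')
    (by rw [map_sub, ← (fox_comm e2 _ _).2, hc2', hc2, sub_self])
  obtain ⟨c0, hc0⟩ := fox_kerD Unit hg (c := Finsupp.single (1, ()) 1 - P.foxBd1 c1')
    (by rw [map_sub, ← (fox_comm e1 0 _).1, hc1'', map_sub, fox_bd1_bd, hc1', sub_zero, sub_self])
  have h1 := congrArg aug hc0
  rw [(fox_comm e0 _ _).2, map_sub, ea] at h1
  have h2 : (orderOf g : ℤ) * aug c0 = 1 := by simpa [aug] using h1
  have h3 : orderOf g ∣ 1 := by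
    have : (orderOf g : ℤ) ∣ (1 : ℕ) := ⟨_, by simpa using h2.symm⟩
    exact_mod_cast this
  exact orderOf_eq_one_iff.1 (Nat.dvd_one.1 h3)

/-- central extensions by `ℤ/2` with prescribed twisting of the relators -/
theorem central (h : P.Aspherical) (ζ : R → Bool) :
    ∃ (G' : Type) (_ : Group G') (z : G') (γ : Gn → G') (π : G' →* P.Grp),
      (∀ x, z * x = x * z) ∧ z * z = 1 ∧ z ≠ 1 ∧ π z = 1 ∧ (∀ s, π (γ s) = P.gen s) ∧
      (∀ r, γ (P.a r) * γ (P.b r) * (if ζ r then z else 1) = γ (P.c r)) ∧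
      Subgroup.closure (insert z (Set.range γ)) = ⊤ := by
  obtain ⟨b, hb⟩ := P.spl h (ZMod 2) fun x => if ζ x.2 then 1 else 0
  let A := Multiplicative (ZMod 2)
  let m : P.Grp × Gn → A := fun x => Multiplicative.ofAdd (b x)
  let ε : A := Multiplicative.ofAdd 1
  have hε : ε * ε = 1 := by decide
  let z₀ : P.foxCov A := ⟨Equiv.prodCongr (Equiv.refl _) (Equiv.mulRight ε), 1, fun p => by simp⟩
  have hz₀ : ∀ p, z₀.1 p = (p.1, p.2 * ε) := fun p => rfl
  let γ₀ : Gn → P.foxCov A := fun s => ⟨_, P.foxSig_inv_mem m s⟩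
  have hzz : z₀ * z₀ = 1 := by
    apply Subtype.ext
    ext p : 1
    change z₀.1 (z₀.1 p) = p
    simp only [hz₀, mul_assoc, hε, mul_one]
  have hcomm : ∀ s, Commute z₀ (γ₀ s) := fun s => by
    rw [← Commute.inv_right_iff]
    apply Subtype.ext
    change z₀.1 * (P.foxSig m s)⁻¹⁻¹ = (P.foxSig m s)⁻¹⁻¹ * z₀.1
    rw [inv_inv]
    ext p : 1
    simp only [Equiv.Perm.mul_apply, hz₀, foxSig_apply, mul_right_comm p.2]
  have hrel : ∀ r, γ₀ (P.a r) * γ₀ (P.b r) * (if ζ r then z₀ else 1) = γ₀ (P.c r) := fun r => by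
    have h1 : ∀ g, m (g, P.a r) * m (g * P.gen (P.a r), P.b r)
        = (if ζ r then ε else 1) * m (g, P.c r) := fun g => by
      have := hb g r
      rw [sub_eq_iff_eq_add] at this
      have h2 := congrArg Multiplicative.ofAdd this
      rw [ofAdd_add, ofAdd_add] at h2
      refine h2.trans ?_
      split_ifs
      · rfl
      · rfl
    rw [← eq_mul_inv_iff_mul_eq, ← inv_inj, mul_inv_rev, mul_inv_rev, inv_inv]
    apply Subtype.ext
    change (P.foxSig m _)⁻¹⁻¹ * (P.foxSig m _)⁻¹⁻¹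
      = (if ζ r then z₀ else 1 : P.foxCov A).1 * (P.foxSig m _)⁻¹⁻¹
    simp only [inv_inv]
    ext p : 1
    simp only [Equiv.Perm.mul_apply, foxSig_apply, mul_assoc, h1, gen_rel]
    split_ifs
    · rw [hz₀]
      simp only [mul_assoc, mul_comm ε]
    · simp
  let K := Subgroup.closure (insert z₀ (Set.range γ₀))
  have hzK : z₀ ∈ K := Subgroup.subset_closure (Set.mem_insert _ _)
  have hγK : ∀ s, γ₀ s ∈ K := fun s => Subgroup.subset_closure (Set.mem_insert_of_mem _ ⟨s, rfl⟩)
  refine ⟨K, inferInstance, ⟨z₀, hzK⟩, fun s => ⟨γ₀ s, hγK s⟩, (P.foxPi A).comp K.subtype,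
    ?_, Subtype.ext hzz, ?_, ?_, fun s => P.foxPi_sig m s, ?_, ?_⟩
  · rintro ⟨x, hx⟩
    apply Subtype.ext
    change Commute z₀ x
    induction hx using Subgroup.closure_induction with
    | mem x hx =>
      rcases hx with rfl | ⟨s, rfl⟩
      · exact Commute.refl _
      · exact hcomm s
    | one => exact Commute.one_right _
    | mul x y _ _ hx hy => exact hx.mul_right hy
    | inv x _ hx => exact hx.inv_right
  · intro h1
    have h2 : z₀.1 (1, 1) = (1, 1) := by
      have : z₀ = 1 := congrArg Subtype.val h1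
      rw [this]; rfl
    rw [hz₀] at h2
    have h3 : (1 : A) * ε = 1 := congrArg Prod.snd h2
    revert h3
    decide
  · change ((z₀.1 (1, 1)).1)⁻¹ = 1
    rw [hz₀]; simp
  · intro r
    apply Subtype.ext
    have := hrel r
    split_ifs at this ⊢ <;> exact this
  · have := Subgroup.closure_closure_coe_preimage (k := insert z₀ (Set.range γ₀))
    rw [← this]
    congr 1
    ext ⟨x, hx⟩
    constructor
    · rintro (h1 | ⟨s, h1⟩)
      · exact Or.inl (congrArg Subtype.val h1)
      · exact Or.inr ⟨s, congrArg Subtype.val h1⟩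
    · rintro (h1 | ⟨s, h1⟩)
      · exact Or.inl (Subtype.ext h1)
      · exact Or.inr ⟨s, Subtype.ext h1⟩

end Crest.Agent.R184.TP
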