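import Crest.Agent.R184.Fox
import Crest.Agent.R184.HypAux
import Crest.Prelude.Def_WordHyperbolic

/-! A linear homological isoperimetric inequality implies hyperbolicity. -/

set_option autoImplicit false

namespace Crest.Agent.R184

open Crest.GroupTheory

section
variable {G : Type} [Group G] {S : Set G}

theorem hyp_le (l : List G) (hl : ∀ x ∈ l, x ∈ S ∨ x⁻¹ ∈ S) : wordLength S l.prod ≤ l.length :=
  Nat.sInf_le ⟨l, rfl, hl, rfl⟩

theorem hyp_spec (hS : Subgroup.closure S = ⊤) (g : G) :
    ∃ l : List G, l.length = wordLength S g ∧ (∀ x ∈ l, x ∈ S ∨ x⁻¹ ∈ S) ∧ l.prod = g := by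
  have : g ∈ (Subgroup.closure S).toSubmonoid := by rw [hS]; trivial
  rw [Subgroup.closure_toSubmonoid] at this
  obtain ⟨l, h1, h2⟩ := Submonoid.exists_list_of_mem_closure this
  exact Nat.sInf_mem (s := {n : ℕ | ∃ l : List G, l.length = n ∧ (∀ x ∈ l, x ∈ S ∨ x⁻¹ ∈ S) ∧
    l.prod = g}) ⟨_, l, rfl, h1, h2⟩

theorem hyp_inv (hS : Subgroup.closure S = ⊤) (g : G) : wordLength S g⁻¹ ≤ wordLength S g := by
  obtain ⟨l, h1, h2, rfl⟩ := hyp_spec hS g
  rw [← h1, List.prod_inv_reverse]
  refine (hyp_le _ fun x hx => ?_).trans (by simp)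
  simp only [List.mem_reverse, List.mem_map] at hx
  obtain ⟨y, hy, rfl⟩ := hx
  simpa using (h2 y hy).symm

theorem hyp_mul (hS : Subgroup.closure S = ⊤) (g g' : G) :
    wordLength S (g * g') ≤ wordLength S g + wordLength S g' := by
  obtain ⟨l, h1, h2, h3⟩ := hyp_spec hS g
  obtain ⟨l', h1', h2', h3'⟩ := hyp_spec hS g'
  rw [← h1, ← h1', ← h3, ← h3', ← List.prod_append, ← List.length_append]
  exact hyp_le _ fun x hx => (List.mem_append.1 hx).elim (h2 x) (h2' x)

theorem hyp_one {g : G} (hg : g = 1 ∨ g ∈ S ∨ g⁻¹ ∈ S) : wordLength S g ≤ 1 := by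
  rcases hg with rfl | hg
  · exact (hyp_le [] (by simp)).trans (by simp)
  · simpa using hyp_le [g] (by simpa using hg)

theorem hyp_one' (hS : Subgroup.closure S = ⊤) {g : G} (hg : wordLength S g ≤ 1) :
    g = 1 ∨ g ∈ S ∨ g⁻¹ ∈ S := by
  obtain ⟨l, h1, h2, rfl⟩ := hyp_spec hS g
  rw [← h1] at hg
  match l, hg, h2 with
  | [], _, _ => simp
  | [x], _, h2 => right; simpa using h2
  | _ :: _ :: _, hg, _ => simp at hg

end

theorem TP.hypSp {Gn R : Type} (P : TP Gn R) (h : P.LinIso) :
    ∃ C, HypSp (fun u v : P.Grp => wordLength (Set.range P.gen) (u⁻¹ * v)) C := by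
  obtain ⟨C, hC⟩ := h
  have hS := P.closure_gen
  refine ⟨6 * C, fun x => ?_, fun x y => ?_, fun x y z => ?_, fun x y => ?_,
    fun f g hf hg x n I H => ?_⟩
  · rw [inv_mul_cancel]
    exact Nat.le_zero.1 (hyp_le [] (by simp))
  · exact le_antisymm (by simpa using hyp_inv hS (y⁻¹ * x)) (by simpa using hyp_inv hS (x⁻¹ * y))
  · simpa [mul_assoc] using hyp_mul hS (x⁻¹ * y) (y⁻¹ * z)
  · obtain ⟨l, h1, h2, h3⟩ := hyp_spec hS (x⁻¹ * y)
    refine ⟨fun i => x * (l.take i).prod, by simp, by simp [← h1, h3], fun i => hyp_one ?_⟩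
    beta_reduce
    by_cases hi : i < l.length
    · right
      rw [List.prod_take_succ _ _ hi]
      simpa [mul_assoc] using h2 _ (List.getElem_mem hi)
    · left
      rw [List.take_of_length_le (by omega), List.take_of_length_le (by omega), inv_mul_cancel]
  · set Λ : (P.Grp × Gn →₀ ℤ) →ₗ[ℤ] ℤ :=
      Finsupp.linearCombination ℤ fun e => hypW f g (x * e.1) (x * e.1 * P.gen e.2) with hΛ
    have key : ∀ y z n I, HypReach (fun u v : P.Grp => wordLength (Set.range P.gen) (u⁻¹ * v))
        f g y z n I → ∃ w : List (Gn × Bool), w.length ≤ n ∧ y * P.pr (FreeGroup.mk w) = z ∧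
          Λ (P.pathChain (x⁻¹ * y) w) = I := by
      intro y z n I H
      induction H with
      | refl y n => exact ⟨[], by simp, by simp [← FreeGroup.one_eq_mk], by simp [TP.pathChain]⟩
      | @step u v z n I h _ ih =>
        obtain ⟨w, h1, h2, h3⟩ := ih
        have e : ∀ s b, P.pr (FreeGroup.mk ((s, b) :: w)) =
            (if b then P.gen s else (P.gen s)⁻¹) * P.pr (FreeGroup.mk w) := fun s b => by
          rw [show (s, b) :: w = [(s, b)] ++ w from rfl, ← FreeGroup.mul_mk, map_mul]
          cases b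
          · rw [show FreeGroup.mk [(s, false)] = (FreeGroup.of s)⁻¹ from rfl, map_inv]; rfl
          · rfl
        rcases hyp_one' hS h with q | ⟨s, q⟩ | ⟨s, q⟩
        · obtain rfl := inv_mul_eq_one.1 q
          exact ⟨w, by omega, h2, by simp [h3, hypW]⟩
        · obtain rfl : v = u * P.gen s := by simp [q]
          refine ⟨(s, true) :: w, by simpa using h1, by simp [e, ← h2, mul_assoc], ?_⟩
          rw [TP.pathChain, map_add, mul_assoc, h3]
          simp [hΛ]
        · obtain rfl : v = u * (P.gen s)⁻¹ := by simp [q]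
          refine ⟨(s, false) :: w, by simpa using h1, by simp [e, ← h2, mul_assoc], ?_⟩
          rw [TP.pathChain, map_add, mul_assoc, h3]
          simp only [hΛ, map_neg, Finsupp.linearCombination_single, mul_inv_cancel_left,
            inv_mul_cancel_right, hypW]
          simp only [smul_eq_mul]
          ring
    obtain ⟨w, h1, h2, h3⟩ := key x x n I H
    obtain ⟨c, c1, c2⟩ := hC w (by simpa using h2)
    rw [inv_mul_cancel, ← c1] at h3
    have b : ∀ t : P.Grp × R, |Λ (P.bd (Finsupp.single t 1))| ≤ 6 := fun t => by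
      have ed : ∀ u s, |f u - f (u * P.gen s)| ≤ 1 ∧ |g u - g (u * P.gen s)| ≤ 3 := fun u s => by
        have : wordLength (Set.range P.gen) (u⁻¹ * (u * P.gen s)) ≤ 1 := hyp_one (by simp)
        have a1 := hf u (u * P.gen s)
        have a2 := hg u (u * P.gen s)
        constructor <;> omega
      simp only [TP.bd, hΛ, Finsupp.linearCombination_single, one_smul, map_add, map_sub,
        ← mul_assoc]
      rw [mul_assoc _ (P.gen (P.a t.2)), P.gen_rel]
      obtain ⟨a1, a2⟩ := ed (x * t.1) (P.a t.2)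
      obtain ⟨a3, a4⟩ := ed (x * t.1) (P.c t.2)
      generalize x * t.1 * P.gen (P.a t.2) = v at *
      generalize x * t.1 * P.gen (P.c t.2) = v' at *
      rw [show hypW f g (x * t.1) v + hypW f g v v' - hypW f g (x * t.1) v' =
        (f (x * t.1) - f v) * (g (x * t.1) - g v') - (f (x * t.1) - f v') * (g (x * t.1) - g v) by
          unfold hypW; ring]
      refine (abs_sub _ _).trans ?_
      rw [abs_mul, abs_mul]
      have := mul_le_mul a1 a4 (abs_nonneg _) zero_le_one
      have := mul_le_mul a3 a2 (abs_nonneg _) zero_le_one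
      linarith
    have : I ≤ 6 * ((c.sum fun _ k => k.natAbs : ℕ) : ℤ) := by
      rw [← h3]
      conv_lhs => rw [← c.sum_single]
      simp only [Finsupp.sum, map_sum, Nat.cast_sum, Finset.mul_sum]
      refine Finset.sum_le_sum fun t _ => ?_
      rw [← Finsupp.smul_single_one, map_smul, map_smul, smul_eq_mul]
      refine (le_abs_self _).trans ?_
      rw [abs_mul, Int.natCast_natAbs, mul_comm]
      exact mul_le_mul_of_nonneg_right (b t) (abs_nonneg _)
    have c3 := c2.trans (Nat.mul_le_mul_left C h1)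
    have c4 : ((c.sum fun _ k => k.natAbs : ℕ) : ℤ) ≤ C * n := by exact_mod_cast c3
    push_cast
    linarith

theorem TP.hyperbolic {Gn R : Type} [Finite Gn] (P : TP Gn R) (h : P.LinIso) :
    Crest.GroupTheory.IsHyperbolicGroup P.Grp := by
  obtain ⟨C, H⟩ := P.hypSp h
  refine ⟨(Set.finite_range P.gen).toFinset, by simpa using P.closure_gen, 3 * (168 * C + 1),
    by positivity, fun w x y z => ?_⟩
  simp only [Set.Finite.coe_toFinset, gromovProduct, wordDist]
  rcases H.four w x y z with q | q
  · have q' := (Nat.cast_le (α := ℝ)).2 q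
    push_cast at q'
    exact (sub_le_sub_right (min_le_left _ _) _).trans (by linarith)
  · have q' := (Nat.cast_le (α := ℝ)).2 q
    push_cast at q'
    exact (sub_le_sub_right (min_le_right _ _) _).trans (by linarith)

end Crest.Agent.R184
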