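import Crest.Agent.R184.Euler

/-! The dual graph of a planar diagram has no `K₇` minor. -/

set_option autoImplicit false

namespace Crest.Agent.R184

open Finset

open Classical in
/-- The indicator of a proposition. -/
noncomputable def minorInd (p : Prop) : ZMod 2 := if p then 1 else 0

/-- Counting: if `c` assigns a region to each corner of `K₇` and every region has an even
boundary, the boundaries of the regions do not span the cycle space. -/
theorem minor_count {R : Type} (c : Fin 7 → Fin 7 → R)
    (heven : ∀ (ρ : R) (i : Fin 7), ∑ j, (minorInd (c i j = ρ) + minorInd (c j i = ρ)) = 0)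
    (hspan : ∀ y : Fin 7 → Fin 7 → ZMod 2, (∀ i j, y i j = y j i) → (∀ i, y i i = 0) →
      (∀ i, ∑ j, y i j = 0) → ∃ x : R → ZMod 2, ∀ i j, i ≠ j → y i j = x (c i j) + x (c j i)) :
    False := by
  classical
  let v : R → Fin 7 → Fin 7 → ZMod 2 := fun ρ i j => minorInd (c i j = ρ) + minorInd (c j i = ρ)
  let P : Finset (Fin 7 × Fin 7) := univ.offDiag
  let R0 : Finset R := P.image fun p => c p.1 p.2
  let R1 : Finset R := R0.filter fun ρ => ∃ i j, v ρ i j ≠ 0
  have hvsymm : ∀ ρ i j, v ρ i j = v ρ j i := fun ρ i j => add_comm _ _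
  have hvdiag : ∀ ρ i, v ρ i i = 0 := fun ρ i => CharTwo.add_self_eq_zero _
  have hother : ∀ ρ i j, v ρ i j ≠ 0 → ∃ k, k ≠ i ∧ k ≠ j ∧ v ρ i k ≠ 0 := by
    intro ρ i j hij
    by_contra hcon
    push Not at hcon
    apply hij
    rw [← heven ρ i]
    refine (Finset.sum_eq_single j (fun k _ hk => ?_) (by simp)).symm
    by_cases hki : k = i
    · rw [hki]; exact hvdiag ρ i
    · exact hcon k hki hk
  have hfib : ∀ ρ i j, v ρ i j ≠ 0 →
      ∃ p ∈ P.filter fun p => c p.1 p.2 = ρ, p = (i, j) ∨ p = (j, i) := by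
    intro ρ i j hij
    have hne : i ≠ j := fun h => hij (h ▸ hvdiag ρ i)
    by_cases h1 : c i j = ρ
    · exact ⟨(i, j), by simp [P, hne, h1], Or.inl rfl⟩
    · by_cases h2 : c j i = ρ
      · exact ⟨(j, i), by simp [P, hne.symm, h2], Or.inr rfl⟩
      · exact absurd (by simp [v, minorInd, h1, h2]) hij
  have hthree : ∀ ρ ∈ R1, 3 ≤ (P.filter fun p => c p.1 p.2 = ρ).card := by
    intro ρ hρ
    obtain ⟨i, j, hij⟩ := (Finset.mem_filter.1 hρ).2
    have hne : i ≠ j := fun h => hij (h ▸ hvdiag ρ i)
    obtain ⟨k, hki, hkj, hk⟩ := hother ρ i j hij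
    obtain ⟨l, hlj, hli, hl⟩ := hother ρ j i (hvsymm ρ i j ▸ hij)
    obtain ⟨p1, hp1, e1⟩ := hfib ρ i j hij
    obtain ⟨p2, hp2, e2⟩ := hfib ρ i k hk
    obtain ⟨p3, hp3, e3⟩ := hfib ρ j l hl
    refine Finset.two_lt_card.2 ⟨p1, hp1, p2, hp2, p3, hp3, ?_, ?_, ?_⟩ <;>
      rcases e1 with rfl | rfl <;> rcases e2 with rfl | rfl <;> rcases e3 with rfl | rfl <;>
      simp only [ne_eq, Prod.mk.injEq, not_and] <;> intro h1 h2 <;> simp_all
  have hR1 : R1.card ≤ 14 := by
    have h1 : P.card = ∑ ρ ∈ R0, (P.filter fun p => c p.1 p.2 = ρ).card :=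
      Finset.card_eq_sum_card_image _ _
    have h2 : ∑ ρ ∈ R1, (P.filter fun p => c p.1 p.2 = ρ).card ≤
        ∑ ρ ∈ R0, (P.filter fun p => c p.1 p.2 = ρ).card :=
      Finset.sum_le_sum_of_subset (Finset.filter_subset _ _)
    have h3 := Finset.card_nsmul_le_sum R1 _ 3 hthree
    have h4 : P.card = 42 := by simp [P, Finset.offDiag_card]
    rw [smul_eq_mul] at h3
    omega
  let W := {p : Fin 6 × Fin 6 // p.1 < p.2}
  let Φ : (R1 → ZMod 2) → W → ZMod 2 := fun x p => ∑ ρ : R1, x ρ * v ρ p.1.1.succ p.1.2.succ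
  have hsurj : Function.Surjective Φ := by
    intro u
    let s : Fin 6 → Fin 6 → ZMod 2 := fun j k =>
      if h : j < k then u ⟨(j, k), h⟩ else if h : k < j then u ⟨(k, j), h⟩ else 0
    have hs : ∀ j k, s j k = s k j := by
      intro j k
      rcases lt_trichotomy j k with h | rfl | h
      · simp [s, h, h.not_gt]
      · rfl
      · simp [s, h, h.not_gt]
    have hs0 : ∀ j, s j j = 0 := fun j => by simp [s]
    let y : Fin 7 → Fin 7 → ZMod 2 :=
      Fin.cons (Fin.cons 0 fun k => ∑ j, s k j) fun j => Fin.cons (∑ k, s j k) (s j)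
    obtain ⟨x, hx⟩ := hspan y (fun i j => by
        refine Fin.cases ?_ (fun i => ?_) i <;> refine Fin.cases ?_ (fun j => ?_) j <;>
          simp only [y, Fin.cons_zero, Fin.cons_succ]
        exact hs i j)
      (fun i => by
        refine Fin.cases ?_ (fun i => ?_) i <;> simp only [y, Fin.cons_zero, Fin.cons_succ]
        exact hs0 i)
      (fun i => by
        refine Fin.cases ?_ (fun i => ?_) i
        · rw [Fin.sum_univ_succ]
          simp only [y, Fin.cons_zero, Fin.cons_succ, zero_add]
          rw [← Finset.sum_product']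
          refine Finset.sum_involution (fun p _ => p.swap) (fun p _ => ?_) (fun p _ hp h => ?_)
            (fun p _ => by simp) fun p _ => rfl
          · rw [Prod.fst_swap, Prod.snd_swap, hs p.2]; exact CharTwo.add_self_eq_zero _
          · have h1 : p.2 = p.1 := congrArg Prod.fst h
            exact hp (h1 ▸ hs0 p.1)
        · rw [Fin.sum_univ_succ]
          simp only [y, Fin.cons_zero, Fin.cons_succ]
          exact CharTwo.add_self_eq_zero _)
    refine ⟨fun ρ => x ρ, funext fun p => ?_⟩
    obtain ⟨⟨j, k⟩, hjk⟩ := p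
    have hne : j.succ ≠ k.succ := fun h => hjk.ne (Fin.succ_injective _ h)
    have h1 := hx _ _ hne
    have h2 : y j.succ k.succ = u ⟨(j, k), hjk⟩ := by
      simp only [y, Fin.cons_succ, s]
      exact dif_pos hjk
    rw [← h2, h1]
    change ∑ ρ : R1, x ρ * v ρ j.succ k.succ = _
    rw [Finset.sum_coe_sort R1 fun ρ => x ρ * v ρ j.succ k.succ, Finset.sum_filter_of_ne
      fun ρ _ h => ⟨_, _, right_ne_zero_of_mul h⟩]
    have m1 : c j.succ k.succ ∈ R0 :=
      Finset.mem_image.2 ⟨(j.succ, k.succ), by simp only [P, Finset.mem_offDiag]; simpa using hne, rfl⟩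
    have m2 : c k.succ j.succ ∈ R0 :=
      Finset.mem_image.2 ⟨(k.succ, j.succ), by
        simp only [P, Finset.mem_offDiag]; simpa using hne.symm, rfl⟩
    simp only [v, minorInd, mul_add, Finset.sum_add_distrib, mul_ite, mul_one, mul_zero, Finset.sum_ite_eq,
      m1, m2, if_true]
  have h1 := Fintype.card_le_of_surjective Φ hsurj
  have h2 : Fintype.card W = 15 := by decide
  rw [Fintype.card_fun, Fintype.card_fun, h2, ZMod.card, Fintype.card_coe] at h1
  have h3 := h1.trans (Nat.pow_le_pow_right (by norm_num) hR1)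
  norm_num at h3

section
variable {T : Type} {m : ℕ}

/-- The branch set of the face of a dart. -/
def minorOwn (o : T → Option (Fin 7)) : Dart T m → Option (Fin 7)
  | .inl (t, _) => o t
  | .inr _ => none

/-- Both faces of the edge lie in the same branch set. -/
def minorInner (α : Dart T m → Dart T m) (o : T → Option (Fin 7)) (d : Dart T m) : Prop :=
  minorOwn o d ≠ none ∧ minorOwn o (α d) = minorOwn o d

/-- Face sums. -/
def minorFs : (Dart T m → ZMod 2) →ₗ[ZMod 2] (T → ZMod 2) where
  toFun z t := z (.inl (t, 0)) + z (.inl (t, 1)) + z (.inl (t, 2))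
  map_add' z z' := by funext t; simp only [Pi.add_apply]; ring
  map_smul' c z := by funext t; simp only [Pi.smul_apply, smul_eq_mul, RingHom.id_apply]; ring

lemma minorFs_single [DecidableEq T] (t : T) (a : Fin 3) :
    minorFs (Pi.single (.inl (t, a) : Dart T m) 1) = Pi.single t 1 := by
  funext s
  by_cases h : s = t
  · subst h
    fin_cases a <;> simp [minorFs]
  · simp [minorFs, h]

/-- Invariant cochains supported on inner edges. -/
def minorZin (α : Dart T m → Dart T m) (o : T → Option (Fin 7)) :
    Submodule (ZMod 2) (Dart T m → ZMod 2) where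
  carrier := {z | (∀ d, z (α d) = z d) ∧ ∀ d, ¬ minorInner α o d → z d = 0}
  add_mem' ha hb := ⟨fun d => by simp only [Pi.add_apply, ha.1 d, hb.1 d],
    fun d hd => by simp only [Pi.add_apply, ha.2 d hd, hb.2 d hd, add_zero]⟩
  zero_mem' := ⟨fun _ => rfl, fun _ _ => rfl⟩
  smul_mem' c _ ha := ⟨fun d => by simp only [Pi.smul_apply, ha.1 d],
    fun d hd => by simp only [Pi.smul_apply, ha.2 d hd, smul_zero]⟩

theorem minor_core [Fintype T] [DecidableEq T] {α : Dart T m → Dart T m} (hα : ∀ d, α (α d) = d)
    (hpl : Planar α) (o : T → Option (Fin 7)) (b : Fin 7 → T)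
    (hconn : ∀ i t, o t = some i → Relation.ReflTransGen
      (fun u v => (∃ a a', α (.inl (u, a)) = .inl (v, a')) ∧ o u = some i ∧ o v = some i) (b i) t)
    (e : Fin 7 → Fin 7 → Dart T m) (he : ∀ i j, i ≠ j → minorOwn o (e i j) = some i)
    (hes : ∀ i j, i ≠ j → α (e i j) = e j i) : False := by
  classical
  have hαinj : ∀ {d d'}, α d = d' ↔ d = α d' :=
    ⟨fun h => by rw [← h, hα], fun h => by rw [h, hα]⟩
  have heinj : ∀ i j i' j', i ≠ j → i' ≠ j' → e i j = e i' j' → i = i' ∧ j = j' := by
    intro i j i' j' h h' hE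
    have h1 := he i j h
    have h2 := he j i h.symm
    rw [← hes i j h, hE, hes i' j' h', he j' i' h'.symm] at h2
    rw [hE, he i' j' h'] at h1
    exact ⟨(Option.some.inj h1).symm, (Option.some.inj h2).symm⟩
  have hnin : ∀ i j, i ≠ j → ¬ minorInner α o (e i j) := by
    intro i j h hin
    have h1 := hin.2
    rw [hes i j h, he i j h, he j i h.symm] at h1
    exact h (Option.some.inj h1).symm
  let F : Type := {f : Dart T m → ZMod 2 // (∀ d, f (α d) = f d.nxt) ∧
    ∀ d, ¬ minorInner α o d → (∀ i j, i ≠ j → d ≠ e i j) → f d.nxt = f d}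
  have heven : ∀ (f : F) (i : Fin 7), ∑ j, (f.1 (e i j) + f.1 (e j i)) = 0 := by
    intro f i
    let g : Dart T m → ZMod 2 := fun d => f.1 d + f.1 (α d)
    have h1 : ∑ d ∈ univ.filter fun d => minorOwn o d = some i, g d = 0 := by
      rw [Finset.sum_filter, Fintype.sum_sum_type, Fintype.sum_prod_type]
      simp only [minorOwn, reduceCtorEq, if_false, Finset.sum_const_zero, add_zero]
      refine Finset.sum_eq_zero fun t _ => ?_
      split_ifs
      · simp only [Fin.sum_univ_three, g, f.2.1, Dart.nxt]
        have e2 : (2 : Fin 3) + 1 = 0 := rfl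
        have e1 : (1 : Fin 3) + 1 = 2 := rfl
        have e0 : (0 : Fin 3) + 1 = 1 := rfl
        rw [e0, e1, e2]
        linear_combination CharTwo.add_self_eq_zero (f.1 (.inl (t, 0))) +
          CharTwo.add_self_eq_zero (f.1 (.inl (t, 1))) + CharTwo.add_self_eq_zero (f.1 (.inl (t, 2)))
      · simp
    rw [← Finset.sum_filter_add_sum_filter_not _ (minorInner α o)] at h1
    have h2 : ∑ d ∈ (univ.filter fun d => minorOwn o d = some i).filter (minorInner α o),
        g d = 0 := by
      refine Finset.sum_involution (fun d _ => α d) (fun d _ => ?_) (fun d _ hd h => hd ?_)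
        (fun d hd => ?_) fun d _ => hα d
      · simp only [g, hα]
        rw [add_comm (f.1 (α d))]
        exact CharTwo.add_self_eq_zero _
      · simp only [g, h]
        exact CharTwo.add_self_eq_zero _
      · simp only [Finset.mem_filter, Finset.mem_univ, true_and] at hd ⊢
        have h3 : minorOwn o (α d) = some i := hd.2.2.trans hd.1
        exact ⟨h3, by rw [h3]; simp, by rw [hα, h3, hd.1]⟩
    rw [h2, zero_add] at h1
    have h3 : ∑ j ∈ univ.erase i, g (e i j) = ∑ d ∈ (univ.filter fun d =>
        minorOwn o d = some i).filter (fun d => ¬ minorInner α o d), g d := by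
      refine Finset.sum_of_injOn (e i) (fun j hj j' hj' h => ?_) (fun j hj => ?_)
        (fun d hd hnot => ?_) fun _ _ => rfl
      · exact (heinj i j i j' (Finset.mem_erase.1 hj).1.symm (Finset.mem_erase.1 hj').1.symm h).2
      · have := (Finset.mem_erase.1 hj).1.symm
        exact Finset.mem_coe.2 (Finset.mem_filter.2
          ⟨Finset.mem_filter.2 ⟨Finset.mem_univ _, he i j this⟩, hnin i j this⟩)
      · simp only [Finset.mem_filter, Finset.mem_univ, true_and] at hd
        have h4 : f.1 d.nxt = f.1 d := f.2.2 d hd.2 fun i' j h hE => by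
          have h5 := he i' j h
          rw [← hE, hd.1] at h5
          obtain rfl := Option.some.inj h5
          exact hnot ⟨j, by simpa using h.symm, hE.symm⟩
        simp only [g, f.2.1, h4]
        exact CharTwo.add_self_eq_zero _
    rw [← Finset.add_sum_erase _ _ (Finset.mem_univ i), CharTwo.add_self_eq_zero, zero_add,
      ← h1, ← h3]
    exact Finset.sum_congr rfl fun j hj => by
      simp only [g, hes i j (Finset.mem_erase.1 hj).1.symm]
  refine minor_count (R := F → ZMod 2) (fun i j f => f.1 (e i j)) (fun ρ i => ?_)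
    fun y hy hy0 hys => ?_
  · refine heven ⟨fun d => minorInd ((fun f : F => f.1 d) = ρ), fun d => ?_,
      fun d h1 h2 => ?_⟩ i
    · exact congrArg (fun x => minorInd (x = ρ)) (funext fun f : F => f.2.1 d)
    · exact congrArg (fun x => minorInd (x = ρ)) (funext fun f : F => f.2.2 d h1 h2)
  · have hself : ∀ x : T → ZMod 2, x + x = 0 := fun x =>
      funext fun t => CharTwo.add_self_eq_zero (x t)
    have hpath : ∀ i t, o t = some i →
        Pi.single (b i) 1 + Pi.single t 1 ∈ (minorZin α o).map minorFs := by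
      intro i t ht
      have hc := hconn i t ht
      clear ht
      induction hc with
      | refl => rw [hself]; exact Submodule.zero_mem _
      | @tail u v _ huv ih =>
        obtain ⟨⟨a, a', ha⟩, hu, hv⟩ := huv
        have ha' : α (.inl (v, a')) = .inl (u, a) := by rw [← ha, hα]
        have h1 : Pi.single u 1 + Pi.single v 1 ∈ (minorZin α o).map minorFs := by
          refine ⟨Pi.single (.inl (u, a)) 1 + Pi.single (.inl (v, a')) 1,
            ⟨fun d => ?_, fun d hd => ?_⟩, by rw [map_add, minorFs_single, minorFs_single]⟩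
          · simp only [Pi.add_apply, Pi.single_apply, hαinj, ha, ha']
            exact add_comm _ _
          · have h2 : d ≠ .inl (u, a) := by
              rintro rfl
              exact hd ⟨by simp [minorOwn, hu], by rw [ha]; simp [minorOwn, hu, hv]⟩
            have h3 : d ≠ .inl (v, a') := by
              rintro rfl
              exact hd ⟨by simp [minorOwn, hv], by rw [ha']; simp [minorOwn, hu, hv]⟩
            simp [h2, h3]
        have h2 := Submodule.add_mem _ ih h1
        rwa [add_assoc, ← add_assoc (Pi.single u 1), hself, zero_add] at h2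
    let z0 : Dart T m → ZMod 2 := ∑ i, ∑ j, y i j • Pi.single (e i j) 1
    have hz0 : ∀ d, z0 d = ∑ i, ∑ j, y i j * if d = e i j then 1 else 0 := fun d => by
      simp only [z0, Finset.sum_apply, Pi.smul_apply, Pi.single_apply, smul_eq_mul]
    have hz0α : ∀ d, z0 (α d) = z0 d := by
      intro d
      rw [hz0, hz0, Finset.sum_comm]
      refine Finset.sum_congr rfl fun i _ => Finset.sum_congr rfl fun j _ => ?_
      by_cases h : j = i
      · rw [h, hy0, zero_mul, zero_mul]
      · simp only [hαinj, hes j i h, hy j i]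
    have hz0n : ∀ d, (∀ i j, i ≠ j → d ≠ e i j) → z0 d = 0 := by
      intro d hd
      rw [hz0]
      refine Finset.sum_eq_zero fun i _ => Finset.sum_eq_zero fun j _ => ?_
      by_cases h : i = j
      · rw [h, hy0, zero_mul]
      · rw [if_neg (hd i j h), mul_zero]
    have hz0e : ∀ i j, i ≠ j → z0 (e i j) = y i j := by
      intro i j h
      rw [hz0, Finset.sum_eq_single i, Finset.sum_eq_single j, if_pos rfl, mul_one]
      · intro j' _ hj'
        by_cases h' : i = j'
        · rw [← h', hy0, zero_mul]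
        · rw [if_neg fun hE => hj' (heinj _ _ _ _ h h' hE).2.symm, mul_zero]
      · simp
      · intro i' _ hi'
        refine Finset.sum_eq_zero fun j' _ => ?_
        by_cases h' : i' = j'
        · rw [← h', hy0, zero_mul]
        · rw [if_neg fun hE => hi' (heinj _ _ _ _ h h' hE).1.symm, mul_zero]
      · simp
    have hfs : minorFs z0 ∈ (minorZin α o).map minorFs := by
      simp only [z0, map_sum, map_smul]
      refine Submodule.sum_mem _ fun i _ => ?_
      have h1 : ∑ j, y i j • minorFs (Pi.single (e i j) (1 : ZMod 2)) =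
          ∑ j, y i j • (Pi.single (b i) 1 + minorFs (Pi.single (e i j) (1 : ZMod 2))) := by
        simp only [smul_add, Finset.sum_add_distrib, ← Finset.sum_smul, hys, zero_smul, zero_add]
      rw [h1]
      refine Submodule.sum_mem _ fun j _ => ?_
      by_cases h : i = j
      · rw [← h, hy0, zero_smul]; exact Submodule.zero_mem _
      · refine Submodule.smul_mem _ _ ?_
        have h2 := he i j h
        rcases hE : e i j with ⟨t, a⟩ | k
        · rw [hE] at h2
          rw [minorFs_single]
          exact hpath i t h2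
        · rw [hE] at h2
          simp [minorOwn] at h2
    obtain ⟨z1, hz1, hz1s⟩ := hfs
    obtain ⟨f, hf1, hf2⟩ := hpl (z0 + z1) (fun d => by simp only [Pi.add_apply, hz0α, hz1.1 d])
      (fun t => by
        have : minorFs (z0 + z1) = 0 := by rw [map_add, hz1s, hself]
        exact congrFun this t)
      (Finset.sum_eq_zero fun k _ => by
        rw [Pi.add_apply, hz0n, hz1.2 _ fun h => h.1 rfl, add_zero]
        intro i j h hE
        have := he i j h
        rw [← hE] at this
        simp [minorOwn] at this)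
    refine ⟨fun ρ => ρ ⟨f, hf2, fun d h1 h2 => ?_⟩, fun i j h => ?_⟩
    · rw [hf1, Pi.add_apply, hz0n d h2, hz1.2 d h1, add_zero, add_zero]
    · change y i j = f (e i j) + f (e j i)
      rw [← hes i j h, hf2, hf1, Pi.add_apply, hz0e i j h, hz1.2 _ (hnin i j h), add_zero,
        ← add_assoc, CharTwo.add_self_eq_zero, zero_add]

end

theorem Diag.not_hasCliqueMinor {V S C H : Type} {D : HES V S C H} {rev : H → H}
    {w : List ((V ⊕ S) × Bool)} (Δ : Diag D rev w) : ¬ HasCliqueMinor Δ.graph 7 := by
  classical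
  rintro ⟨A, hne, hconn, hdis, hadj⟩
  have hac : ∀ (a : Fin 3) (t s : Δ.T), Δ.across a t = some s →
      ∃ a', Δ.α (.inl (t, a)) = .inl (s, a') := by
    intro a t s h
    unfold Diag.across at h
    rcases hE : Δ.α (.inl (t, a)) with ⟨t', a'⟩ | k
    · rw [hE] at h
      obtain rfl := Option.some.inj h
      exact ⟨a', rfl⟩
    · rw [hE] at h
      simp at h
  have hrel : ∀ t s : Δ.T, (Δ.nx t = some s ∨ Δ.mu t = some s) →
      ∃ a a', Δ.α (.inl (t, a)) = .inl (s, a') := fun t s h =>
    h.elim (fun h => ⟨2, hac 2 t s h⟩) fun h => ⟨1, hac 1 t s h⟩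
  have hA : ∀ t s : Δ.T, Δ.graph.Adj t s → ∃ a a', Δ.α (.inl (t, a)) = .inl (s, a') := by
    intro t s h
    rcases ((SimpleGraph.fromRel_adj _ _ _).1 h).2 with h | h
    · exact hrel t s h
    · obtain ⟨a, a', h⟩ := hrel s t h
      exact ⟨a', a, by rw [← h, Δ.α_α]⟩
  let o : Δ.T → Option (Fin 7) := fun t => if h : ∃ i, t ∈ A i then some h.choose else none
  have ho : ∀ t i, o t = some i ↔ t ∈ A i := by
    intro t i
    constructor
    · intro h
      simp only [o] at h
      split_ifs at h with h1
      exact Option.some.inj h ▸ h1.choose_spec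
    · intro h
      have h1 : ∃ i, t ∈ A i := ⟨i, h⟩
      simp only [o, dif_pos h1, Option.some.injEq]
      by_contra h2
      exact Set.disjoint_left.1 (hdis _ _ h2) h1.choose_spec h
  choose b hb using hne
  have hd : ∀ i j, i ≠ j → ∃ d : Dart Δ.T w.length,
      minorOwn o d = some i ∧ minorOwn o (Δ.α d) = some j := by
    intro i j h
    obtain ⟨x, hx, y, hy, hxy⟩ := hadj i j h
    obtain ⟨a, a', hE⟩ := hA x y hxy
    exact ⟨.inl (x, a), (ho x i).2 hx, by rw [hE]; exact (ho y j).2 hy⟩
  have : Nonempty (Dart Δ.T w.length) := ⟨.inl (b 0, 0)⟩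
  choose! d hd1 hd2 using hd
  refine minor_core Δ.α_α Δ.planar o b (fun i t ht => ?_)
    (fun i j => if i < j then d i j else Δ.α (d j i)) (fun i j h => ?_) fun i j h => ?_
  · have h1 := hconn i _ (hb i) t ((ho t i).1 ht)
    clear ht
    induction h1 with
    | refl => exact .refl
    | @tail u v _ huv ih => exact ih.tail ⟨hA u v huv.1, (ho u i).2 huv.2.1, (ho v i).2 huv.2.2⟩
  · split_ifs
    · exact hd1 i j h
    · exact hd2 j i h.symm
  · rcases lt_or_gt_of_ne h with h1 | h1
    · rw [if_pos h1, if_neg h1.not_gt]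
    · rw [if_neg h1.not_gt, if_pos h1, Δ.α_α]

end Crest.Agent.R184
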