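import Crest.Agent.R184.Switch

/-! First moment bound for one pattern. -/

set_option autoImplicit false

namespace Crest.Agent.R184

open Finset

lemma pattern_sum_le {ι α : Type} [Fintype α] (F : Finset ι) (T : Finset (ι → α))
    (hT : ∀ f ∈ T, ∀ g ∈ T, (∀ i ∈ F, f i = g i) → f = g) (p : ι → α → ℝ)
    (hp : ∀ i a, 0 ≤ p i a) (hp1 : ∀ i, ∑ a, p i a ≤ 1) : ∑ f ∈ T, ∏ i ∈ F, p i (f i) ≤ 1 := by
  classical
  have h1 : ∑ f ∈ T, ∏ i ∈ F, p i (f i) =
      ∑ g ∈ T.image (fun f (i : F) => f i), ∏ i : F, p i (g i) := by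
    rw [sum_image fun f hf g hg e => hT f hf g hg fun i hi => congrFun e ⟨i, hi⟩]
    exact sum_congr rfl fun f _ => (prod_coe_sort F fun i => p i (f i)).symm
  rw [h1]
  refine (sum_le_sum_of_subset_of_nonneg (subset_univ _)
    fun g _ _ => prod_nonneg fun i _ => hp _ _).trans ?_
  rw [← Fintype.piFinset_univ, ← prod_univ_sum (fun _ : F => univ) fun i a => p i a]
  exact prod_le_one (fun i _ => sum_nonneg fun a _ => hp _ _) fun i _ => hp1 _

section

variable {V S C H PE PV : Type} {P : Pat PE PV C}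

lemma pattern_hl_congr {lb lb' : PE → S × Bool} {y : PE × Bool} (h : lb y.1 = lb' y.1) :
    hl lb y = hl lb' y := by
  unfold hl; rw [h]

lemma pattern_mark_congr (hP : P.WF) (isY : S × Bool → Prop) {lb lb' : PE → S × Bool}
    (h : ∀ x ∈ P.J, lb x = lb' x) : P.mark isY lb = P.mark isY lb' := by
  funext w
  refine propext (and_congr_right fun hw => ?_)
  rw [pattern_hl_congr (h _ (hP.h1_mem w hw).1), pattern_hl_congr (h _ (hP.h2_mem w hw).1)]

lemma pattern_wt_congr (hP : P.WF) (isY : S × Bool → Prop) (pm : Bool → ℝ)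
    (pe : Bool → S × Bool → ℝ) (nb : S × Bool → S × Bool → ℝ) (nh : ℝ) {lb lb' : PE → S × Bool}
    (h : ∀ x ∈ P.J, lb x = lb' x) : P.wt isY pm pe nb nh lb = P.wt isY pm pe nb nh lb' := by
  unfold Pat.wt
  rw [pattern_mark_congr hP isY h]
  congr 1
  · congr 1
    exact prod_congr rfl fun x hx => by rw [h x (hP.FE_sub hx)]
  · refine prod_congr rfl fun w _ => ?_
    unfold Pat.Nh
    split_ifs with h1 hw
    · rfl
    · rw [pattern_hl_congr (h _ (hP.h1_mem w hw).1), pattern_hl_congr (h _ (hP.h2_mem w hw).1)]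
    · rfl

/-- consistent labellings -/
structure PatternLab (P : Pat PE PV C) (isY : S × Bool → Prop) (lb₀ lb : PE → S × Bool) :
    Prop where
  out : ∀ x, x ∉ P.J → lb x = lb₀ x
  cE : ∀ x ∈ P.J, x ∉ P.FE → lb x = hl lb (P.pE x)
  cV : ∀ w ∈ P.Rg, w ∉ P.FV → (P.mark isY lb w ↔ P.mark isY lb (P.pV w))
  ne : ∀ w ∈ P.Rg, hl lb (P.h1 w) ≠ hl lb (P.h2 w)

open Classical in
lemma pattern_lab_sum [Fintype S] [Fintype PE] [Fintype PV] (hP : P.WF) (isY : S × Bool → Prop)
    (lb₀ : PE → S × Bool) (pm : Bool → ℝ) (pe : Bool → S × Bool → ℝ) (hpm : ∀ b, 0 ≤ pm b)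
    (hpm1 : pm true + pm false ≤ 1) (hpe : ∀ b l, 0 ≤ pe b l) (hpe1 : ∀ b, ∑ l, pe b l ≤ 1) :
    ∑ lb ∈ univ.filter (PatternLab P isY lb₀), (∏ w ∈ P.FV, pm (decide (P.mark isY lb w))) *
      (∏ x ∈ P.FE, pe (decide (P.mark isY lb (P.tv x) ∨ P.mark isY lb (P.hv x))) (lb x)) ≤ 1 := by
  set T := univ.filter (PatternLab P isY lb₀) with hT
  let mk : (PE → S × Bool) → PV → Bool := fun lb w => decide (P.mark isY lb w)
  rw [← sum_fiberwise_of_maps_to (g := mk) (t := T.image mk) fun lb h => mem_image_of_mem _ h]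
  refine le_trans (sum_le_sum fun μ _ => ?_) (pattern_sum_le P.FV (T.image mk) ?_
    (fun _ b => pm b) (fun _ b => hpm b) fun _ => by simpa using hpm1)
  · have e : ∀ lb ∈ T.filter (fun lb => mk lb = μ), (∏ w ∈ P.FV, pm (decide (P.mark isY lb w))) *
        (∏ x ∈ P.FE, pe (decide (P.mark isY lb (P.tv x) ∨ P.mark isY lb (P.hv x))) (lb x)) =
        (∏ w ∈ P.FV, pm (μ w)) * ∏ x ∈ P.FE, pe (μ (P.tv x) || μ (P.hv x)) (lb x) := by
      intro lb h
      rw [← (mem_filter.1 h).2]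
      simp only [mk, Bool.decide_or]
    rw [sum_congr rfl e, ← mul_sum]
    refine mul_le_of_le_one_right (prod_nonneg fun _ _ => hpm _) (pattern_sum_le P.FE _ ?_
      (fun x l => pe (μ (P.tv x) || μ (P.hv x)) l) (fun _ _ => hpe _ _) fun _ => hpe1 _)
    intro f hf g hg h
    have hf' := (mem_filter.1 (mem_filter.1 hf).1).2
    have hg' := (mem_filter.1 (mem_filter.1 hg).1).2
    have key : ∀ k x, P.rkE x < k → x ∈ P.J → f x = g x := by
      intro k
      induction k with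
      | zero => intro x hx; omega
      | succ k ih =>
        intro x hx hJ
        by_cases hF : x ∈ P.FE
        · exact h x hF
        · have := hP.parE x hJ hF
          rw [hf'.cE x hJ hF, hg'.cE x hJ hF]
          exact pattern_hl_congr (ih _ (by omega) this.1)
    funext x
    by_cases hJ : x ∈ P.J
    · exact key _ x (Nat.lt_succ_self _) hJ
    · rw [hf'.out x hJ, hg'.out x hJ]
  · intro μ hμ ν hν h
    obtain ⟨f, hf, rfl⟩ := mem_image.1 hμ
    obtain ⟨g, hg, rfl⟩ := mem_image.1 hν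
    have hf' := (mem_filter.1 hf).2
    have hg' := (mem_filter.1 hg).2
    simp only [mk, decide_eq_decide] at h
    have key : ∀ k w, P.rkV w < k → w ∈ P.Rg → (P.mark isY f w ↔ P.mark isY g w) := by
      intro k
      induction k with
      | zero => intro x hx; omega
      | succ k ih =>
        intro w hw hR
        by_cases hF : w ∈ P.FV
        · exact h w hF
        · have := hP.parV w hR hF
          rw [hf'.cV w hR hF, hg'.cV w hR hF]
          exact ih _ (by omega) this.1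
    funext w
    simp only [mk, decide_eq_decide]
    by_cases hR : w ∈ P.Rg
    · exact key _ w (Nat.lt_succ_self _) hR
    · exact iff_of_false (fun h => hR h.1) fun h => hR h.1

open Classical in
/-- possible images of a vertex of the pattern -/
noncomputable def patternT [Fintype V] (D : HES V S C H) (j0 : V) (P : Pat PE PV C)
    (lb : PE → S × Bool) (w : PV) : Finset V :=
  if w ∈ P.W then univ.filter fun v => D.col v = P.colr w ∧ (w ∈ P.RT → v = j0) ∧
    ∀ y : PE × Bool, y.1 ∈ P.J → P.loc y = w → D.has v (hl lb y) else {j0}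

lemma patternT_card [Fintype V] [Fintype H] (D : HES V S C H) (j0 : V) (hP : P.WF)
    {nb : S × Bool → S × Bool → ℝ} {nh : ℝ}
    (hnb : ∀ c l l', l ≠ l' → ((D.pairV c l l').card : ℝ) ≤ nb l l')
    (hnh : ∀ c l, ((D.cls c l).card : ℝ) ≤ nh) {lb : PE → S × Bool}
    (hne : ∀ w ∈ P.Rg, hl lb (P.h1 w) ≠ hl lb (P.h2 w)) {w : PV} (hw : w ∈ P.W) :
    (#(patternT D j0 P lb w) : ℝ) ≤ P.Nh nb nh lb w := by
  classical
  unfold patternT Pat.Nh
  rw [if_pos hw]
  split_ifs with h1 h2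
  · have : _ ≤ #({j0} : Finset V) := card_le_card (s := univ.filter fun v => D.col v = P.colr w ∧
      (w ∈ P.RT → v = j0) ∧ ∀ y : PE × Bool, y.1 ∈ P.J → P.loc y = w → D.has v (hl lb y))
      fun v hv => mem_singleton.2 ((mem_filter.1 hv).2.2.1 h1)
    exact_mod_cast this
  · refine le_trans (Nat.cast_le.2 (card_le_card fun v hv => ?_)) (hnb (P.colr w) _ _ (hne w h2))
    obtain ⟨-, a, -, b⟩ := mem_filter.1 hv
    exact mem_filter.2 ⟨mem_univ _, a, b _ (hP.h1_mem w h2).1 (hP.h1_mem w h2).2,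
      b _ (hP.h2_mem w h2).1 (hP.h2_mem w h2).2⟩
  · obtain ⟨y, hy, hy'⟩ : ∃ y : PE × Bool, y.1 ∈ P.J ∧ P.loc y = w := by
      obtain ⟨x, hx, h | h⟩ := hP.touch w hw
      · exact ⟨(x, false), hx, h⟩
      · exact ⟨(x, true), hx, h⟩
    refine le_trans (Nat.cast_le.2 (le_trans (card_le_card fun v hv => ?_)
      (card_image_le (f := D.vert)))) (hnh (P.colr w) (hl lb y))
    obtain ⟨-, a, -, b⟩ := mem_filter.1 hv
    obtain ⟨h, rfl, e⟩ := b y hy hy'
    exact mem_image_of_mem _ (mem_filter.2 ⟨mem_univ _, a, e⟩)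

/-- the half-edge attached to a half of an edge of the pattern -/
def patternH (rev : H → H) (η : PE → H) (y : PE × Bool) : H := if y.2 then rev (η y.1) else η y.1

variable {D : HES V S C H} {isY : S × Bool → Prop} {j0 : V} {rev : H → H} {η : PE → H}
  {vx : PV → V}

lemma patternH_vert (h : P.Real D isY j0 rev η vx) {y : PE × Bool} (hy : y.1 ∈ P.J) :
    D.vert (patternH rev η y) = vx (P.loc y) := by
  unfold patternH Pat.loc
  split_ifs
  · exact h.vh _ hy
  · exact h.vt _ hy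

lemma patternH_lett (hc : D.IsConf rev) (y : PE × Bool) :
    D.lett (patternH rev η y) = hl (fun x => D.lett (η x)) y := by
  unfold patternH hl
  split_ifs
  · exact hc.lett_rev _
  · rfl

lemma patternH_ne (hc : D.IsConf rev) (h : P.Real D isY j0 rev η vx) {y y' : PE × Bool}
    (hy : y.1 ∈ P.J) (hy' : y'.1 ∈ P.J) (hne : y ≠ y') :
    patternH rev η y ≠ patternH rev η y' := by
  have hr : ∀ a, rev a ≠ a := fun a e => by
    have := congrArg Prod.snd (hc.lett_rev a)
    rw [e] at this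
    simp [flp] at this
  have hi : Function.Injective rev := Function.LeftInverse.injective hc.invol
  obtain ⟨x, b⟩ := y
  obtain ⟨x', b'⟩ := y'
  by_cases hx : x = x'
  · subst hx
    cases b <;> cases b'
    · exact absurd rfl hne
    · exact (hr _).symm
    · exact hr _
    · exact absurd rfl hne
  · cases b <;> cases b'
    · exact (h.dis x hy x' hy' hx).1
    · exact (h.dis x hy x' hy' hx).2
    · exact (h.dis x' hy' x hy (Ne.symm hx)).2.symm
    · exact hi.ne (h.dis x hy x' hy' hx).1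

end

open Classical in
lemma pattern_forced {V S C H PE PV : Type} [Fintype S] [Fintype H] (D : HES V S C H)
    (isY : S × Bool → Prop) (j0 : V) (P : Pat PE PV C) (hP : P.WF) (n g m : ℕ)
    (hge : ∀ h, n ≤ (D.cls (D.col (D.vert h)) (D.lett h)).card)
    (hm : m + 2 * P.J.card + Fintype.card (S × Bool) ^ (g + 4) ≤ n) (lb : PE → S × Bool)
    (u : PV → V) :
    #{rev ∈ D.Omega g | ∃ η vx, P.Real D isY j0 rev η vx ∧ (∀ x ∈ P.J, lb x = D.lett (η x)) ∧
      ∀ w ∈ P.W, u w = vx w} * m ^ P.J.card ≤ (D.Omega g).card := by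
  rcases eq_empty_or_nonempty {rev ∈ D.Omega g | ∃ η vx, P.Real D isY j0 rev η vx ∧
    (∀ x ∈ P.J, lb x = D.lett (η x)) ∧ ∀ w ∈ P.W, u w = vx w} with h | ⟨rev₀, h⟩
  · rw [h]; simp
  obtain ⟨h0, η₀, vx₀, r₀, l₀, u₀⟩ := mem_filter.1 h
  have c₀ : D.IsConf rev₀ := (mem_filter.1 h0).2.1
  have hc : #(P.J.image fun x => (η₀ x, rev₀ (η₀ x))) = #P.J :=
    card_image_of_injOn fun x hx x' hx' e => by_contra fun hne =>
      (r₀.dis x hx x' hx' hne).1 (congrArg Prod.fst e)
  have := D.omega_forced n g m hge (P.J.image fun x => (η₀ x, rev₀ (η₀ x))) (fun z hz z' hz' e => by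
    obtain ⟨x, hx, rfl⟩ := mem_image.1 hz
    obtain ⟨x', hx', rfl⟩ := mem_image.1 hz'
    exact r₀.dis x hx x' hx' fun e' => e (by rw [e'])) (by rwa [hc])
  rw [hc] at this
  refine le_trans (Nat.mul_le_mul_right _ (card_le_card fun rev hr => ?_)) this
  obtain ⟨h1, η, vx, r, l, u'⟩ := mem_filter.1 hr
  have c : D.IsConf rev := (mem_filter.1 h1).2.1
  refine mem_filter.2 ⟨h1, fun z hz => ?_⟩
  obtain ⟨x, hx, rfl⟩ := mem_image.1 hz
  have e : η₀ x = η x := D.inj _ _
    (by rw [r₀.vt x hx, r.vt x hx, ← u₀ _ (hP.tv_mem x hx), u' _ (hP.tv_mem x hx)])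
    (by rw [← l₀ x hx, l x hx])
  refine D.inj _ _ ?_ (by rw [c.lett_rev, c₀.lett_rev])
  rw [r₀.vh x hx, ← u₀ _ (hP.hv_mem x hx), u' _ (hP.hv_mem x hx), ← r.vh x hx, ← e]

open Classical in
theorem pattern_bound {V S C H PE PV : Type} [Fintype V] [Fintype S] [Fintype H] [Fintype PE]
    [Fintype PV] (D : HES V S C H) (isY : S × Bool → Prop) (j0 : V) (P : Pat PE PV C)
    (hP : P.WF) (pm : Bool → ℝ) (pe : Bool → S × Bool → ℝ) (nb : S × Bool → S × Bool → ℝ)
    (nh : ℝ) (hpm : ∀ b, 0 ≤ pm b) (hpm1 : pm true + pm false ≤ 1) (hpe : ∀ b l, 0 ≤ pe b l)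
    (hpe1 : ∀ b, ∑ l, pe b l ≤ 1) (hnb0 : ∀ l l', 0 < nb l l')
    (hnb : ∀ c l l', l ≠ l' → ((D.pairV c l l').card : ℝ) ≤ nb l l') (hnh0 : 0 < nh)
    (hnh : ∀ c l, ((D.cls c l).card : ℝ) ≤ nh) (n g m : ℕ)
    (hge : ∀ h, n ≤ (D.cls (D.col (D.vert h)) (D.lett h)).card)
    (hm : m + 2 * P.J.card + Fintype.card (S × Bool) ^ (g + 4) ≤ n) {ε : ℝ} (hε : 0 ≤ ε) :
    (#{rev ∈ D.Omega g | ∃ η vx, P.Real D isY j0 rev η vx ∧
        1 ≤ ε * (m : ℝ) ^ P.J.card * P.wt isY pm pe nb nh fun x => D.lett (η x)} : ℝ) ≤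
      ε * (D.Omega g).card := by
  rcases eq_empty_or_nonempty {rev ∈ D.Omega g | ∃ η vx, P.Real D isY j0 rev η vx ∧
    1 ≤ ε * (m : ℝ) ^ P.J.card * P.wt isY pm pe nb nh fun x => D.lett (η x)} with h | ⟨rev₀, h⟩
  · rw [h, card_empty, Nat.cast_zero]; positivity
  obtain ⟨-, η₀, -⟩ := mem_filter.1 h
  set lb₀ := fun x => D.lett (η₀ x)
  set T := univ.filter (PatternLab P isY lb₀) with hT
  set F := fun (lb : PE → S × Bool) (u : PV → V) => {rev ∈ D.Omega g | ∃ η vx,
    P.Real D isY j0 rev η vx ∧ (∀ x ∈ P.J, lb x = D.lett (η x)) ∧ ∀ w ∈ P.W, u w = vx w} with hF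
  have hN : ∀ lb w, 0 < P.Nh nb nh lb w := fun lb w => by
    unfold Pat.Nh
    split_ifs
    exacts [one_pos, hnb0 _ _, hnh0]
  have hsub : {rev ∈ D.Omega g | ∃ η vx, P.Real D isY j0 rev η vx ∧
      1 ≤ ε * (m : ℝ) ^ P.J.card * P.wt isY pm pe nb nh fun x => D.lett (η x)} ⊆
      (T.filter fun lb => 1 ≤ ε * (m : ℝ) ^ P.J.card * P.wt isY pm pe nb nh lb).biUnion fun lb =>
        (Fintype.piFinset (patternT D j0 P lb)).biUnion fun u => F lb u := by
    intro rev hr
    obtain ⟨h1, η, vx, r, hw⟩ := mem_filter.1 hr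
    have c : D.IsConf rev := (mem_filter.1 h1).2.1
    set lb := fun x => if x ∈ P.J then D.lett (η x) else lb₀ x
    have e : ∀ x ∈ P.J, lb x = D.lett (η x) := fun x hx => if_pos hx
    have e' : ∀ y : PE × Bool, y.1 ∈ P.J → hl lb y = D.lett (patternH rev η y) := fun y hy => by
      rw [patternH_lett c]; exact pattern_hl_congr (e _ hy)
    refine mem_biUnion.2 ⟨lb, mem_filter.2 ⟨mem_filter.2 ⟨mem_univ _, fun x hx => if_neg hx,
      fun x hx hF => ?_, fun w hR hF => ?_, fun w hR => ?_⟩, ?_⟩,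
      mem_biUnion.2 ⟨fun w => if w ∈ P.W then vx w else j0, Fintype.mem_piFinset.2 fun w => ?_,
        mem_filter.2 ⟨h1, η, vx, r, e, fun w hw => if_pos hw⟩⟩⟩
    · rw [e x hx, r.cE x hx hF]
      exact (pattern_hl_congr (e _ (hP.parE x hx hF).1)).symm
    · rw [pattern_mark_congr hP isY e]
      exact r.cV w hR hF
    · have a := hP.h1_mem w hR
      have b := hP.h2_mem w hR
      rw [e' _ a.1, e' _ b.1]
      exact fun hl => patternH_ne c r a.1 b.1 (hP.h12 w hR)
        (D.inj _ _ (by rw [patternH_vert r a.1, patternH_vert r b.1, a.2, b.2]) hl)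
    · rwa [pattern_wt_congr hP isY pm pe nb nh e]
    · unfold patternT
      split_ifs with hW
      · simp only [mem_filter]
        exact ⟨mem_univ _, r.cl w hW, r.rt w, fun y hy hy' =>
          ⟨patternH rev η y, by rw [patternH_vert r hy, hy'], (e' y hy).symm⟩⟩
      · exact mem_singleton_self _
  have h1 := (card_le_card hsub).trans (card_biUnion_le.trans (sum_le_sum fun _ _ => card_biUnion_le))
  refine (Nat.cast_le.2 h1).trans ?_
  rw [Nat.cast_sum]
  have h2 := mul_le_mul_of_nonneg_left (pattern_lab_sum hP isY lb₀ pm pe hpm hpm1 hpe hpe1)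
    (show 0 ≤ ε * (D.Omega g).card by positivity)
  rw [mul_one, mul_sum] at h2
  have hA : ∀ lb, 0 ≤ (∏ w ∈ P.FV, pm (decide (P.mark isY lb w))) *
      (∏ x ∈ P.FE, pe (decide (P.mark isY lb (P.tv x) ∨ P.mark isY lb (P.hv x))) (lb x)) :=
    fun lb => mul_nonneg (prod_nonneg fun _ _ => hpm _) (prod_nonneg fun _ _ => hpe _ _)
  refine le_trans (le_trans (sum_le_sum fun lb hlb => ?_) (sum_le_sum_of_subset_of_nonneg
    (filter_subset _ _) fun lb _ _ => mul_nonneg (by positivity) (hA lb))) h2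
  obtain ⟨hl1, hl2⟩ := mem_filter.1 hlb
  have hB : 0 ≤ ∏ w ∈ P.W, (P.Nh nb nh lb w)⁻¹ := prod_nonneg fun w _ => (inv_pos.2 (hN lb w)).le
  have hwt : 0 ≤ P.wt isY pm pe nb nh lb := mul_nonneg (hA lb) hB
  have h3 : ∀ u, (#(F lb u) : ℝ) ≤ ε * (D.Omega g).card * P.wt isY pm pe nb nh lb := fun u => by
    have a : (#(F lb u) : ℝ) * m ^ P.J.card ≤ (D.Omega g).card := by
      have := pattern_forced D isY j0 P hP n g m hge hm lb u
      have b : #(F lb u) * m ^ P.J.card ≤ (D.Omega g).card := by convert this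
      exact_mod_cast b
    calc (#(F lb u) : ℝ) ≤ #(F lb u) * (ε * (m : ℝ) ^ P.J.card * P.wt isY pm pe nb nh lb) :=
          le_mul_of_one_le_right (Nat.cast_nonneg _) hl2
      _ = ε * (#(F lb u) * m ^ P.J.card) * P.wt isY pm pe nb nh lb := by ring
      _ ≤ _ := by gcongr
  have h4 : (#(Fintype.piFinset (patternT D j0 P lb)) : ℝ) *
      ∏ w ∈ P.W, (P.Nh nb nh lb w)⁻¹ ≤ 1 := by
    rw [Fintype.card_piFinset, ← prod_subset (subset_univ P.W) fun w _ hw => by
      rw [patternT, if_neg hw, card_singleton], Nat.cast_prod, ← prod_mul_distrib]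
    refine prod_le_one (fun w _ => mul_nonneg (Nat.cast_nonneg _) (inv_pos.2 (hN lb w)).le)
      fun w hw => ?_
    rw [← div_eq_mul_inv, div_le_one (hN lb w)]
    exact patternT_card D j0 hP hnb hnh (mem_filter.1 hl1).2.ne hw
  rw [Nat.cast_sum]
  refine (sum_le_card_nsmul _ _ _ fun u _ => h3 u).trans ?_
  rw [nsmul_eq_mul, Pat.wt]
  refine le_trans (le_of_eq (by ring)) (mul_le_of_le_one_right
    (mul_nonneg (by positivity) (hA lb)) h4)

end Crest.Agent.R184
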