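import Crest.Agent.R184.Fox

/-! The group ring identities. -/

set_option autoImplicit false

namespace Crest.Agent.R184

open Finset

section Aux

variable {V S H : Type} (D : HES V S (Fin 5) H)

open Classical in
/-- the weight of a letter at a vertex -/
noncomputable def ringWt (blk : S × Bool → Option (Fin 3)) (sp : Fin 4 → V)
    (α : Fin 5 → Fin 3 → ℤ) (v : V) (l : S × Bool) : ℤ :=
  if v ∈ Set.range sp then (blk l).elim 1 (α (D.col v)) else 1

/-- the weight of a half-edge -/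
noncomputable def ringX (blk : S × Bool → Option (Fin 3)) (sp : Fin 4 → V)
    (α : Fin 5 → Fin 3 → ℤ) (h : H) : ℤ :=
  ringWt D blk sp α (D.vert h) (D.lett h)

/-- the twisting -/
noncomputable def ringZeta (rev : H → H) (blk : S × Bool → Option (Fin 3)) (sp : Fin 4 → V)
    (α : Fin 5 → Fin 3 → ℤ) (h : H) : Bool :=
  decide (ringX D blk sp α h * ringX D blk sp α (rev h) =
    if (D.col (D.vert h) : ℕ) ≤ 1 then 1 else -1)

variable {rev : H → H} {blk : S × Bool → Option (Fin 3)} {sp : Fin 4 → V}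
  {α : Fin 5 → Fin 3 → ℤ}

theorem ringX_pm (hα : ∀ c m, α c m = 1 ∨ α c m = -1) (h : H) :
    ringX D blk sp α h = 1 ∨ ringX D blk sp α h = -1 := by
  unfold ringX ringWt
  split_ifs
  · cases blk (D.lett h) with
    | none => exact Or.inl rfl
    | some m => exact hα _ m
  · exact Or.inl rfl

theorem ringZeta_rev (hc : D.IsConf rev) (h : H) :
    ringZeta D rev blk sp α (rev h) = ringZeta D rev blk sp α h := by
  simp only [ringZeta, hc.invol, hc.col_rev, mul_comm]

theorem ring_rel {G : Type} [Group G] (hc : D.IsConf rev) {z : G} (hz2 : z * z = 1)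
    (hz : ∀ x, z * x = x * z) (c : V → G) (σ : S → G) (ζ : H → Bool) (hζ : ∀ h, ζ (rev h) = ζ h)
    (hrel : ∀ h, (D.lett h).2 = true →
      c (D.vert h) * σ (D.lett h).1 * (if ζ h then z else 1) = c (D.vert (rev h))) (h : H) :
    c (D.vert (rev h)) = c (D.vert h) * (if (D.lett h).2 then σ (D.lett h).1 else (σ (D.lett h).1)⁻¹) *
      (if ζ h then z else 1) := by
  by_cases hb : (D.lett h).2 = true
  · rw [if_pos hb, hrel h hb]
  · have hb' : (D.lett (rev h)).2 = true := by
      rw [hc.lett_rev]; simpa [flp] using hb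
    have := hrel (rev h) hb'
    rw [hc.invol, hc.lett_rev, hζ] at this
    rw [if_neg hb, ← this]
    simp only [flp]
    split_ifs
    · rw [mul_assoc _ z, hz, ← mul_assoc, mul_inv_cancel_right, mul_assoc, hz2, mul_one]
    · simp

theorem ring_cancel [Fintype H] {G M : Type} [Group G] [AddCommGroup M] (hc : D.IsConf rev)
    (hα : ∀ c m, α c m = 1 ∨ α c m = -1) {z : G} (hz2 : z * z = 1)
    (hz : ∀ x, z * x = x * z) (c : V → G) (σ : S → G)
    (hrel : ∀ h, (D.lett h).2 = true →
      c (D.vert h) * σ (D.lett h).1 * (if ringZeta D rev blk sp α h then z else 1) =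
        c (D.vert (rev h)))
    (F : G → M) (hF : ∀ g, F (g * z) = -F g) (cA cB : Fin 5) (hA : (cA : ℕ) ≤ 1)
    (hB : ¬ (cB : ℕ) ≤ 1) [DecidableEq S] :
    ∑ x ∈ (univ : Finset (H × H)).filter (fun x => D.lett x.1 = D.lett x.2 ∧
        D.col (D.vert x.1) = cA ∧ D.col (D.vert x.2) = cB),
      (ringX D blk sp α x.1 * ringX D blk sp α x.2) •
        F (c (D.vert x.1) * (c (D.vert x.2))⁻¹) = 0 := by
  have hr := ring_rel D hc hz2 hz c σ _ (ringZeta_rev D hc) hrel
  have hzi : z⁻¹ = z := inv_eq_of_mul_eq_one_right hz2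
  refine sum_involution (fun x _ => (rev x.1, rev x.2)) ?_ ?_ ?_ ?_
  · rintro ⟨h, h'⟩ hx
    obtain ⟨-, hl, h1, h2⟩ := mem_filter.1 hx
    dsimp only at hl h1 h2 ⊢
    have e1 : ∀ (a b s : G) (p q : Bool), a * s * (if p then z else 1) *
        (b * s * (if q then z else 1))⁻¹ =
        a * b⁻¹ * (if p then z else 1) * (if q then z else 1) := by
      intro a b s p q
      have hzc : ∀ x, Commute z x := hz
      cases p <;> cases q <;> simp only [if_true, if_false, Bool.false_eq_true, mul_one,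
        mul_inv_rev, hzi, mul_assoc, mul_inv_cancel_left]
      · rw [(hzc s).symm.left_comm, mul_inv_cancel_left, hz]
      · rw [(hzc s).symm.left_comm, mul_inv_cancel_left, hz]
      · rw [← mul_assoc z z, hz2, one_mul, mul_one, mul_inv_cancel_left]
    have e2 : ∀ (g : G) (p : Bool), F (g * (if p then z else 1)) =
        (if p then (-1 : ℤ) else 1) • F g := by
      intro g p
      cases p <;> simp [hF]
    rw [hr h, hr h', ← hl, e1, e2, e2, smul_smul, smul_smul, ← add_smul]
    have : ringX D blk sp α h * ringX D blk sp α h' +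
        ringX D blk sp α (rev h) * ringX D blk sp α (rev h') *
          (if ringZeta D rev blk sp α h' = true then -1 else 1) *
          (if ringZeta D rev blk sp α h = true then -1 else 1) = 0 := by
      simp only [ringZeta, h1, h2, hA, hB, if_true, if_false, decide_eq_true_eq]
      rcases ringX_pm D hα h with a | a <;> rcases ringX_pm D hα h' with b | b <;>
        rcases ringX_pm D hα (rev h) with a' | a' <;> rcases ringX_pm D hα (rev h') with b' | b' <;>
        rw [a, b, a', b'] <;> decide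
    rw [this, zero_smul]
  · rintro ⟨h, h'⟩ _ _ he
    have h1 : rev h = h := congrArg Prod.fst he
    have h2 := hc.lett_rev h
    rw [h1] at h2
    have := congrArg Prod.snd h2
    simp [flp] at this
  · rintro ⟨h, h'⟩ hx
    obtain ⟨-, hl, h1, h2⟩ := mem_filter.1 hx
    dsimp only at hl h1 h2
    refine mem_filter.2 ⟨mem_univ _, ?_, ?_, ?_⟩
    · simp only [hc.lett_rev, hl]
    · simp only [hc.col_rev, h1]
    · simp only [hc.col_rev, h2]
  · rintro ⟨h, h'⟩ _
    simp only [hc.invol]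

open Classical in
theorem ring_regroup [Fintype V] [Fintype S] [Fintype H] {M : Type} [AddCommMonoid M]
    (Φ : V → V → S × Bool → M) (cA cB : Fin 5) :
    ∑ x ∈ (univ : Finset (H × H)).filter (fun x => D.lett x.1 = D.lett x.2 ∧
        D.col (D.vert x.1) = cA ∧ D.col (D.vert x.2) = cB),
      Φ (D.vert x.1) (D.vert x.2) (D.lett x.1) =
    ∑ u ∈ univ.filter (fun u => D.col u = cA), ∑ v ∈ univ.filter (fun v => D.col v = cB),
      ∑ l ∈ univ.filter (fun l => D.has u l ∧ D.has v l), Φ u v l := by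
  simp only [sum_sigma']
  refine sum_bij (fun x _ => ⟨D.vert x.1, ⟨D.vert x.2, D.lett x.1⟩⟩) ?_ ?_ ?_ fun _ _ => rfl
  · rintro ⟨h, h'⟩ hx
    obtain ⟨-, hl, h1, h2⟩ := mem_filter.1 hx
    simp only [mem_sigma, mem_filter, mem_univ, true_and]
    exact ⟨h1, h2, ⟨h, rfl, rfl⟩, ⟨h', rfl, hl.symm⟩⟩
  · rintro ⟨h, h'⟩ hx ⟨k, k'⟩ hy he
    obtain ⟨-, hl, -⟩ := mem_filter.1 hx
    obtain ⟨-, hl', -⟩ := mem_filter.1 hy
    dsimp only at hl hl'
    simp only [Sigma.mk.injEq, heq_eq_eq] at he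
    obtain ⟨e1, e2, e3⟩ := he
    exact Prod.ext (D.inj _ _ e1 e3) (D.inj _ _ e2 (by rw [← hl, ← hl', e3]))
  · rintro ⟨u, v, l⟩ hx
    simp only [mem_sigma, mem_filter, mem_univ, true_and] at hx
    obtain ⟨h1, h2, ⟨h, rfl, rfl⟩, ⟨h', rfl, hl⟩⟩ := hx
    exact ⟨(h, h'), mem_filter.2 ⟨mem_univ _, hl.symm, h1, h2⟩, rfl⟩

theorem ring_sum_blk [Fintype S] {k : Type} [CommRing k] (blk : S × Bool → Option (Fin 3))
    (P : S × Bool → Prop) [DecidablePred P] (β : Option (Fin 3) → k) :
    ∑ l ∈ univ.filter P, β (blk l) = ∑ o, (#{l | P l ∧ blk l = o} : k) * β o := by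
  rw [← sum_fiberwise (s := univ.filter P) (g := blk)]
  refine sum_congr rfl fun o _ => ?_
  rw [filter_filter, sum_congr rfl (g := fun _ => β o) fun l hl => by rw [(mem_filter.1 hl).2.2],
    sum_const, nsmul_eq_mul]

open Classical in
theorem ring_inner [Fintype S] {p : ℕ} (hA : AlgOK D p blk sp) (u v : V) :
    ∑ l ∈ univ.filter (fun l => D.has u l ∧ D.has v l),
        ringWt D blk sp α u l * ringWt D blk sp α v l ≡
      1 + (if u ∈ Set.range sp ∧ v ∈ Set.range sp then ∑ m, α (D.col u) m * α (D.col v) m else 0)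
        [ZMOD p] := by
  rw [← ZMod.intCast_eq_intCast_iff]
  have hcast : ∀ {a b : ℕ}, a ≡ b [MOD p] → (a : ZMod p) = b := fun h =>
    (ZMod.natCast_eq_natCast_iff _ _ _).2 h
  have key : ∀ w, w ∉ Set.range sp → ∀ a : Fin 3 → ℤ,
      ∑ l ∈ univ.filter (fun l => D.has w l), (((blk l).elim 1 a : ℤ) : ZMod p) = 1 := by
    intro w hw a
    rw [ring_sum_blk blk _ (fun o => ((o.elim 1 a : ℤ) : ZMod p)), Fintype.sum_option,
      hcast (hA.none_nrm w hw), sum_eq_zero fun m _ => by rw [hcast (hA.some_nrm w m hw)]; simp]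
    simp
  by_cases hu : u ∈ Set.range sp <;> by_cases hv : v ∈ Set.range sp
  · have h1 : ∀ l, D.has u l := by obtain ⟨c, rfl⟩ := hu; exact hA.has_sp c
    have h2 : ∀ l, D.has v l := by obtain ⟨c, rfl⟩ := hv; exact hA.has_sp c
    simp only [ringWt, hu, hv, if_true, and_self, Int.cast_sum]
    rw [ring_sum_blk blk _ (fun o =>
      ((o.elim 1 (α (D.col u)) * o.elim 1 (α (D.col v)) : ℤ) : ZMod p)), Fintype.sum_option]
    simp only [h1, h2, true_and]
    simp only [hcast (hA.blk_card _)]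
    simp
  · have h1 : ∀ l, D.has u l := by obtain ⟨c, rfl⟩ := hu; exact hA.has_sp c
    simp only [ringWt, hu, hv, if_true, if_false, and_false, Int.cast_sum, h1, true_and, mul_one]
    simpa using key v hv _
  · have h2 : ∀ l, D.has v l := by obtain ⟨c, rfl⟩ := hv; exact hA.has_sp c
    simp only [ringWt, hu, hv, if_true, if_false, Int.cast_sum, h2, and_true, one_mul]
    simpa using key u hu _
  · simp only [ringWt, hu, hv, if_false, false_and, mul_one, sum_const, nsmul_eq_mul, add_zero]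
    simpa using hcast (hA.meet u v hu hv)

open Classical in
/-- The basic identity. -/
theorem ring_main [Fintype V] [Fintype S] [Fintype H] {G M : Type} [Group G] [AddCommGroup M]
    {p : ℕ} (hc : D.IsConf rev) (hA : AlgOK D p blk sp)
    (hα : ∀ c m, α c m = 1 ∨ α c m = -1) {z : G} (hz2 : z * z = 1)
    (hz : ∀ x, z * x = x * z) (c : V → G) (σ : S → G)
    (hrel : ∀ h, (D.lett h).2 = true →
      c (D.vert h) * σ (D.lett h).1 * (if ringZeta D rev blk sp α h then z else 1) =
        c (D.vert (rev h)))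
    (F : G → M) (hF : ∀ g, F (g * z) = -F g) (hp : ∀ g, (p : ℤ) • F g = 0)
    (cA cB : Fin 5) (hcA : (cA : ℕ) ≤ 1) (hcB : ¬ (cB : ℕ) ≤ 1) :
    ∑ u ∈ univ.filter (fun u => D.col u = cA), ∑ v ∈ univ.filter (fun v => D.col v = cB),
      F (c u * (c v)⁻¹) =
    -∑ u ∈ univ.filter (fun u => D.col u = cA), ∑ v ∈ univ.filter (fun v => D.col v = cB),
      if u ∈ Set.range sp ∧ v ∈ Set.range sp then (∑ m, α cA m * α cB m) • F (c u * (c v)⁻¹)
        else 0 := by
  have h0 := ring_cancel D hc hα hz2 hz c σ hrel F hF cA cB hcA hcB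
  have h1 := ring_regroup D (fun u v l =>
    (ringWt D blk sp α u l * ringWt D blk sp α v l) • F (c u * (c v)⁻¹)) cA cB
  rw [sum_congr rfl (g := fun x : H × H =>
    (ringX D blk sp α x.1 * ringX D blk sp α x.2) • F (c (D.vert x.1) * (c (D.vert x.2))⁻¹))
    fun x hx => by simp only [ringX, (mem_filter.1 hx).2.1]] at h1
  have h2 : (0 : M) = _ := (Eq.symm (by convert h0)).trans h1
  rw [eq_neg_iff_add_eq_zero]
  refine Eq.trans ?_ h2.symm
  rw [← sum_add_distrib]
  refine sum_congr rfl fun u hu => ?_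
  rw [← sum_add_distrib]
  refine sum_congr rfl fun v hv => ?_
  rw [← sum_smul]
  obtain ⟨t, ht⟩ := (ring_inner D (α := α) hA u v).dvd
  rw [(mem_filter.1 hu).2, (mem_filter.1 hv).2, sub_eq_iff_eq_add, ← sub_eq_iff_eq_add'] at ht
  rw [← ht, sub_smul, mul_comm, mul_smul, hp, smul_zero, sub_zero, add_smul, one_smul]
  split_ifs
  · rfl
  · rw [zero_smul]

open Classical in
theorem ring_sp [Fintype V] [Fintype S] {p : ℕ} (hA : AlgOK D p blk sp) {M : Type}
    [AddCommMonoid M] (Φ : V → V → M) (a b : Fin 4) :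
    ∑ u ∈ univ.filter (fun u => D.col u = a.castSucc),
      ∑ v ∈ univ.filter (fun v => D.col v = b.castSucc),
        (if u ∈ Set.range sp ∧ v ∈ Set.range sp then Φ u v else 0) = Φ (sp a) (sp b) := by
  have key : ∀ (a : Fin 4) (u : V), D.col u = a.castSucc → u ∈ Set.range sp → u = sp a := by
    rintro a _ h ⟨b, rfl⟩
    rw [hA.col_sp] at h
    rw [Fin.castSucc_injective _ h]
  rw [sum_eq_single (sp a), sum_eq_single (sp b)]
  · simp
  · intro v hv hne
    exact if_neg fun h => hne (key b v (mem_filter.1 hv).2 h.2)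
  · intro h
    exact (h (mem_filter.2 ⟨mem_univ _, hA.col_sp b⟩)).elim
  · intro u hu hne
    exact sum_eq_zero fun v _ => if_neg fun h => hne (key a u (mem_filter.1 hu).2 h.1)
  · intro h
    exact (h (mem_filter.2 ⟨mem_univ _, hA.col_sp a⟩)).elim

open Classical in
theorem ring_four [Fintype V] [Fintype S] {p : ℕ} (hA : AlgOK D p blk sp) {M : Type}
    [AddCommMonoid M] (Φ : V → V → M) (a : Fin 5) :
    ∑ u ∈ univ.filter (fun u => D.col u = a), ∑ v ∈ univ.filter (fun v => D.col v = 4),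
        (if u ∈ Set.range sp ∧ v ∈ Set.range sp then Φ u v else 0) = 0 := by
  refine sum_eq_zero fun u _ => sum_eq_zero fun v hv => if_neg ?_
  rintro ⟨-, b, rfl⟩
  have := (mem_filter.1 hv).2
  rw [hA.col_sp] at this
  exact (Fin.castSucc_lt_last b).ne this

theorem ring_idem {A : Type} [Ring A] {e x y w : A} (he : e * e = e) (hc : ∀ a, e * a = a * e)
    (h1 : x * y * e = e) (h2 : x * w * e = 0) (h3 : w * e ≠ 0) :
    ∃ a b : A, a * b = 1 ∧ b * a ≠ 1 := by
  have h4 : ∀ a, e * (a * e) = a * e := fun a => by rw [hc, mul_assoc, he]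
  have h5 : (x * e + (1 - e)) * (y * e + (1 - e)) = 1 := by
    have : (x * e + (1 - e)) * (y * e + (1 - e)) =
        x * (e * (y * e)) + x * (e - e * e) + (y * e - e * (y * e)) + (1 - e - e + e * e) := by
      noncomm_ring
    rw [this, h4, he, ← mul_assoc, h1]
    noncomm_ring
  refine ⟨_, _, h5, fun h6 => h3 ?_⟩
  have h7 : (x * e + (1 - e)) * (w * e) = 0 := by
    have : (x * e + (1 - e)) * (w * e) = x * (e * (w * e)) + (w * e - e * (w * e)) := by
      noncomm_ring
    rw [this, h4, ← mul_assoc, h2]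
    simp
  rw [← one_mul (w * e), ← h6, mul_assoc, h7, mul_zero]

open Classical in
/-- The common part of the two direct finiteness counterexamples. -/
theorem ring_df [Fintype V] [Fintype S] [Fintype H] {G K : Type} [Group G] [CommRing K] {p : ℕ}
    [CharP K p] (hc : D.IsConf rev) (hA : AlgOK D p blk sp)
    (hα : ∀ c m, α c m = 1 ∨ α c m = -1) (hα1 : ((∑ m, α 0 m * α 2 m : ℤ) : K) = 1)
    {z : G} (hz2 : z * z = 1) (hz : ∀ x, z * x = x * z) (c : V → G) (σ : S → G)
    (hrel : ∀ h, (D.lett h).2 = true →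
      c (D.vert h) * σ (D.lett h).1 * (if ringZeta D rev blk sp α h then z else 1) =
        c (D.vert (rev h)))
    {e : MonoidAlgebra K G} (he : e * e = e) (hce : ∀ a, e * a = a * e)
    (hze : MonoidAlgebra.of K G z * e = -e)
    (hw : (∑ v ∈ univ.filter (fun v => D.col v = 4), MonoidAlgebra.of K G (c v)⁻¹) * e ≠ 0) :
    ∃ a b : MonoidAlgebra K G, a * b = 1 ∧ b * a ≠ 1 := by
  have main := ring_main D hc hA hα hz2 hz c σ hrel (fun g => MonoidAlgebra.of K G g * e)
    (fun g => by rw [map_mul, mul_assoc, hze, mul_neg]) (fun g => by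
      rw [← Int.cast_smul_eq_zsmul K]
      simp)
  have m1 := main 0 2 (by decide) (by decide)
  have m2 := main 0 4 (by decide) (by decide)
  rw [ring_four D hA, neg_zero] at m2
  have m3 := ring_sp D hA (fun u v => (∑ m, α 0 m * α 2 m) •
    (MonoidAlgebra.of K G (c u * (c v)⁻¹) * e)) 0 2
  rw [show (0 : Fin 4).castSucc = 0 from rfl, show (2 : Fin 4).castSucc = 2 from rfl] at m3
  rw [m3, ← Int.cast_smul_eq_zsmul K, hα1, one_smul] at m1
  simp only [map_mul, ← sum_mul, ← mul_sum] at m1 m2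
  refine ring_idem (x := ∑ u ∈ univ.filter (fun u => D.col u = 0), MonoidAlgebra.of K G (c u))
    (y := -((∑ v ∈ univ.filter (fun v => D.col v = 2), MonoidAlgebra.of K G (c v)⁻¹) *
      MonoidAlgebra.of K G (c (sp 0) * (c (sp 2))⁻¹)⁻¹)) he hce ?_ m2 hw
  rw [mul_neg, neg_mul, ← mul_assoc, mul_assoc _ _ e, ← hce, ← mul_assoc, m1, ← map_mul, neg_mul,
    neg_neg, mul_assoc, hce, ← mul_assoc, ← map_mul, mul_inv_cancel, map_one, one_mul]

end Aux

variable {V S H : Type} [Fintype V] [Fintype S] [Fintype H] (D : HES V S (Fin 5) H)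
  {rev : H → H} {blk : S × Bool → Option (Fin 3)} {sp : Fin 4 → V} {j0 : V}

omit [Fintype S] [Fintype H] in
open Classical in
theorem ring_coeff {G K : Type} [Group G] [CommRing K] (c : V → G) (hj : D.col j0 = 4)
    (hroot : ∀ j, j ≠ j0 → c j ≠ c j0) :
    (∑ v ∈ univ.filter (fun v => D.col v = 4), MonoidAlgebra.of K G (c v)⁻¹).coeff (c j0)⁻¹ =
      1 := by
  rw [MonoidAlgebra.coeff_sum, Finsupp.finsetSum_apply, sum_eq_single j0]
  · simp
  · intro v _ hv
    simp [hroot v hv]
  · intro h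
    exact (h (mem_filter.2 ⟨mem_univ _, hj⟩)).elim

theorem ring_two (hc : D.IsConf rev) (hA : AlgOK D 2 blk sp) (hj : D.col j0 = 4)
    (hroot : ∀ j, j ≠ j0 → (D.tp rev).gen (.inl j) ≠ (D.tp rev).gen (.inl j0)) :
    ∃ a b : MonoidAlgebra (ZMod 2) (D.tp rev).Grp, a * b = 1 ∧ b * a ≠ 1 := by
  refine ring_df D (α := fun _ _ => 1) (z := 1) (e := 1) hc hA (fun _ _ => Or.inl rfl) (by decide)
    (mul_one 1) (fun x => by rw [one_mul, mul_one]) (fun v => (D.tp rev).gen (.inl v))
    (fun s => (D.tp rev).gen (.inr s)) (fun h hh => ?_) (mul_one 1)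
    (fun x => by rw [one_mul, mul_one]) ?_ ?_
  · rw [ite_self, mul_one]
    exact (D.tp rev).gen_rel ⟨h, hh⟩
  · rw [map_one, mul_one, eq_neg_iff_add_eq_zero, ← one_smul (ZMod 2) (1 : MonoidAlgebra _ _),
      ← add_smul, show (1 + 1 : ZMod 2) = 0 from rfl, zero_smul]
  · rw [mul_one]
    intro h0
    have := ring_coeff D (K := ZMod 2) (fun v => (D.tp rev).gen (.inl v)) hj hroot
    rw [h0] at this
    exact zero_ne_one this

omit [Fintype H] in
theorem ring_ext (hasp : (D.tp rev).Aspherical) (ζ : H → Bool) :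
    ∃ (G : Type) (_ : Group G) (z : G) (c : V → G) (σ : S → G) (π : G →* (D.tp rev).Grp),
      Group.FG G ∧ (∀ x, z * x = x * z) ∧ z * z = 1 ∧ z ≠ 1 ∧ π z = 1 ∧
      (∀ v, π (c v) = (D.tp rev).gen (.inl v)) ∧
      ∀ h, (D.lett h).2 = true →
        c (D.vert h) * σ (D.lett h).1 * (if ζ h then z else 1) = c (D.vert (rev h)) := by
  obtain ⟨G, _, z, γ, π, h1, h2, h3, h4, h5, h6, h7⟩ := (D.tp rev).central hasp fun r => ζ r.1
  exact ⟨G, inferInstance, z, fun v => γ (.inl v), fun s => γ (.inr s), π,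
    Group.fg_iff.2 ⟨_, h7, (Set.finite_range γ).insert z⟩, h1, h2, h3, h4, fun v => h5 _,
    fun h hh => h6 ⟨h, hh⟩⟩

theorem ring_of_comm {G K : Type} [Group G] [CommRing K] {z : G} (hz : ∀ x, z * x = x * z)
    (a : MonoidAlgebra K G) : MonoidAlgebra.of K G z * a = a * MonoidAlgebra.of K G z := by
  induction a using MonoidAlgebra.induction_linear with
  | zero => simp
  | add a b ha hb => rw [mul_add, add_mul, ha, hb]
  | single g r => simp [MonoidAlgebra.single_mul_single, hz]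

theorem ring_odd {p : ℕ} (hp : p.Prime) (hp2 : p ≠ 2) (hc : D.IsConf rev) (hA : AlgOK D p blk sp)
    (hj : D.col j0 = 4) (hasp : (D.tp rev).Aspherical)
    (hroot : ∀ j, j ≠ j0 → (D.tp rev).gen (.inl j) ≠ (D.tp rev).gen (.inl j0))
    (K : Type) [Field K] [CharP K p] :
    ∃ (G : Type) (_ : Group G), Group.FG G ∧ (∃ g : G, g ≠ 1 ∧ IsOfFinOrder g) ∧
      ∃ a b : MonoidAlgebra K G, a * b = 1 ∧ b * a ≠ 1 := by
  classical
  let α : Fin 5 → Fin 3 → ℤ := fun c m => if c = 2 ∧ m = 2 then -1 else 1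
  obtain ⟨G, _, z, c, σ, π, hfg, hz, hz2, hz1, hπz, hπc, hrel⟩ :=
    ring_ext D hasp (ringZeta D rev blk sp α)
  refine ⟨G, inferInstance, hfg, ⟨z, hz1, isOfFinOrder_iff_pow_eq_one.2 ⟨2, two_pos, by
    rw [pow_two, hz2]⟩⟩, ?_⟩
  have h2 : (2 : K) ≠ 0 := by
    intro h
    have : p ∣ 2 := (CharP.cast_eq_zero_iff K p 2).1 (by exact_mod_cast h)
    exact hp2 ((Nat.prime_dvd_prime_iff_eq hp Nat.prime_two).1 this)
  set Z := MonoidAlgebra.of K G z with hZ
  have hZ2 : Z * Z = 1 := by rw [hZ, ← map_mul, hz2, map_one]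
  have hZe : Z * (1 - Z) = -(1 - Z) := by rw [mul_sub, hZ2, mul_one, neg_sub]
  refine ring_df D (α := α) (e := (2 : K)⁻¹ • (1 - Z)) hc hA (by decide) ?_ hz2 hz c σ hrel
    ?_ ?_ ?_ ?_
  · rw [show (∑ m, α 0 m * α 2 m : ℤ) = 1 by decide, Int.cast_one]
  · rw [smul_mul_smul_comm, sub_mul, hZe, one_mul, sub_neg_eq_add, ← two_smul K, smul_smul,
      inv_mul_cancel_right₀ h2]
  · intro a
    rw [smul_mul_assoc, mul_smul_comm, sub_mul, mul_sub, hZ, ring_of_comm hz, one_mul, mul_one]
  · rw [mul_smul_comm, hZe, smul_neg]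
  · rw [mul_smul_comm]
    intro h0
    have h3 := (smul_eq_zero.1 h0).resolve_left (inv_ne_zero h2)
    have hroot' : ∀ j, j ≠ j0 → c j ≠ c j0 := fun j hj h =>
      hroot j hj (by rw [← hπc, ← hπc, h])
    have h4 := ring_coeff D (K := K) c hj hroot'
    rw [mul_sub, mul_one, sub_eq_zero] at h3
    rw [h3, sum_mul, MonoidAlgebra.coeff_sum, Finsupp.finsetSum_apply, sum_eq_zero] at h4
    · exact zero_ne_one h4
    · intro v _
      rw [hZ, ← map_mul, MonoidAlgebra.of_apply, MonoidAlgebra.coeff_single,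
        Finsupp.single_apply, if_neg]
      intro h5
      have h6 := congrArg π h5
      rw [map_mul, hπz, mul_one, map_inv, map_inv, inv_inj, hπc, hπc] at h6
      have h7 : v = j0 := by_contra fun h => hroot v h h6
      rw [h7] at h5
      exact hz1 (mul_eq_left.1 h5)

theorem ring_three (hc : D.IsConf rev) (hA : AlgOK D 3 blk sp) (hasp : (D.tp rev).Aspherical) :
    ∃ (G : Type) (_ : Group G) (z : G) (a b : Fin 2 → MonoidAlgebra ℤ G)
      (X : Matrix (Fin 2) (Fin 2) (MonoidAlgebra ℤ G)),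
      Group.FG G ∧ (∀ x, z * x = x * z) ∧ z * z = 1 ∧ z ≠ 1 ∧
      ∀ r s, a r * b s = (if r = s then 1 else 0) + (MonoidAlgebra.of ℤ G z - 2) * X r s := by
  classical
  let α : Fin 5 → Fin 3 → ℤ := fun c m => if (c = 1 ∨ c = 2) ∧ m = 2 then -1 else 1
  obtain ⟨G, _, z, c, σ, π, hfg, hz, hz2, hz1, -, -, hrel⟩ :=
    ring_ext D hasp (ringZeta D rev blk sp α)
  set Z := MonoidAlgebra.of ℤ G z with hZ
  have hZ2 : Z * Z = 1 := by rw [hZ, ← map_mul, hz2, map_one]
  let iA : Fin 2 → Fin 4 := ![0, 1]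
  let iB : Fin 2 → Fin 4 := ![2, 3]
  let a : Fin 2 → MonoidAlgebra ℤ G := fun r => -(MonoidAlgebra.of ℤ G (c (sp (iA r)))⁻¹ *
    ∑ u ∈ univ.filter (fun u => D.col u = (iA r).castSucc), MonoidAlgebra.of ℤ G (c u))
  let b : Fin 2 → MonoidAlgebra ℤ G := fun s =>
    (∑ v ∈ univ.filter (fun v => D.col v = (iB s).castSucc), MonoidAlgebra.of ℤ G (c v)⁻¹) *
      MonoidAlgebra.of ℤ G (c (sp (iB s)))
  let N : AddSubgroup (MonoidAlgebra ℤ G) := (AddMonoidHom.mulLeft (Z - 2)).range
  have hN3 : ∀ y, (3 : ℤ) • QuotientAddGroup.mk' N y = 0 := by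
    intro y
    rw [← map_zsmul, QuotientAddGroup.mk'_apply, QuotientAddGroup.eq_zero_iff]
    refine ⟨-((Z + 2) * y), ?_⟩
    have : (Z - 2) * -((Z + 2) * y) = 4 * y - Z * Z * y := by noncomm_ring
    rw [AddMonoidHom.coe_mulLeft, this, hZ2]
    noncomm_ring
  have hNz : ∀ y, QuotientAddGroup.mk' N (Z * y) = -QuotientAddGroup.mk' N y := by
    intro y
    have h1 : QuotientAddGroup.mk' N ((Z - 2) * y) = 0 := by
      rw [QuotientAddGroup.mk'_apply, QuotientAddGroup.eq_zero_iff]
      exact ⟨y, rfl⟩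
    have h2 : Z * y = (Z - 2) * y + (3 : ℤ) • y - y := by noncomm_ring
    rw [h2, map_sub, map_add, h1, map_zsmul, hN3]
    simp
  have key : ∀ r s, ∃ x, (Z - 2) * x = a r * b s - (if r = s then 1 else 0) := by
    intro r s
    have main := ring_main D (α := α) hc hA (by decide) hz2 hz c σ hrel
      (fun g => QuotientAddGroup.mk' N
        (MonoidAlgebra.of ℤ G ((c (sp (iA r)))⁻¹ * g * c (sp (iB s)))))
      (fun g => by
        rw [← hNz, hZ, ← map_mul, hz, ← mul_assoc, mul_assoc _ z, hz, ← mul_assoc])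
      (fun g => hN3 _) (iA r).castSucc (iB s).castSucc (by revert r; decide) (by revert s; decide)
    rw [ring_sp D hA (fun u v => (∑ m, α (iA r).castSucc m * α (iB s).castSucc m) •
      QuotientAddGroup.mk' N (MonoidAlgebra.of ℤ G
        ((c (sp (iA r)))⁻¹ * (c u * (c v)⁻¹) * c (sp (iB s)))))] at main
    simp only [← map_sum] at main
    simp only [map_mul, ← sum_mul, ← mul_sum] at main
    have h1 : QuotientAddGroup.mk' N (a r * b s) =
        (∑ m, α (iA r).castSucc m * α (iB s).castSucc m) • QuotientAddGroup.mk' N 1 := by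
      simp only [a, b]
      rw [neg_mul, map_neg, ← mul_assoc, mul_assoc (MonoidAlgebra.of ℤ G _), main, neg_neg,
        ← map_mul, ← map_mul, ← map_mul, inv_mul_cancel_left, inv_mul_cancel, map_one]
    have h2 : (∑ m, α (iA r).castSucc m * α (iB s).castSucc m) = if r = s then 1 else 3 := by
      clear main h1
      revert r s
      decide
    have h3 : QuotientAddGroup.mk' N (a r * b s - (if r = s then 1 else 0)) = 0 := by
      rw [map_sub, h1, h2]
      split_ifs
      · simp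
      · rw [hN3, map_zero, sub_zero]
    rw [QuotientAddGroup.mk'_apply, QuotientAddGroup.eq_zero_iff] at h3
    exact h3
  choose X hX using key
  exact ⟨G, inferInstance, z, a, b, X, hfg, hz, hz2, hz1, fun r s => by
    rw [show X r s = X r s from rfl, ← hZ, hX, add_sub_cancel]⟩

theorem not_residuallyFinite {G : Type} [Group G] (a b : MonoidAlgebra (ZMod 2) G)
    (hab : a * b = 1) (hba : b * a ≠ 1) : ¬ Group.ResiduallyFinite G := by
  intro hG
  classical
  set y := b * a - 1 with hy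
  set T := y.coeff.support with hT
  choose N hN using fun i : {x : T × T // x.1 ≠ x.2} =>
    Group.exists_finiteIndexNormalSubgroup_of_residuallyFinite (i.1.1 : G) (i.1.2 : G)
      fun h => i.2 (Subtype.ext h)
  let Q : Type := ∀ i, G ⧸ (N i).toSubgroup
  let φ : G →* Q := MonoidHom.pi fun i => QuotientGroup.mk' (N i).toSubgroup
  have hinj : Set.InjOn φ (T : Set G) := by
    intro x hx x' hx' he
    by_contra hne
    exact hN ⟨(⟨x, hx⟩, ⟨x', hx'⟩), fun h => hne (congrArg Subtype.val h)⟩ (congrFun he _)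
  have : Finite Q := inferInstance
  have : Finite (MonoidAlgebra (ZMod 2) Q) :=
    Finite.of_injective (fun x => ⇑x.coeff)
      (DFunLike.coe_injective.comp MonoidAlgebra.coeff_injective)
  let ψ := MonoidAlgebra.mapDomainRingHom (ZMod 2) φ
  have h1 : ψ a * ψ b = 1 := by rw [← map_mul, hab, map_one]
  have h2 : ψ y = 0 := by rw [hy, map_sub, map_mul, mul_eq_one_symm h1, map_one, sub_self]
  have h3 : Finsupp.mapDomain φ y.coeff = Finsupp.mapDomain φ 0 := by
    rw [Finsupp.mapDomain_zero]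
    exact congrArg MonoidAlgebra.coeff h2
  have h4 := Finsupp.mapDomain_injOn (M := ZMod 2) (T : Set G) hinj (by simp [hT]) (by simp) h3
  exact hba (sub_eq_zero.1 (MonoidAlgebra.coeff_eq_zero.1 h4))

end Crest.Agent.R184
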