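import Crest.Agent.R184.Defs

/-! Switching: configurations of large girth exist, and prescribed edges are unlikely. -/

set_option autoImplicit false
set_option linter.unusedSectionVars false

namespace Crest.Agent.R184

open Finset

variable {V S C H : Type} [Fintype S] [Fintype H] (D : HES V S C H)

/-- walks of a given length between two vertices -/
def switchWk (rev : H → H) : ℕ → V → V → Prop
  | 0, u, v => u = v
  | i + 1, u, v => ∃ h, switchWk rev i u (D.vert h) ∧ v = D.vert (rev h)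

theorem switch_trans (rev : H → H) {i j : ℕ} {u v w : V} (h1 : switchWk D rev i u v)
    (h2 : switchWk D rev j v w) : switchWk D rev (i + j) u w := by
  induction j generalizing w with
  | zero => cases h2; exact h1
  | succ j ih =>
    obtain ⟨h, h3, h4⟩ := h2
    exact ⟨h, ih h3, h4⟩

theorem switch_single (rev : H → H) (h : H) : switchWk D rev 1 (D.vert h) (D.vert (rev h)) :=
  ⟨h, rfl, rfl⟩

theorem switch_symm {rev : H → H} (hr : ∀ h, rev (rev h) = h) {i : ℕ} {u v : V}
    (h1 : switchWk D rev i u v) : switchWk D rev i v u := by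
  induction i generalizing v with
  | zero => exact Eq.symm h1
  | succ i ih =>
    obtain ⟨h, h3, rfl⟩ := h1
    have := switch_trans D rev (switch_single D rev (rev h)) (by rw [hr]; exact ih h3)
    rwa [add_comm] at this

open Classical in
theorem switch_card_sphere (rev : H → H) (u : V) (i : ℕ) : ∀ l : S × Bool,
    #{h | switchWk D rev i u (D.vert h) ∧ D.lett h = l} ≤ Fintype.card (S × Bool) ^ i := by
  induction i with
  | zero =>
    intro l
    rw [pow_zero, card_le_one]
    intro a ha b hb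
    simp only [mem_filter, mem_univ, true_and, switchWk] at ha hb
    exact D.inj _ _ (ha.1.symm.trans hb.1) (ha.2.trans hb.2.symm)
  | succ i ih =>
    intro l
    have h1 : #{h | switchWk D rev i u (D.vert h)} ≤ Fintype.card (S × Bool) ^ (i + 1) := by
      rw [card_eq_sum_card_fiberwise (f := D.lett) (t := univ) (fun _ _ => mem_univ _)]
      refine (sum_le_card_nsmul _ _ (Fintype.card (S × Bool) ^ i) fun l' _ => ?_).trans ?_
      · rw [filter_filter]; exact ih l'
      · rw [card_univ, smul_eq_mul, pow_succ, mul_comm]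
    refine le_trans (card_le_card_of_forall_subsingleton
      (fun a b => D.vert a = D.vert (rev b)) ?_ ?_) h1
    · intro a ha
      simp only [mem_filter, mem_univ, true_and, switchWk] at ha
      obtain ⟨⟨b, hb, hb'⟩, -⟩ := ha
      exact ⟨b, by simpa using hb, hb'⟩
    · intro b _ a ha a' ha'
      simp only [mem_filter, mem_univ, true_and, Set.mem_ofPred_eq] at ha ha'
      exact D.inj _ _ (ha.2.trans ha'.2.symm) (ha.1.2.trans ha'.1.2.symm)

open Classical in
theorem switch_card_ball (rev : H → H) (u : V) (r : ℕ) (l : S × Bool) :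
    #{h | (∃ i ≤ r, switchWk D rev i u (D.vert h)) ∧ D.lett h = l} + 1 ≤
      Fintype.card (S × Bool) ^ (r + 1) := by
  have hs : 2 ≤ Fintype.card (S × Bool) := by
    have : 0 < Fintype.card S := Fintype.card_pos_iff.2 ⟨l.1⟩
    rw [Fintype.card_prod, Fintype.card_bool]; omega
  induction r with
  | zero =>
    have := switch_card_sphere D rev u 0 l
    simp only [Nat.le_zero, exists_eq_left]
    rw [pow_zero] at this
    rw [zero_add, pow_one]
    omega
  | succ r ih =>
    have h1 := switch_card_sphere D rev u (r + 1) l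
    have h2 : #{h | (∃ i ≤ r + 1, switchWk D rev i u (D.vert h)) ∧ D.lett h = l} ≤
        #{h | (∃ i ≤ r, switchWk D rev i u (D.vert h)) ∧ D.lett h = l} +
        #{h | switchWk D rev (r + 1) u (D.vert h) ∧ D.lett h = l} := by
      refine le_trans (card_le_card fun h hh => ?_) (card_union_le _ _)
      simp only [mem_filter, mem_univ, true_and, mem_union] at hh ⊢
      obtain ⟨⟨i, hi, h3⟩, h4⟩ := hh
      rcases hi.lt_or_eq with h5 | h5
      · exact Or.inl ⟨⟨i, by omega, h3⟩, h4⟩
      · exact Or.inr ⟨h5 ▸ h3, h4⟩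
    rw [pow_succ _ (r + 1)]
    nlinarith

theorem switch_key {rev rev' : H → H} (hr : ∀ h, rev (rev h) = h) (A B : H → Prop) {g : ℕ}
    (h1 : ∀ h, ¬ (A h ∨ B h) → rev' h = rev h) (hA : ∀ h, A h → B (rev' h))
    (hB : ∀ h, B h → A (rev' h)) (hAA : ∀ a b, A a → A b → b = a ∨ b = rev a)
    (hBB : ∀ a b, B a → B b → b = a ∨ b = rev a)
    (hfar : ∀ a b d, A a → B b → d ≤ g → ¬ switchWk D rev d (D.vert a) (D.vert b))
    (hg : D.Girth rev g) (p : ℕ → H) (k : ℕ) (hk : k ≤ g) (hp : D.NB rev' p (k + 1))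
    (hc : D.vert (rev' (p k)) = D.vert (p 0)) : ∀ i ≤ k, ¬ (A (p i) ∨ B (p i)) := by
  classical
  have piece : ∀ a d, a + d ≤ k → (∀ i, a ≤ i → i < a + d → ¬ (A (p i) ∨ B (p i))) →
      switchWk D rev d (D.vert (p a)) (D.vert (p (a + d))) := by
    intro a d
    induction d with
    | zero => intro _ _; rfl
    | succ d ih =>
      intro hd hs
      refine ⟨p (a + d), ih (by omega) fun i h2 h3 => hs i h2 (by omega), ?_⟩
      rw [← h1 _ (hs _ (by omega) (by omega))]
      exact (hp (a + d) (by omega)).1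
  by_contra hcon
  push Not at hcon
  have hex : ∃ i, i ≤ k ∧ (A (p i) ∨ B (p i)) := by
    obtain ⟨i, hi, h⟩ := hcon
    exact ⟨i, hi, h⟩
  obtain ⟨i, ⟨hi, hsi⟩, hmin⟩ : ∃ i, (i ≤ k ∧ (A (p i) ∨ B (p i))) ∧
      ∀ j < i, ¬ (j ≤ k ∧ (A (p j) ∨ B (p j))) :=
    ⟨Nat.find hex, Nat.find_spec hex, fun j hj => Nat.find_min hex hj⟩
  by_cases hex2 : ∃ d, i + 1 + d ≤ k ∧ (A (p (i + 1 + d)) ∨ B (p (i + 1 + d)))
  · obtain ⟨d, ⟨hd, hsd⟩, hmin2⟩ : ∃ d, (i + 1 + d ≤ k ∧ (A (p (i + 1 + d)) ∨ B (p (i + 1 + d)))) ∧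
        ∀ j < d, ¬ (i + 1 + j ≤ k ∧ (A (p (i + 1 + j)) ∨ B (p (i + 1 + j)))) :=
      ⟨Nat.find hex2, Nat.find_spec hex2, fun j hj => Nat.find_min hex2 hj⟩
    have hns : ∀ j, i + 1 ≤ j → j < i + 1 + d → ¬ (A (p j) ∨ B (p j)) := by
      intro j h2 h3 h4
      obtain ⟨j, rfl⟩ := Nat.exists_eq_add_of_le h2
      exact hmin2 j (by omega) ⟨by omega, h4⟩
    have hw := piece (i + 1) d hd hns
    obtain ⟨e1, e2⟩ := hp i (by omega)
    rw [e1] at hw
    have hsame : p (i + 1 + d) = rev' (p i) ∨ p (i + 1 + d) = rev (rev' (p i)) := by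
      rcases hsi with h2 | h2 <;> rcases hsd with h3 | h3
      · exact absurd (switch_symm D hr hw) (hfar _ _ d h3 (hA _ h2) (by omega))
      · exact hBB _ _ (hA _ h2) h3
      · exact hAA _ _ (hB _ h2) h3
      · exact absurd hw (hfar _ _ d (hB _ h2) h3 (by omega))
    rcases hsame with h2 | h2
    · obtain _ | d := d
      · exact e2 h2
      · refine hg (fun t => p (i + 1 + t)) d (by omega) (fun t ht => ?_) ?_
        · have := hp (i + 1 + t) (by omega)
          rwa [h1 _ (hns _ (by omega) (by omega))] at this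
        · have := (hp (i + 1 + d) (by omega)).1
          rw [h1 _ (hns _ (by omega) (by omega))] at this
          rw [← this, add_zero, e1, ← h2, add_assoc (i + 1)]
    · refine hg (fun t => if t = 0 then rev (rev' (p i)) else p (i + t)) d (by omega)
        (fun t ht => ?_) ?_
      · obtain _ | t := t
        · simp only [if_true, hr, zero_add, one_ne_zero, if_false]
          exact ⟨e1, e2⟩
        · simp only [Nat.succ_ne_zero, if_false]
          have := hp (i + (t + 1)) (by omega)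
          rwa [h1 _ (hns _ (by omega) (by omega))] at this
      · obtain _ | d := d
        · simp only [if_true, hr]
          rw [← h2, add_zero, e1]
        · simp only [Nat.succ_ne_zero, if_false, if_true]
          have := (hp (i + (d + 1)) (by omega)).1
          rw [h1 _ (hns _ (by omega) (by omega))] at this
          rw [← this, ← h2]
          congr 2; omega
  · have w1 := piece 0 i (by omega) fun j _ h3 h4 => hmin j (by omega) ⟨by omega, h4⟩
    rw [zero_add] at w1
    have w2 : switchWk D rev (k - i) (D.vert (rev' (p i))) (D.vert (p 0)) := by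
      rcases hi.lt_or_eq with h2 | h2
      · obtain ⟨d, rfl⟩ : ∃ d, k = i + 1 + d := ⟨k - (i + 1), by omega⟩
        have hns : ∀ j, i + 1 ≤ j → j ≤ i + 1 + d → ¬ (A (p j) ∨ B (p j)) := by
          intro j h2 h3 h4
          obtain ⟨j, rfl⟩ := Nat.exists_eq_add_of_le h2
          exact hex2 ⟨j, h3, h4⟩
        have w3 := piece (i + 1) d le_rfl fun j h3 h4 => hns j h3 h4.le
        rw [(hp i (by omega)).1] at w3
        rw [show i + 1 + d - i = d + 1 by omega]
        exact ⟨_, w3, by rw [← hc, h1 _ (hns _ (by omega) le_rfl)]⟩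
      · subst h2
        rw [Nat.sub_self]
        exact hc
    have w := switch_trans D rev w2 w1
    rcases hsi with h2 | h2
    · exact hfar _ _ _ h2 (hA _ h2) (by omega) (switch_symm D hr w)
    · exact hfar _ _ _ (hB _ h2) h2 (by omega) w

theorem switch_flp_ne (l : S × Bool) : flp l ≠ l := by
  obtain ⟨s, b⟩ := l
  cases b <;> simp [flp]

open Classical in
/-- the switched configuration -/
noncomputable def switchRev (rev : H → H) (y y' : H) : H → H :=
  fun h => Equiv.swap y y' (rev (Equiv.swap y y' h))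

theorem switch_main {rev : H → H} (hc : D.IsConf rev) {g : ℕ} (hg : D.Girth rev g) (x x' : H)
    (hcol : D.col (D.vert x') = D.col (D.vert x)) (hlet : D.lett x' = D.lett x)
    (hfar : ¬ ∃ i ≤ g + 2, switchWk D rev i (D.vert x) (D.vert x')) :
    D.IsConf (switchRev rev (rev x) (rev x')) ∧ switchRev rev (rev x) (rev x') x = rev x' ∧
      switchRev rev (rev x) (rev x') (rev x) = x' ∧
      (∀ h, h ≠ x → h ≠ rev x → h ≠ x' → h ≠ rev x' → switchRev rev (rev x) (rev x') h = rev h) ∧
      ∀ (p : ℕ → H) (k : ℕ), k ≤ g → D.NB (switchRev rev (rev x) (rev x')) p (k + 1) →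
        D.vert (switchRev rev (rev x) (rev x') (p k)) = D.vert (p 0) →
        D.NB rev p (k + 1) ∧ D.vert (rev (p k)) = D.vert (p 0) ∧ p 0 ≠ x := by
  classical
  have hr := hc.invol
  have n1 : x ≠ rev x := fun h => switch_flp_ne (D.lett x) (by rw [← hc.lett_rev, ← h])
  have n2 : x ≠ rev x' := fun h => switch_flp_ne (D.lett x) (by
    rw [← hlet, ← hc.lett_rev, ← h, hlet])
  have n3 : x' ≠ rev x := fun h => switch_flp_ne (D.lett x) (by rw [← hc.lett_rev, ← h, hlet])
  have n4 : x' ≠ rev x' := fun h => switch_flp_ne (D.lett x') (by rw [← hc.lett_rev, ← h])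
  have s1 : ∀ h, D.lett (Equiv.swap (rev x) (rev x') h) = D.lett h := by
    intro h
    rw [Equiv.swap_apply_def]
    split_ifs with h1 h2
    · rw [h1, hc.lett_rev, hc.lett_rev, hlet]
    · rw [h2, hc.lett_rev, hc.lett_rev, hlet]
    · rfl
  have s2 : ∀ h, D.col (D.vert (Equiv.swap (rev x) (rev x') h)) = D.col (D.vert h) := by
    intro h
    rw [Equiv.swap_apply_def]
    split_ifs with h1 h2
    · rw [h1, hc.col_rev, hc.col_rev, hcol]
    · rw [h2, hc.col_rev, hc.col_rev, hcol]
    · rfl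
  have v1 : switchRev rev (rev x) (rev x') x = rev x' := by
    rw [switchRev, Equiv.swap_apply_of_ne_of_ne n1 n2, Equiv.swap_apply_left]
  have v2 : switchRev rev (rev x) (rev x') (rev x) = x' := by
    rw [switchRev, Equiv.swap_apply_left, hr, Equiv.swap_apply_of_ne_of_ne n3 n4]
  have v3 : switchRev rev (rev x) (rev x') x' = rev x := by
    rw [switchRev, Equiv.swap_apply_of_ne_of_ne n3 n4, Equiv.swap_apply_right]
  have v4 : switchRev rev (rev x) (rev x') (rev x') = x := by
    rw [switchRev, Equiv.swap_apply_right, hr, Equiv.swap_apply_of_ne_of_ne n1 n2]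
  have v5 : ∀ h, h ≠ x → h ≠ rev x → h ≠ x' → h ≠ rev x' →
      switchRev rev (rev x) (rev x') h = rev h := by
    intro h a1 a2 a3 a4
    rw [switchRev, Equiv.swap_apply_of_ne_of_ne a2 a4, Equiv.swap_apply_of_ne_of_ne]
    · exact fun e => a1 (by rw [← hr h, e, hr])
    · exact fun e => a3 (by rw [← hr h, e, hr])
  refine ⟨⟨fun h => by simp [switchRev, hr], fun h => by rw [switchRev, s1, hc.lett_rev, s1],
    fun h => by rw [switchRev, s2, hc.col_rev, s2]⟩, v1, v2, v5, fun p k hk hp hcl => ?_⟩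
  have v6 : ∀ h, ¬ ((h = x ∨ h = rev x) ∨ (h = x' ∨ h = rev x')) →
      switchRev rev (rev x) (rev x') h = rev h := by
    intro h hh
    push Not at hh
    exact v5 h hh.1.1 hh.1.2 hh.2.1 hh.2.2
  have key := switch_key D hr (fun h => h = x ∨ h = rev x) (fun h => h = x' ∨ h = rev x') v6
    (by rintro h (rfl | rfl); exacts [Or.inr v1, Or.inl v2])
    (by rintro h (rfl | rfl); exacts [Or.inr v3, Or.inl v4])
    (by rintro a b (rfl | rfl) (rfl | rfl) <;> simp [hr])
    (by rintro a b (rfl | rfl) (rfl | rfl) <;> simp [hr])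
    (by
      intro a b d ha hb hd hw
      apply hfar
      have w1 : ∃ i ≤ 1, switchWk D rev i (D.vert x) (D.vert a) := by
        rcases ha with rfl | rfl
        · exact ⟨0, by omega, rfl⟩
        · exact ⟨1, le_rfl, switch_single D rev x⟩
      have w2 : ∃ i ≤ 1, switchWk D rev i (D.vert b) (D.vert x') := by
        rcases hb with rfl | rfl
        · exact ⟨0, by omega, rfl⟩
        · exact ⟨1, le_rfl, switch_symm D hr (switch_single D rev x')⟩
      obtain ⟨i, hi, w1⟩ := w1
      obtain ⟨j, hj, w2⟩ := w2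
      exact ⟨i + d + j, by omega, switch_trans D rev (switch_trans D rev w1 hw) w2⟩)
    hg p k hk hp hcl
  refine ⟨fun i hi => ?_, ?_, fun h => key 0 (Nat.zero_le _) (Or.inl (Or.inl h))⟩
  · have := hp i hi
    rwa [v6 _ (key i (by omega))] at this
  · rwa [v6 _ (key k le_rfl)] at hcl

theorem switch_girth {rev rev' : H → H} {g : ℕ} (hg : D.Girth rev g) {x : H}
    (h : ∀ (p : ℕ → H) (k : ℕ), k ≤ g → D.NB rev' p (k + 1) → D.vert (rev' (p k)) = D.vert (p 0) →
      D.NB rev p (k + 1) ∧ D.vert (rev (p k)) = D.vert (p 0) ∧ p 0 ≠ x) : D.Girth rev' g :=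
  fun p k hk hp hc => hg p k hk (h p k hk.le hp hc).1 (h p k hk.le hp hc).2.1

theorem switch_exists_conf (hflp : ∀ c l, (D.cls c (flp l)).card = (D.cls c l).card) :
    ∃ rev, D.IsConf rev := by
  classical
  let key : H → C × S := fun h => (D.col (D.vert h), (D.lett h).1)
  have hcard : ∀ (b : Bool) (P : H → Prop), (∀ h, P h ↔ (D.lett h).2 = b) → ∀ k : C × S,
      Nonempty ({a : {h // P h} // key a.1 = k} ≃ D.cls k.1 (k.2, b)) := by
    intro b P hP k
    refine ⟨(Equiv.subtypeSubtypeEquivSubtypeInter P (fun h => key h = k)).trans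
      (Equiv.subtypeEquivRight fun h => ?_)⟩
    simp only [HES.cls, mem_filter, mem_univ, true_and, key, hP, Prod.ext_iff]
    tauto
  have hE : ∀ k : C × S, Nonempty ({a : {h // (D.lett h).2 = true} // key a.1 = k} ≃
      {a : {h // ¬ (D.lett h).2 = true} // key a.1 = k}) := by
    intro k
    obtain ⟨e1⟩ := hcard true (fun h => (D.lett h).2 = true) (fun _ => Iff.rfl) k
    obtain ⟨e2⟩ := hcard false (fun h => ¬ (D.lett h).2 = true) (fun _ => by simp) k
    exact ⟨e1.trans ((Finset.equivOfCardEq (hflp k.1 (k.2, true)).symm).trans e2.symm)⟩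
  let e : {h // (D.lett h).2 = true} ≃ {h // ¬ (D.lett h).2 = true} :=
    Equiv.ofFiberEquiv (f := fun a => key a.1) (g := fun a => key a.1) fun k => (hE k).some
  have he : ∀ a, key (e a).1 = key a.1 := fun a =>
    Equiv.ofFiberEquiv_map (f := fun a : {h // (D.lett h).2 = true} => key a.1)
      (g := fun a : {h // ¬ (D.lett h).2 = true} => key a.1) (fun k => (hE k).some) a
  have he' : ∀ a, key (e.symm a).1 = key a.1 := fun a => by
    rw [← he, Equiv.apply_symm_apply]
  let rev : H → H := fun h =>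
    if hb : (D.lett h).2 = true then (e ⟨h, hb⟩).1 else (e.symm ⟨h, hb⟩).1
  have hk : ∀ h, key (rev h) = key h := by
    intro h
    simp only [rev]
    split_ifs with hb
    · exact he _
    · exact he' _
  refine ⟨rev, fun h => ?_, fun h => ?_, fun h => congrArg Prod.fst (hk h)⟩
  · by_cases hb : (D.lett h).2 = true
    · have : rev h = (e ⟨h, hb⟩).1 := dif_pos hb
      rw [this]
      simp only [rev]
      rw [dif_neg (e ⟨h, hb⟩).2]
      simp
    · have : rev h = (e.symm ⟨h, hb⟩).1 := dif_neg hb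
      rw [this]
      simp only [rev]
      rw [dif_pos (e.symm ⟨h, hb⟩).2]
      simp
  · refine Prod.ext (congrArg Prod.snd (hk h)) ?_
    by_cases hb : (D.lett h).2 = true
    · have : rev h = (e ⟨h, hb⟩).1 := dif_pos hb
      have h2 := (e ⟨h, hb⟩).2
      rw [this]
      simpa [flp, hb] using h2
    · have : rev h = (e.symm ⟨h, hb⟩).1 := dif_neg hb
      have h2 := (e.symm ⟨h, hb⟩).2
      rw [this]
      simpa [flp, hb] using h2

open Classical in
theorem switch_card_good (rev : H → H) (x : H) (r n : ℕ)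
    (hge : n ≤ (D.cls (D.col (D.vert x)) (D.lett x)).card) :
    n ≤ #{x' | D.col (D.vert x') = D.col (D.vert x) ∧ D.lett x' = D.lett x ∧
      ¬ ∃ i ≤ r, switchWk D rev i (D.vert x) (D.vert x')} + Fintype.card (S × Bool) ^ (r + 1) := by
  have h1 := switch_card_ball D rev (D.vert x) r (D.lett x)
  refine hge.trans (le_trans ?_ (Nat.add_le_add_left (Nat.le_of_succ_le h1) _))
  refine le_trans (card_le_card fun h hh => ?_) (card_union_le _ _)
  simp only [HES.cls, mem_filter, mem_univ, true_and, mem_union] at hh ⊢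
  tauto

theorem HES.omega_nonempty (n g : ℕ) (hge : ∀ h, n ≤ (D.cls (D.col (D.vert h)) (D.lett h)).card)
    (hflp : ∀ c l, (D.cls c (flp l)).card = (D.cls c l).card)
    (hn : Fintype.card (S × Bool) ^ (g + 4) < n) : (D.Omega g).Nonempty := by
  classical
  induction g with
  | zero =>
    obtain ⟨rev, h⟩ := switch_exists_conf D hflp
    exact ⟨rev, mem_filter.2 ⟨mem_univ _, h, fun p k hk => absurd hk (Nat.not_lt_zero _)⟩⟩
  | succ g ih =>
    have hn' : Fintype.card (S × Bool) ^ (g + 4) < n := by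
      rcases Nat.eq_zero_or_pos (Fintype.card (S × Bool)) with h0 | h0
      · rw [h0] at hn ⊢; simpa using hn
      · exact (Nat.pow_le_pow_right h0 (by omega)).trans_lt hn
    let St : (H → H) → Finset H := fun rev => univ.filter fun h =>
      ∃ p : ℕ → H, p 0 = h ∧ D.NB rev p (g + 1) ∧ D.vert (rev (p g)) = D.vert (p 0)
    obtain ⟨rev, hrev, hmin⟩ := exists_min_image (D.Omega g) (fun rev => (St rev).card) (ih hn')
    obtain ⟨-, hc, hg⟩ := mem_filter.1 hrev
    refine ⟨rev, mem_filter.2 ⟨mem_univ _, hc, fun p k hk hp hcl => ?_⟩⟩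
    rcases (Nat.le_of_lt_succ hk).lt_or_eq with h1 | h1
    · exact hg p k h1 hp hcl
    subst h1
    have h2 := switch_card_good D rev (p 0) (k + 2) n (hge _)
    have h3 : Fintype.card (S × Bool) ^ (k + 2 + 1) < n :=
      (Nat.pow_le_pow_right (Fintype.card_pos_iff.2 ⟨D.lett (p 0)⟩) (by omega)).trans_lt hn'
    obtain ⟨x', hx'⟩ := card_pos.1 (lt_of_add_lt_add_right ((zero_add _).trans_lt (h3.trans_le h2)))
    obtain ⟨-, a1, a2, a3⟩ := mem_filter.1 hx'
    obtain ⟨b1, -, -, -, b2⟩ := switch_main D hc hg (p 0) x' a1 a2 a3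
    have h4 := hmin _ (mem_filter.2 ⟨mem_univ _, b1, switch_girth D hg b2⟩)
    refine absurd h4 (not_le.2 (card_lt_card ⟨fun h hh => ?_, fun hs => ?_⟩))
    · obtain ⟨-, p', c1, c2, c3⟩ := mem_filter.1 hh
      obtain ⟨d1, d2, -⟩ := b2 p' k le_rfl c2 c3
      exact mem_filter.2 ⟨mem_univ _, p', c1, d1, d2⟩
    · obtain ⟨-, p', c1, c2, c3⟩ := mem_filter.1 (hs (mem_filter.2 ⟨mem_univ _, p, rfl, hp, hcl⟩))
      exact (b2 p' k le_rfl c2 c3).2.2 c1

open Classical in
theorem switch_step (n g m : ℕ)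
    (hge : ∀ h, n ≤ (D.cls (D.col (D.vert h)) (D.lett h)).card) (Z : Finset (H × H)) (x y : H)
    (hZ : ∀ z ∈ Z, z.1 ≠ x ∧ z.1 ≠ y)
    (hm : m + 2 * Z.card + Fintype.card (S × Bool) ^ (g + 4) ≤ n) :
    #{rev ∈ D.Omega g | ∀ z ∈ insert (x, y) Z, rev z.1 = z.2} * m ≤
      #{rev ∈ D.Omega g | ∀ z ∈ Z, rev z.1 = z.2} := by
  let good : (H → H) → Finset H := fun rev =>
    ({x' | D.col (D.vert x') = D.col (D.vert x) ∧ D.lett x' = D.lett x ∧
      ¬ ∃ i ≤ g + 2, switchWk D rev i (D.vert x) (D.vert x')} : Finset H) \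
      (Z.image Prod.fst ∪ Z.image Prod.snd)
  have hgood : ∀ rev, m ≤ (good rev).card := by
    intro rev
    have h1 := switch_card_good D rev x (g + 2) n (hge x)
    have h2 : Fintype.card (S × Bool) ^ (g + 2 + 1) ≤ Fintype.card (S × Bool) ^ (g + 4) :=
      Nat.pow_le_pow_right (Fintype.card_pos_iff.2 ⟨D.lett x⟩) (by omega)
    have h3 : (Z.image Prod.fst ∪ Z.image Prod.snd).card ≤ Z.card + Z.card :=
      (card_union_le _ _).trans (Nat.add_le_add card_image_le card_image_le)
    have h4 := le_card_sdiff (Z.image Prod.fst ∪ Z.image Prod.snd)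
      ({x' | D.col (D.vert x') = D.col (D.vert x) ∧ D.lett x' = D.lett x ∧
      ¬ ∃ i ≤ g + 2, switchWk D rev i (D.vert x) (D.vert x')} : Finset H)
    simp only [good]
    omega
  have hall : ∀ a ∈ ({rev ∈ D.Omega g | ∀ z ∈ insert (x, y) Z, rev z.1 = z.2}).sigma good,
      a.1 x = y ∧ switchRev a.1 y (a.1 a.2) x = a.1 a.2 ∧ switchRev a.1 y (a.1 a.2) y = a.2 ∧
      switchRev a.1 y (a.1 a.2) ∈ {rev ∈ D.Omega g | ∀ z ∈ Z, rev z.1 = z.2} := by
    rintro ⟨rev, x'⟩ ha
    obtain ⟨h1, h2⟩ := mem_sigma.1 ha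
    dsimp only at h1 h2 ⊢
    obtain ⟨h3, h4⟩ := mem_filter.1 h1
    obtain ⟨-, hc, hg⟩ := mem_filter.1 h3
    obtain ⟨h5, h6⟩ := mem_sdiff.1 h2
    obtain ⟨-, a1, a2, a3⟩ := mem_filter.1 h5
    have hxy : rev x = y := h4 (x, y) (mem_insert_self _ _)
    obtain ⟨b1, b2, b3, b4, b5⟩ := switch_main D hc hg x x' a1 a2 a3
    rw [hxy] at b1 b2 b3 b4 b5
    refine ⟨hxy, b2, b3, mem_filter.2 ⟨mem_filter.2 ⟨mem_univ _, b1, switch_girth D hg b5⟩, ?_⟩⟩
    intro z hz
    have hz' := h4 z (mem_insert_of_mem hz)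
    rw [b4 _ (hZ z hz).1 (hZ z hz).2, hz']
    · exact fun e => h6 (mem_union_left _ (mem_image.2 ⟨z, hz, e⟩))
    · exact fun e => h6 (mem_union_right _ (mem_image.2 ⟨z, hz, by rw [← hz', e, hc.invol]⟩))
  refine le_trans ?_ (card_le_card_of_injOn (fun a => switchRev a.1 y (a.1 a.2))
    (fun a ha => (hall a ha).2.2.2) ?_)
  · rw [card_sigma, ← smul_eq_mul]
    exact card_nsmul_le_sum _ _ _ fun rev _ => hgood rev
  · rintro ⟨rev, x'⟩ ha ⟨rev₂, x₂⟩ ha₂ h
    obtain ⟨-, a1, a2, -⟩ := hall _ ha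
    obtain ⟨-, b1, b2, -⟩ := hall _ ha₂
    simp only at h a1 a2 b1 b2
    have e1 : x' = x₂ := by rw [← a2, ← b2, h]
    have e2 : rev x' = rev₂ x₂ := by rw [← a1, ← b1, h]
    rw [← e2] at h
    have e3 : rev = rev₂ := by
      funext u
      have := congrFun h (Equiv.swap y (rev x') u)
      simpa [switchRev] using this
    subst e1 e3
    rfl

open Classical in
theorem HES.omega_forced (n g m : ℕ)
    (hge : ∀ h, n ≤ (D.cls (D.col (D.vert h)) (D.lett h)).card) (Z : Finset (H × H))
    (hZ : ∀ z ∈ Z, ∀ z' ∈ Z, z ≠ z' → z.1 ≠ z'.1 ∧ z.1 ≠ z'.2)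
    (hm : m + 2 * Z.card + Fintype.card (S × Bool) ^ (g + 4) ≤ n) :
    #{rev ∈ D.Omega g | ∀ z ∈ Z, rev z.1 = z.2} * m ^ Z.card ≤ (D.Omega g).card := by
  induction Z using Finset.induction_on with
  | empty => simp
  | insert z Z hz ih =>
    rw [card_insert_of_notMem hz] at hm ⊢
    have h1 := ih (fun a ha b hb => hZ a (mem_insert_of_mem ha) b (mem_insert_of_mem hb))
      (by omega)
    have h2 := switch_step D n g m hge Z z.1 z.2
      (fun a ha => hZ a (mem_insert_of_mem ha) z (mem_insert_self _ _) fun e => hz (e ▸ ha))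
      (by omega)
    rw [pow_succ', ← mul_assoc]
    exact (Nat.mul_le_mul_right _ h2).trans h1

end Crest.Agent.R184
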