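import Crest.Agent.R184.Defs

/-! Auxiliary file for `TopA`: squares, triangles and actions on fundamental groupoids. -/

set_option autoImplicit false

namespace Crest.Agent.R184

open unitInterval CategoryTheory FundamentalGroupoid

section square
variable {Y : Type} [TopologicalSpace Y]

theorem topA_sq {a b c d : Y} (p : Path a b) (q : Path b d) (r : Path a c) (s : Path c d)
    (G : C(I × I, Y)) (hp : ∀ t, G (0, t) = p t) (hq : ∀ t, G (t, 1) = q t)
    (hr : ∀ t, G (t, 0) = r t) (hs : ∀ t, G (1, t) = s t) : (p.trans q).Homotopic (r.trans s) := by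
  let F : ContinuousMap.Homotopy p.toContinuousMap s.toContinuousMap :=
    ⟨G, fun t => hp t, fun t => hs t⟩
  have h := Path.Homotopic.map_trans_evalAt F Path.id
  have e1 : p.trans q = ((Path.id.map (map_continuous p.toContinuousMap)).trans
      (F.evalAt 1)).cast p.source.symm s.target.symm := by
    ext t
    simp only [Path.cast_coe, Path.trans_apply]
    split_ifs
    · rfl
    · exact (hq _).symm
  have e2 : r.trans s = ((F.evalAt 0).trans (Path.id.map (map_continuous s.toContinuousMap))).cast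
      p.source.symm s.target.symm := by
    ext t
    simp only [Path.cast_coe, Path.trans_apply]
    split_ifs
    · exact (hr _).symm
    · rfl
  rw [e1, e2]
  exact h

/-- The collapsing map from the square to the triangle. -/
noncomputable def topAq : C(I × I, Tri) where
  toFun z := ⟨(z.2 + (1 - z.1) * min (z.2 : ℝ) (1 - z.2), z.2 - (1 - z.1) * min (z.2 : ℝ) (1 - z.2)),
    by
      have h0 : (0 : ℝ) ≤ min (z.2 : ℝ) (1 - z.2) := le_min z.2.2.1 (by linarith [z.2.2.2])
      have h1 := min_le_left (z.2 : ℝ) (1 - z.2)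
      have h2 := min_le_right (z.2 : ℝ) (1 - z.2)
      have h3 := z.1.2.1
      have h4 := z.1.2.2
      refine ⟨?_, ?_, ?_⟩ <;> dsimp only <;> nlinarith⟩
  continuous_toFun := by fun_prop

theorem topAq_one (t : I) : topAq (1, t) = Tri.s2 t := by
  simp [topAq, Tri.s2]

theorem topAq_zero {a b c : Y} (p : Path a b) (q : Path b c) (G : Tri → Y)
    (h0 : ∀ u, G (Tri.s0 u) = p u) (h1 : ∀ u, G (Tri.s1 u) = q u) (t : I) :
    G (topAq (0, t)) = p.trans q t := by
  rw [Path.trans_apply]
  split_ifs with h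
  · rw [← h0]
    congr 1
    have : min (t : ℝ) (1 - t) = t := min_eq_left (by linarith)
    simp [topAq, Tri.s0, this, two_mul]
  · rw [← h1]
    congr 1
    have : min (t : ℝ) (1 - t) = 1 - t := min_eq_right (by linarith)
    simp only [topAq, Tri.s1, ContinuousMap.coe_mk, this, Set.Icc.coe_zero, Subtype.mk.injEq,
      Prod.mk.injEq]
    constructor <;> ring

theorem topAq_bot (s : I) : topAq (s, 0) = Tri.s2 0 := by
  simp [topAq, Tri.s2]

theorem topAq_top (s : I) : topAq (s, 1) = Tri.s2 1 := by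
  simp [topAq, Tri.s2]

theorem topA_tri {a b c : Y} (p : Path a b) (q : Path b c) (r : Path a c) (G : C(Tri, Y))
    (h0 : ∀ u, G (Tri.s0 u) = p u) (h1 : ∀ u, G (Tri.s1 u) = q u) (h2 : ∀ u, G (Tri.s2 u) = r u) :
    (p.trans q).Homotopic r := by
  refine ⟨⟨⟨G.comp topAq, fun t => topAq_zero p q G h0 h1 t, fun t => ?_⟩, fun s t ht => ?_⟩⟩
  · change G (topAq (1, t)) = r t
    rw [topAq_one, h2]
  · change G (topAq (s, t)) = p.trans q t
    rcases ht with rfl | rfl
    · rw [topAq_bot, h2]; simp
    · rw [topAq_top, h2]; simp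

theorem topAq_surj : Function.Surjective topAq := by
  rintro ⟨⟨x, y⟩, h1, h2, h3⟩
  dsimp only at h1 h2 h3
  have hm : x - y ≤ 2 * min ((x + y) / 2) (1 - (x + y) / 2) := by
    rcases le_total ((x + y) / 2) (1 - (x + y) / 2) with h | h
    · rw [min_eq_left h]; linarith
    · rw [min_eq_right h]; linarith
  set m := min ((x + y) / 2) (1 - (x + y) / 2) with hm'
  have hd0 : 0 ≤ (x - y) / (2 * m) := div_nonneg (by linarith) (by linarith)
  have hd1 : (x - y) / (2 * m) ≤ 1 := div_le_one_of_le₀ hm (by linarith)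
  have key : (x - y) / (2 * m) * m = (x - y) / 2 := by
    by_cases h0 : m = 0
    · have : x - y = 0 := by rw [h0] at hm; linarith
      rw [this]; simp
    · field_simp
  refine ⟨(⟨1 - (x - y) / (2 * m), by linarith, by linarith⟩,
    ⟨(x + y) / 2, by linarith, by linarith⟩), ?_⟩
  simp only [topAq, ContinuousMap.coe_mk, Subtype.mk.injEq, Prod.mk.injEq, sub_sub_cancel, ← hm',
    key]
  constructor <;> ring

theorem topA_extend {a b c : Y} (p : Path a b) (q : Path b c) (r : Path a c)
    (h : (p.trans q).Homotopic r) : ∃ G : C(Tri, Y), (∀ u, G (Tri.s0 u) = p u) ∧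
      (∀ u, G (Tri.s1 u) = q u) ∧ ∀ u, G (Tri.s2 u) = r u := by
  obtain ⟨H⟩ := h
  have hq : Topology.IsQuotientMap topAq :=
    topAq.continuous.isClosedMap.isQuotientMap topAq.continuous topAq_surj
  let g : C(I × I, Y) := H.toHomotopy.toContinuousMap
  have hf : Function.FactorsThrough g topAq := by
    rintro ⟨s, t⟩ ⟨s', t'⟩ hz
    simp only [topAq, ContinuousMap.coe_mk, Subtype.mk.injEq, Prod.mk.injEq] at hz
    obtain rfl : t = t' := Subtype.ext (by linarith [hz.1, hz.2])
    by_cases h0 : t = 0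
    · subst h0
      exact (H.source s).trans (H.source s').symm
    by_cases h1 : t = 1
    · subst h1
      exact (H.target s).trans (H.target s').symm
    have hm : (0 : ℝ) < min (t : ℝ) (1 - t) :=
      lt_min (lt_of_le_of_ne t.2.1 fun h => h0 (Subtype.ext h.symm))
        (sub_pos.2 (lt_of_le_of_ne t.2.2 fun h => h1 (Subtype.ext h)))
    obtain rfl : s = s' := Subtype.ext (by
      have := mul_right_cancel₀ hm.ne' (add_left_cancel hz.1)
      linarith)
    rfl
  have hG : ∀ z, hq.lift g hf (topAq z) = H z := fun z =>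
    DFunLike.congr_fun (hq.lift_comp g hf) z
  refine ⟨hq.lift g hf, fun u => ?_, fun u => ?_, fun u => ?_⟩
  · have hu : (u : ℝ) / 2 ≤ 1 / 2 := by linarith [u.2.2]
    let t : I := ⟨u / 2, by linarith [u.2.1], by linarith⟩
    have e : Tri.s0 u = topAq (0, t) := by
      have : min ((u : ℝ) / 2) (1 - u / 2) = u / 2 := min_eq_left (by linarith)
      simp [topAq, Tri.s0, t, this]
    rw [e, hG, H.apply_zero]
    change p.trans q t = _
    rw [Path.trans_apply, dif_pos hu]
    congr 1
    ext
    simp only [t]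
    ring
  · let t : I := ⟨(u + 1) / 2, by linarith [u.2.1], by linarith [u.2.2]⟩
    have e : Tri.s1 u = topAq (0, t) := by
      have : min (((u : ℝ) + 1) / 2) (1 - (u + 1) / 2) = 1 - (u + 1) / 2 :=
        min_eq_right (by linarith [u.2.1])
      simp only [topAq, Tri.s1, t, this, ContinuousMap.coe_mk, Set.Icc.coe_zero, Subtype.mk.injEq,
        Prod.mk.injEq]
      constructor <;> ring
    rw [e, hG, H.apply_zero]
    change p.trans q t = _
    rw [Path.trans_apply]
    split_ifs with h
    · have hu : u = 0 := Subtype.ext (le_antisymm (by simp only [t] at h; simp; linarith) u.2.1)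
      subst hu
      simp [t]
    · congr 1
      ext
      simp only [t]
      ring
  · rw [← topAq_one, hG, H.apply_one]
    rfl

end square

/-- Objects of the fundamental groupoid. -/
abbrev ob {X : Type} (x : X) : FundamentalGroupoid X := FundamentalGroupoid.mk x

/-- An action of a pointed space up to homotopy. -/
structure TopAAct {Ω : Type} [TopologicalSpace Ω] (c : Ω) (X : Type) [TopologicalSpace X] where
  μ : C(Ω × X, X)
  η : C(I × X, X)
  η0 : ∀ x, η (0, x) = x
  η1 : ∀ x, η (1, x) = μ (c, x)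

namespace TopAAct

variable {Ω X : Type} [TopologicalSpace Ω] [TopologicalSpace X] {c : Ω} (A : TopAAct c X)

/-- The orbit map. -/
def orb (x : X) : C(Ω, X) := ⟨fun ω => A.μ (ω, x), by fun_prop⟩

/-- The translation map. -/
def tra (ω : Ω) : C(X, X) := ⟨fun x => A.μ (ω, x), by fun_prop⟩

/-- The unit path. -/
def etP (x : X) : Path x (A.μ (c, x)) := ⟨⟨fun s => A.η (s, x), by fun_prop⟩, A.η0 x, A.η1 x⟩

/-- The unit arrow. -/
def et (x : X) : ob x ⟶ (map (A.orb x)).obj (ob c) := Path.Homotopic.Quotient.mk (A.etP x)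

/-- The action of loops on objects of the fundamental groupoid. -/
noncomputable def act (a : ob c ⟶ ob c) (x : X) : ob x ⟶ ob x :=
  A.et x ≫ (map (A.orb x)).map a ≫ inv (A.et x)

theorem act_comp (a b : ob c ⟶ ob c) (x : X) : A.act (a ≫ b) x = A.act a x ≫ A.act b x := by
  simp only [act, Functor.map_comp, Category.assoc, IsIso.inv_hom_id_assoc]

theorem act_id (x : X) : A.act (𝟙 _) x = 𝟙 _ := by
  rw [act, CategoryTheory.Functor.map_id, Category.id_comp, IsIso.hom_inv_id]

theorem act_nat (a : ob c ⟶ ob c) {x y : X} (β : ob x ⟶ ob y) :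
    β ≫ A.act a y = A.act a x ≫ β := by
  induction β using Path.Homotopic.Quotient.ind with | mk β =>
  induction a using Path.Homotopic.Quotient.ind with | mk a =>
  let β' : ob x ⟶ ob y := Path.Homotopic.Quotient.mk β
  let a' : ob c ⟶ ob c := Path.Homotopic.Quotient.mk a
  let T : (map (A.orb x)).obj (ob c) ⟶ (map (A.orb y)).obj (ob c) :=
    Path.Homotopic.Quotient.mk (β.map (A.tra c).continuous)
  have h1 : β' ≫ A.et y = A.et x ≫ T :=
    Path.Homotopic.Quotient.eq.2 (topA_sq β (A.etP y) (A.etP x) (β.map (A.tra c).continuous)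
      ⟨fun z => A.η (z.1, β z.2), by fun_prop⟩ (fun t => A.η0 _) (fun t => by simp [etP])
      (fun t => by simp [etP]) fun t => A.η1 _)
  have h2 : T ≫ (map (A.orb y)).map a' = (map (A.orb x)).map a' ≫ T :=
    Path.Homotopic.Quotient.eq.2 (topA_sq (β.map (A.tra c).continuous)
      (a.map (A.orb y).continuous) (a.map (A.orb x).continuous) (β.map (A.tra c).continuous)
      ⟨fun z => A.μ (a z.1, β z.2), by fun_prop⟩ (fun t => by simp; rfl) (fun t => by simp; rfl)
      (fun t => by simp; rfl) fun t => by simp; rfl)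
  change β' ≫ A.act a' y = A.act a' x ≫ β'
  have h3 : inv (A.et x) ≫ β' = T ≫ inv (A.et y) := by
    rw [IsIso.inv_comp_eq, ← Category.assoc, ← h1, Category.assoc, IsIso.hom_inv_id,
      Category.comp_id]
  simp only [act, Category.assoc]
  rw [h3, reassoc_of% h1, reassoc_of% h2]

theorem act_surj (o : X) (φ : C(X, Ω)) (h : (ContinuousMap.id X).Homotopic ((A.orb o).comp φ))
    (hj : Joined c (φ o)) (l : ob o ⟶ ob o) : ∃ a, A.act a o = l := by
  obtain ⟨H⟩ := h
  obtain ⟨ρ₀⟩ := hj
  induction l using Path.Homotopic.Quotient.ind with | mk l =>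
  let l' : ob o ⟶ ob o := Path.Homotopic.Quotient.mk l
  let ρ : ob c ⟶ ob (φ o) := Path.Homotopic.Quotient.mk ρ₀
  let w : ob (φ o) ⟶ ob (φ o) := Path.Homotopic.Quotient.mk (l.map φ.continuous)
  let κ : ob o ⟶ (map (A.orb o)).obj (ob (φ o)) := Path.Homotopic.Quotient.mk (H.evalAt o)
  have h1 : l' ≫ κ = κ ≫ (map (A.orb o)).map w :=
    Path.Homotopic.Quotient.eq.2 (Path.Homotopic.map_trans_evalAt H l)
  refine ⟨ρ ≫ w ≫ inv ρ, ?_⟩
  change _ = l'
  have h2 := A.act_nat (ρ ≫ w ≫ inv ρ) (κ ≫ inv ((map (A.orb o)).map ρ) ≫ inv (A.et o))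
  rw [← cancel_mono (κ ≫ inv ((map (A.orb o)).map ρ) ≫ inv (A.et o)), ← h2, reassoc_of% h1]
  simp only [act, Functor.map_comp, Functor.map_inv, Category.assoc, IsIso.inv_hom_id_assoc]

end TopAAct

end Crest.Agent.R184
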