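import Crest.Agent.R184.Fox

/-! The Cayley complex of a finite triangular presentation, embedded in a product of lines. -/

set_option autoImplicit false

namespace Crest.Agent.R184.TopB

open Set Topology

/-- types of cells -/
abbrev Ty (Gn R : Type) : Type := Unit ⊕ Gn ⊕ R

/-- the fundamental domain -/
abbrev Kc (Gn R : Type) : Type := Unit ⊕ (Gn × unitInterval) ⊕ (R × Tri)

variable {Gn R : Type}

/-- assembling a map from its pieces -/
def asm {G Y : Type} (fv : G → Y) (fe : G × Gn → unitInterval → Y) (ft : G × R → Tri → Y) :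
    G × Kc Gn R → Y
  | (g, .inl _) => fv g
  | (g, .inr (.inl x)) => fe (g, x.1) x.2
  | (g, .inr (.inr x)) => ft (g, x.1) x.2

/-- interior points -/
def IsInt : Kc Gn R → Prop
  | .inl _ => True
  | .inr (.inl x) => 0 < (x.2 : ℝ) ∧ (x.2 : ℝ) < 1
  | .inr (.inr x) => 0 < x.2.1.2 ∧ x.2.1.2 < x.2.1.1 ∧ x.2.1.1 < 1

/-- dimension of the cell -/
def dim : Kc Gn R → ℕ
  | .inl _ => 0
  | .inr (.inl _) => 1
  | .inr (.inr _) => 2

theorem tri_bd (p : Tri) (h : ¬ (0 < p.1.2 ∧ p.1.2 < p.1.1 ∧ p.1.1 < 1)) :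
    ∃ u, p = Tri.s0 u ∨ p = Tri.s1 u ∨ p = Tri.s2 u := by
  obtain ⟨⟨x, y⟩, h0, h1, h2⟩ := p
  simp only at h h0 h1 h2
  by_cases e0 : y = 0
  · subst e0
    exact ⟨⟨x, h1, h2⟩, Or.inl rfl⟩
  by_cases e1 : y = x
  · subst e1
    exact ⟨⟨y, h0, h2⟩, Or.inr (Or.inr rfl)⟩
  have e2 : x = 1 := by
    by_contra e2
    exact h ⟨lt_of_le_of_ne h0 (Ne.symm e0), lt_of_le_of_ne h1 e1, lt_of_le_of_ne h2 e2⟩
  subst e2
  exact ⟨⟨y, h0, h1⟩, Or.inr (Or.inl rfl)⟩

theorem unit_bd (u : unitInterval) (h : ¬ (0 < (u : ℝ) ∧ (u : ℝ) < 1)) : u = 0 ∨ u = 1 := by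
  by_cases e0 : (u : ℝ) = 0
  · exact Or.inl (Subtype.ext e0)
  refine Or.inr (Subtype.ext ?_)
  by_contra e1
  exact h ⟨lt_of_le_of_ne u.2.1 (Ne.symm e0), lt_of_le_of_ne u.2.2 e1⟩

variable (P : TP Gn R)

/-- compatible pieces -/
structure Compat {Y : Type} (fv : P.Grp → Y) (fe : P.Grp × Gn → unitInterval → Y)
    (ft : P.Grp × R → Tri → Y) : Prop where
  e0 : ∀ e, fe e 0 = fv e.1
  e1 : ∀ e, fe e 1 = fv (e.1 * P.gen e.2)
  t0 : ∀ t u, ft t (Tri.s0 u) = fe (t.1, P.a t.2) u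
  t1 : ∀ t u, ft t (Tri.s1 u) = fe (t.1 * P.gen (P.a t.2), P.b t.2) u
  t2 : ∀ t u, ft t (Tri.s2 u) = fe (t.1, P.c t.2) u

theorem norm_edge (g : P.Grp) (s : Gn) (u : unitInterval) :
    ∃ z' : P.Grp × Kc Gn R, IsInt z'.2 ∧ ∀ (Y : Type) (fv : P.Grp → Y) fe ft,
      Compat P fv fe ft → fe (g, s) u = asm fv fe ft z' := by
  by_cases h : 0 < (u : ℝ) ∧ (u : ℝ) < 1
  · exact ⟨(g, .inr (.inl (s, u))), h, fun _ _ _ _ _ => rfl⟩
  rcases unit_bd u h with rfl | rfl
  · exact ⟨(g, .inl ()), trivial, fun _ _ _ _ hc => hc.e0 _⟩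
  · exact ⟨(g * P.gen s, .inl ()), trivial, fun _ _ _ _ hc => hc.e1 _⟩

theorem norm (z : P.Grp × Kc Gn R) :
    ∃ z' : P.Grp × Kc Gn R, IsInt z'.2 ∧ ∀ (Y : Type) (fv : P.Grp → Y) fe ft,
      Compat P fv fe ft → asm fv fe ft z = asm fv fe ft z' := by
  obtain ⟨g, k | ⟨s, u⟩ | ⟨r, p⟩⟩ := z
  · exact ⟨(g, .inl ()), trivial, fun _ _ _ _ _ => rfl⟩
  · exact norm_edge P g s u
  · by_cases h : 0 < p.1.2 ∧ p.1.2 < p.1.1 ∧ p.1.1 < 1
    · exact ⟨(g, .inr (.inr (r, p))), h, fun _ _ _ _ _ => rfl⟩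
    obtain ⟨u, rfl | rfl | rfl⟩ := tri_bd p h
    · obtain ⟨z', h1, h2⟩ := norm_edge P g (P.a r) u
      exact ⟨z', h1, fun Y fv fe ft hc => (hc.t0 (g, r) u).trans (h2 Y fv fe ft hc)⟩
    · obtain ⟨z', h1, h2⟩ := norm_edge P (g * P.gen (P.a r)) (P.b r) u
      exact ⟨z', h1, fun Y fv fe ft hc => (hc.t1 (g, r) u).trans (h2 Y fv fe ft hc)⟩
    · obtain ⟨z', h1, h2⟩ := norm_edge P g (P.c r) u
      exact ⟨z', h1, fun Y fv fe ft hc => (hc.t2 (g, r) u).trans (h2 Y fv fe ft hc)⟩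

/-- the ambient space -/
abbrev Fn : Type := P.Grp × Ty Gn R → ℝ

open Classical in
/-- basis vectors -/
noncomputable def dl (g : P.Grp) (t : Ty Gn R) : Fn P := fun c => if c = (g, t) then 1 else 0

/-- vertices -/
noncomputable def ptF (g : P.Grp) : Fn P := dl P g (.inl ())

/-- edges -/
noncomputable def egF (e : P.Grp × Gn) (u : unitInterval) : Fn P := fun c =>
  (1 - u) * dl P e.1 (.inl ()) c + u * dl P (e.1 * P.gen e.2) (.inl ()) c +
    (1 - u) * u * dl P e.1 (.inr (.inl e.2)) c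

/-- triangles -/
noncomputable def trF (t : P.Grp × R) (p : Tri) : Fn P := fun c =>
  (1 - p.1.1) * dl P t.1 (.inl ()) c + (p.1.1 - p.1.2) * dl P (t.1 * P.gen (P.a t.2)) (.inl ()) c +
    p.1.2 * dl P (t.1 * P.gen (P.c t.2)) (.inl ()) c +
    (1 - p.1.1) * (p.1.1 - p.1.2) * dl P t.1 (.inr (.inl (P.a t.2))) c +
    (p.1.1 - p.1.2) * p.1.2 * dl P (t.1 * P.gen (P.a t.2)) (.inr (.inl (P.b t.2))) c +
    (1 - p.1.1) * p.1.2 * dl P t.1 (.inr (.inl (P.c t.2))) c +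
    (1 - p.1.1) * (p.1.1 - p.1.2) * p.1.2 * dl P t.1 (.inr (.inr t.2)) c

/-- the parametrisation -/
noncomputable def Phi : P.Grp × Kc Gn R → Fn P := asm (ptF P) (egF P) (trF P)

theorem compat_Phi : Compat P (ptF P) (egF P) (trF P) where
  e0 e := by funext c; simp [egF, ptF]
  e1 e := by funext c; simp [egF, ptF]
  t0 t u := by funext c; simp [egF, trF, Tri.s0]
  t1 t u := by funext c; simp [egF, trF, Tri.s1, mul_assoc, TP.gen_rel]
  t2 t u := by funext c; simp [egF, trF, Tri.s2]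

variable {P}

theorem egF_v0 (hgen : ∀ s, P.gen s ≠ 1) (g : P.Grp) (s : Gn) (u : unitInterval) :
    egF P (g, s) u (g, .inl ()) = 1 - u := by
  simp [egF, dl, hgen s]

theorem egF_v1 (hgen : ∀ s, P.gen s ≠ 1) (g : P.Grp) (s : Gn) (u : unitInterval) :
    egF P (g, s) u (g * P.gen s, .inl ()) = u := by
  simp [egF, dl, hgen s]

theorem gen_ac (hgen : ∀ s, P.gen s ≠ 1) (r : R) : P.gen (P.a r) ≠ P.gen (P.c r) := by
  rw [← P.gen_rel r]
  simp [hgen]

theorem trF_v0 (hgen : ∀ s, P.gen s ≠ 1) (g : P.Grp) (r : R) (p : Tri) :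
    trF P (g, r) p (g, .inl ()) = 1 - p.1.1 := by
  simp [trF, dl, hgen]

theorem trF_v1 (hgen : ∀ s, P.gen s ≠ 1) (g : P.Grp) (r : R) (p : Tri) :
    trF P (g, r) p (g * P.gen (P.a r), .inl ()) = p.1.1 - p.1.2 := by
  simp [trF, dl, hgen, gen_ac hgen r]

theorem trF_v2 (hgen : ∀ s, P.gen s ≠ 1) (g : P.Grp) (r : R) (p : Tri) :
    trF P (g, r) p (g * P.gen (P.c r), .inl ()) = p.1.2 := by
  simp [trF, dl, hgen, (gen_ac hgen r).symm]

theorem Phi_inj (hgen : ∀ s, P.gen s ≠ 1) {z z' : P.Grp × Kc Gn R} (hz : IsInt z.2)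
    (hd : dim z'.2 ≤ dim z.2) (h : Phi P z = Phi P z') : z = z' := by
  obtain ⟨g, k | ⟨s, u⟩ | ⟨r, p⟩⟩ := z <;> obtain ⟨g', k' | ⟨s', u'⟩ | ⟨r', p'⟩⟩ := z' <;>
    simp only [dim] at hd <;> try omega
  · have := congrFun h (g, .inl ())
    simp only [Phi, asm, ptF, dl] at this
    by_cases e : g = g'
    · rw [e]
    · simp [e] at this
  · have := congrFun h (g, .inr (.inl s))
    obtain ⟨h1, h2⟩ := hz
    have h3 : (1 - (u : ℝ)) * u ≠ 0 := (mul_pos (by linarith) h1).ne'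
    simp only [Phi, asm, ptF, egF, dl] at this
    simp at this
    simp [this] at h3
  · have h0 := congrFun h (g, .inr (.inl s))
    obtain ⟨h1, h2⟩ := hz
    have h3 : (1 - (u : ℝ)) * u ≠ 0 := (mul_pos (by linarith) h1).ne'
    simp only [Phi, asm, egF, dl] at h0
    have e : g = g' ∧ s = s' := by
      by_contra e
      simp [e] at h0
      simp [h0] at h3
    obtain ⟨rfl, rfl⟩ := e
    have h4 := congrFun h (g, .inl ())
    simp only [Phi, asm, egF_v0 hgen] at h4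
    have : u = u' := Subtype.ext (by linarith)
    rw [this]
  · have := congrFun h (g, .inr (.inr r))
    obtain ⟨h1, h2, h3⟩ := hz
    have h3 : (1 - p.1.1) * (p.1.1 - p.1.2) * p.1.2 ≠ 0 :=
      (mul_pos (mul_pos (by linarith) (by linarith)) h1).ne'
    simp only [Phi, asm, ptF, trF, dl] at this
    simp at this
    simp [this] at h3
  · have := congrFun h (g, .inr (.inr r))
    obtain ⟨h1, h2, h3⟩ := hz
    have h3 : (1 - p.1.1) * (p.1.1 - p.1.2) * p.1.2 ≠ 0 :=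
      (mul_pos (mul_pos (by linarith) (by linarith)) h1).ne'
    simp only [Phi, asm, egF, trF, dl] at this
    simp at this
    simp [this] at h3
  · have h0 := congrFun h (g, .inr (.inr r))
    obtain ⟨h1, h2, h3⟩ := hz
    have h3 : (1 - p.1.1) * (p.1.1 - p.1.2) * p.1.2 ≠ 0 :=
      (mul_pos (mul_pos (by linarith) (by linarith)) h1).ne'
    simp only [Phi, asm, trF, dl] at h0
    have e : g = g' ∧ r = r' := by
      by_contra e
      simp [e] at h0
      simp [h0] at h3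
    obtain ⟨rfl, rfl⟩ := e
    have h4 := congrFun h (g, .inl ())
    have h5 := congrFun h (g * P.gen (P.c r), .inl ())
    simp only [Phi, asm, trF_v0 hgen, trF_v2 hgen] at h4 h5
    have : p = p' := Subtype.ext (Prod.ext (by linarith) h5)
    rw [this]

theorem Phi_inj_int (hgen : ∀ s, P.gen s ≠ 1) {z z' : P.Grp × Kc Gn R} (hz : IsInt z.2)
    (hz' : IsInt z'.2) (h : Phi P z = Phi P z') : z = z' := by
  rcases le_total (dim z'.2) (dim z.2) with hd | hd
  · exact Phi_inj hgen hz hd h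
  · exact (Phi_inj hgen hz' hd h.symm).symm

theorem asm_eq_of_Phi_eq (hgen : ∀ s, P.gen s ≠ 1) {Y : Type} {fv : P.Grp → Y}
    {fe : P.Grp × Gn → unitInterval → Y} {ft : P.Grp × R → Tri → Y} (hc : Compat P fv fe ft)
    {z z' : P.Grp × Kc Gn R} (h : Phi P z = Phi P z') : asm fv fe ft z = asm fv fe ft z' := by
  obtain ⟨y, hy, hy2⟩ := norm P z
  obtain ⟨y', hy', hy2'⟩ := norm P z'
  have : y = y' := Phi_inj_int hgen hy hy' <|
    (hy2 _ _ _ _ (compat_Phi P)).symm.trans (h.trans (hy2' _ _ _ _ (compat_Phi P)))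
  rw [hy2 _ _ _ _ hc, hy2' _ _ _ _ hc, this]

theorem exists_vert (hgen : ∀ s, P.gen s ≠ 1) (z : P.Grp × Kc Gn R) :
    ∃ v, Phi P z (v, .inl ()) ≠ 0 := by
  obtain ⟨g, k | ⟨s, u⟩ | ⟨r, p⟩⟩ := z
  · exact ⟨g, by simp [Phi, asm, ptF, dl]⟩
  · by_contra h
    push Not at h
    have h0 := h g
    have h1 := h (g * P.gen s)
    simp only [Phi, asm, egF_v0 hgen, egF_v1 hgen] at h0 h1
    linarith
  · by_contra h
    push Not at h
    have h0 := h g
    have h1 := h (g * P.gen (P.a r))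
    have h2 := h (g * P.gen (P.c r))
    simp only [Phi, asm, trF_v0 hgen, trF_v1 hgen, trF_v2 hgen] at h0 h1 h2
    linarith

theorem vert_mem {g v : P.Grp} {k : Kc Gn R} (h : Phi P (g, k) (v, .inl ()) ≠ 0) :
    g⁻¹ * v ∈ insert 1 (range P.gen) := by
  by_contra hv
  simp only [mem_insert_iff, mem_range, not_or, not_exists] at hv
  have h0 : v ≠ g := fun e => hv.1 (by simp [e])
  have h1 : ∀ s, v ≠ g * P.gen s := fun s e => hv.2 s (by simp [e])
  obtain k | ⟨s, u⟩ | ⟨r, p⟩ := k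
  · simp [Phi, asm, ptF, dl, h0] at h
  · simp [Phi, asm, egF, dl, h0, h1] at h
  · simp [Phi, asm, trF, dl, h0, h1] at h

/-- translation -/
def act (g : P.Grp) (f : Fn P) : Fn P := fun c => f (g⁻¹ * c.1, c.2)

theorem dl_act (g h : P.Grp) (t : Ty Gn R) (c : P.Grp × Ty Gn R) :
    dl P h t (g⁻¹ * c.1, c.2) = dl P (g * h) t c := by
  obtain ⟨c1, c2⟩ := c
  have : ((g⁻¹ * c1, c2) = (h, t)) ↔ ((c1, c2) = (g * h, t)) := by
    rw [Prod.mk.injEq, Prod.mk.injEq, inv_mul_eq_iff_eq_mul]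
  unfold dl
  by_cases e : (c1, c2) = (g * h, t)
  · rw [if_pos e, if_pos (this.2 e)]
  · rw [if_neg e, if_neg (mt this.1 e)]

theorem act_Phi (g h : P.Grp) (k : Kc Gn R) : act g (Phi P (h, k)) = Phi P (g * h, k) := by
  funext c
  obtain k | ⟨s, u⟩ | ⟨r, p⟩ := k
  · simp only [Phi, asm, ptF, act, dl_act]
  · simp only [Phi, asm, egF, act, dl_act, mul_assoc]
  · simp only [Phi, asm, trF, act, dl_act, mul_assoc]

theorem continuous_egF (e : P.Grp × Gn) : Continuous (egF P e) := by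
  refine continuous_pi fun c => ?_
  unfold egF
  fun_prop

theorem continuous_trF (t : P.Grp × R) : Continuous (trF P t) := by
  refine continuous_pi fun c => ?_
  unfold trF
  fun_prop

instance : CompactSpace Tri := by
  refine isCompact_iff_compactSpace.1 ?_
  refine (isCompact_Icc (a := ((0 : ℝ), (0 : ℝ))) (b := (1, 1))).of_isClosed_subset ?_ ?_
  · exact (isClosed_le continuous_const continuous_snd).inter
      ((isClosed_le continuous_snd continuous_fst).inter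
        (isClosed_le continuous_fst continuous_const))
  · rintro ⟨x, y⟩ ⟨h0, h1, h2⟩
    simp only at h0 h1 h2
    exact ⟨⟨by linarith, h0⟩, ⟨h2, by linarith⟩⟩

theorem continuous_asm [TopologicalSpace Gn] [DiscreteTopology Gn] [TopologicalSpace R]
    [DiscreteTopology R] {G Y : Type} [TopologicalSpace Y] {fv : G → Y}
    {fe : G × Gn → unitInterval → Y} {ft : G × R → Tri → Y} (he : ∀ e, Continuous (fe e))
    (ht : ∀ t, Continuous (ft t)) (g : G) : Continuous fun k => asm fv fe ft (g, k) := by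
  refine continuous_sum_dom.2 ⟨continuous_const, continuous_sum_dom.2 ⟨?_, ?_⟩⟩
  · exact continuous_prod_of_discrete_left.2 fun s => he (g, s)
  · exact continuous_prod_of_discrete_left.2 fun r => ht (g, r)

end Crest.Agent.R184.TopB
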