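import Crest.Agent.R184.Defs

/-! Van Kampen lemma: internal notion of a (not necessarily reduced) diagram. -/

set_option autoImplicit false

namespace Crest.Agent.R184

/-- ambient darts -/
abbrev VKD : Type := (ℕ × Fin 3) ⊕ ℕ

/-- active darts -/
def vkAct (T : Finset ℕ) (o : List ℕ) : VKD → Prop
  | .inl x => x.1 ∈ T
  | .inr k => k ∈ o

@[simp] lemma vkAct_inl (T : Finset ℕ) (o : List ℕ) (t : ℕ) (i : Fin 3) :
    vkAct T o (.inl (t, i)) ↔ t ∈ T := Iff.rfl

@[simp] lemma vkAct_inr (T : Finset ℕ) (o : List ℕ) (k : ℕ) :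
    vkAct T o (.inr k) ↔ k ∈ o := Iff.rfl

section run

variable {M : Type} [Group M]

/-- the potential along the outer face -/
def vkRun (val φ : VKD → M) : M → List ℕ → M → Prop
  | c, [], e => c = e
  | c, k :: o, e => φ (.inr k) * val (.inr k) = c ∧ vkRun val φ (φ (.inr k)) o e

@[simp] lemma vkRun_nil (val φ : VKD → M) (c e : M) : vkRun val φ c [] e ↔ c = e := Iff.rfl

@[simp] lemma vkRun_cons (val φ : VKD → M) (c e : M) (k : ℕ) (o : List ℕ) :
    vkRun val φ c (k :: o) e ↔
      φ (.inr k) * val (.inr k) = c ∧ vkRun val φ (φ (.inr k)) o e := Iff.rfl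

lemma vkRun_append (val φ : VKD → M) (o₁ o₂ : List ℕ) (c e : M) :
    vkRun val φ c (o₁ ++ o₂) e ↔ ∃ m, vkRun val φ c o₁ m ∧ vkRun val φ m o₂ e := by
  induction o₁ generalizing c with
  | nil => simp
  | cons k o ih => simp [ih, exists_and_left, and_assoc]

lemma vkRun_congr {val val' φ φ' : VKD → M} {o : List ℕ} {c e : M}
    (h1 : ∀ k ∈ o, val' (.inr k) = val (.inr k)) (h2 : ∀ k ∈ o, φ' (.inr k) = φ (.inr k))
    (h : vkRun val φ c o e) : vkRun val' φ' c o e := by
  induction o generalizing c with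
  | nil => exact h
  | cons k o ih =>
    rw [vkRun_cons] at h ⊢
    rw [h1 k (by simp), h2 k (by simp)]
    exact ⟨h.1, ih (fun k hk => h1 k (by simp [hk])) (fun k hk => h2 k (by simp [hk])) h.2⟩

lemma vkRun_get {val φ : VKD → M} {o : List ℕ} {c e : M} (h : vkRun val φ c o e) :
    (∀ (h0 : 0 < o.length), φ (.inr o[0]) * val (.inr o[0]) = c) ∧
    (∀ (k : ℕ) (hk : k + 1 < o.length), φ (.inr o[k + 1]) * val (.inr o[k + 1]) = φ (.inr o[k])) ∧
    (∀ (k : ℕ) (hk : k + 1 = o.length), φ (.inr (o[k]'(by omega))) = e) := by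
  induction o generalizing c with
  | nil => simp
  | cons a o ih =>
    rw [vkRun_cons] at h
    obtain ⟨i1, i2, i3⟩ := ih h.2
    refine ⟨fun _ => h.1, fun k hk => ?_, fun k hk => ?_⟩
    · cases k with
      | zero => exact i1 (by simpa using hk)
      | succ k => exact i2 k (by simpa using hk)
    · cases k with
      | zero =>
        have : o = [] := List.length_eq_zero_iff.mp (by simpa using hk.symm)
        subst this
        exact h.2
      | succ k => exact i3 k (by simpa using hk)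

/-- `φ` is a potential for the cochain `val`. -/
structure VKPot (T : Finset ℕ) (o : List ℕ) (α : VKD → VKD) (val φ : VKD → M) (c : M) : Prop where
  tri : ∀ t ∈ T, ∀ i : Fin 3, φ (.inl (t, i + 1)) = φ (.inl (t, i)) * val (.inl (t, i))
  glue : ∀ d, vkAct T o d → φ (α d) = φ d * val d
  run : vkRun val φ c o c

lemma VKPot.congr {T : Finset ℕ} {o : List ℕ} {α : VKD → VKD} {val val' φ : VKD → M} {c : M}
    (h : VKPot T o α val φ c) (hv : ∀ d, vkAct T o d → val' d = val d) :
    VKPot T o α val' φ c where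
  tri t ht i := by rw [hv _ (by simpa using ht)]; exact h.tri t ht i
  glue d hd := by rw [hv d hd]; exact h.glue d hd
  run := vkRun_congr (fun k hk => hv _ (by simpa using hk)) (fun _ _ => rfl) h.run

end run

/-- the group with two elements -/
abbrev VKZ : Type := Multiplicative (ZMod 2)

lemma vkz_mul_self (a : VKZ) : a * a = 1 := by
  revert a; decide

lemma vkz_inv (a : VKZ) : a⁻¹ = a := by
  revert a; decide

/-- planarity -/
def VKPlanar (T : Finset ℕ) (o : List ℕ) (α : VKD → VKD) : Prop :=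
  ∀ z : VKD → VKZ, (∀ d, vkAct T o d → z (α d) = z d) →
    (∀ t ∈ T, z (.inl (t, 0)) * z (.inl (t, 1)) * z (.inl (t, 2)) = 1) →
    (o.map fun k => z (.inr k)).prod = 1 → ∃ f c, VKPot T o α z f c

@[simp] lemma vk_flp_flp {S : Type} (x : S × Bool) : flp (flp x) = x := by
  simp [flp]

lemma vk_flp_ne {S : Type} (x : S × Bool) : flp x ≠ x := by
  rcases x with ⟨s, b⟩
  simp [flp]

/-- a fixed point free involution of the active darts -/
structure VKInv (T : Finset ℕ) (o : List ℕ) (α : VKD → VKD) : Prop where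
  act : ∀ d, vkAct T o d → vkAct T o (α d)
  inv : ∀ d, vkAct T o d → α (α d) = d
  ne : ∀ d, vkAct T o d → α d ≠ d

variable {V S C H : Type}

/-- the value of a letter -/
def vkGl (D : HES V S C H) (rev : H → H) (x : (V ⊕ S) × Bool) : (D.tp rev).Grp :=
  (D.tp rev).pr (FreeGroup.mk [x])

lemma vkGl_flp (D : HES V S C H) (rev : H → H) (x : (V ⊕ S) × Bool) :
    vkGl D rev (flp x) = (vkGl D rev x)⁻¹ := by
  rw [vkGl, vkGl, ← map_inv, FreeGroup.inv_mk]
  rfl

/-- a diagram, not necessarily reduced, with the positions of its vertices -/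
structure VKDiag (D : HES V S C H) (rev : H → H) (w : List ((V ⊕ S) × Bool))
    (ch : (D.tp rev).Grp × {h : H // (D.lett h).2 = true} →₀ ℤ) where
  T : Finset ℕ
  o : List ℕ
  nodup : o.Nodup
  lab : VKD → (V ⊕ S) × Bool
  hw : (o.map fun k => flp (lab (.inr k))) = w
  α : VKD → VKD
  inv : VKInv T o α
  α_lab : ∀ d, vkAct T o d → lab (α d) = flp (lab d)
  ψ : VKD → (D.tp rev).Grp
  pot : VKPot T o α (fun d => vkGl D rev (lab d)) ψ 1
  planar : VKPlanar T o α
  tm : ℕ → ((D.tp rev).Grp × {h : H // (D.lett h).2 = true} →₀ ℤ)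
  cell : ∀ t ∈ T, ∃ h, (∀ i, lab (.inl (t, i)) = D.side rev h i) ∧
    tm t = D.term rev (ψ (.inl (t, 0))) h
  chain : ∑ t ∈ T, tm t = ch

lemma vkRun_gl (D : HES V S C H) (rev : H → H) (lab : VKD → (V ⊕ S) × Bool)
    {ψ : VKD → (D.tp rev).Grp} {o : List ℕ} {c e : (D.tp rev).Grp}
    (h : vkRun (fun d => vkGl D rev (lab d)) ψ c o e) :
    e = c * (D.tp rev).pr (FreeGroup.mk (o.map fun k => flp (lab (.inr k)))) := by
  induction o generalizing c with
  | nil =>
    rw [vkRun_nil] at h
    rw [← h, List.map_nil, ← FreeGroup.one_eq_mk, map_one, mul_one]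
  | cons k o ih =>
    rw [vkRun_cons] at h
    rw [ih h.2, ← h.1, List.map_cons, ← List.singleton_append,
      ← FreeGroup.mul_mk, map_mul, ← vkGl, vkGl_flp]
    group

/-- the empty diagram -/
noncomputable def vkEmpty (D : HES V S C H) (rev : H → H) (x : (V ⊕ S) × Bool) :
    VKDiag D rev [] 0 where
  T := ∅
  o := []
  nodup := List.nodup_nil
  lab := fun _ => x
  hw := rfl
  α := id
  inv := ⟨fun _ h => h, fun _ _ => rfl, by rintro (⟨t, i⟩ | k) h <;> simp at h⟩
  α_lab := by rintro (⟨t, i⟩ | k) h <;> simp at h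
  ψ := fun _ => 1
  pot := ⟨by simp, by rintro (⟨t, i⟩ | k) h <;> simp at h, rfl⟩
  planar := fun z _ _ _ =>
    ⟨fun _ => 1, 1, by simp, by rintro (⟨t, i⟩ | k) h <;> simp at h, rfl⟩
  tm := fun _ => 0
  cell := by simp
  chain := by simp

end Crest.Agent.R184
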