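import Crest.Agent.R184.VKAux1

/-! Van Kampen lemma: folding two consecutive boundary edges. -/

set_option autoImplicit false

namespace Crest.Agent.R184

/-- the gluing after folding -/
def vkFoldα (α : VKD → VKD) (k k' : ℕ) (y : VKD) : VKD :=
  if α y = .inr k then α (.inr k') else if α y = .inr k' then α (.inr k) else α y

section fold

variable {T : Finset ℕ} {oa ob : List ℕ} {k k' : ℕ} {α : VKD → VKD}

lemma vkFold_act (hn : (oa ++ k :: k' :: ob).Nodup) (y : VKD) :
    vkAct T (oa ++ ob) y ↔ vkAct T (oa ++ k :: k' :: ob) y ∧ y ≠ .inr k ∧ y ≠ .inr k' := by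
  rcases y with ⟨t, i⟩ | j
  · simp
  · simp only [vkAct_inr, List.mem_append, List.mem_cons, ne_eq, Sum.inr.injEq]
    rw [List.nodup_append] at hn
    obtain ⟨-, h2, h3⟩ := hn
    simp only [List.nodup_cons, List.mem_cons, not_or] at h2
    constructor
    · rintro (h | h)
      · exact ⟨Or.inl h, h3 j h k (by simp), h3 j h k' (by simp)⟩
      · refine ⟨Or.inr (Or.inr (Or.inr h)), ?_, ?_⟩
        · rintro rfl; exact h2.1.2 h
        · rintro rfl; exact h2.2.1 h
    · tauto

lemma vkFold_ne (hn : (oa ++ k :: k' :: ob).Nodup) : k ≠ k' := by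
  rw [List.nodup_append] at hn
  obtain ⟨-, h2, -⟩ := hn
  simp only [List.nodup_cons, List.mem_cons, not_or] at h2
  exact h2.1.1

lemma vkFold_nodup (hn : (oa ++ k :: k' :: ob).Nodup) : (oa ++ ob).Nodup := by
  refine hn.sublist (List.Sublist.append_left ?_ _)
  exact (List.sublist_cons_self _ _).trans (List.sublist_cons_self _ _)

lemma vkFold_inv (hn : (oa ++ k :: k' :: ob).Nodup) (h : VKInv T (oa ++ k :: k' :: ob) α) :
    VKInv T (oa ++ ob) (vkFoldα α k k') := by
  have hd : vkAct T (oa ++ k :: k' :: ob) (.inr k) := by simp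
  have hd' : vkAct T (oa ++ k :: k' :: ob) (.inr k') := by simp
  have hkk : (Sum.inr k : VKD) ≠ .inr k' := by simpa using vkFold_ne hn
  refine ⟨fun y hy => ?_, fun y hy => ?_, fun y hy => ?_⟩
  all_goals
    rw [vkFold_act hn] at hy
    obtain ⟨hy, hy1, hy2⟩ := hy
    have e1 := h.inv y hy
    have e2 := h.inv _ hd
    have e3 := h.inv _ hd'
    have n1 := h.ne y hy
    have n2 := h.ne _ hd
    have n3 := h.ne _ hd'
  · rw [vkFold_act hn]
    unfold vkFoldα
    split_ifs with h1 h2
    · exact ⟨h.act _ hd', by grind, n3⟩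
    · exact ⟨h.act _ hd, n2, by grind⟩
    · exact ⟨h.act _ hy, h1, h2⟩
  · unfold vkFoldα
    grind
  · unfold vkFoldα
    grind

lemma vkFold_pot {M : Type} [Group M] {val φ : VKD → M} {c : M}
    (hn : (oa ++ k :: k' :: ob).Nodup)
    (hp : VKPot T (oa ++ k :: k' :: ob) α val φ c)
    (hv : val (.inr k') = (val (.inr k))⁻¹) :
    VKPot T (oa ++ ob) (vkFoldα α k k') val φ c := by
  have hd : vkAct T (oa ++ k :: k' :: ob) (.inr k) := by simp
  have hd' : vkAct T (oa ++ k :: k' :: ob) (.inr k') := by simp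
  obtain ⟨m, r1, r2, r3, r4⟩ := (vkRun_append _ _ _ _ _ _).1 hp.run
  have hm : φ (.inr k') = m := by
    rw [← r2, ← r3, hv]; group
  refine ⟨hp.tri, fun y hy => ?_, (vkRun_append _ _ _ _ _ _).2 ⟨m, r1, hm ▸ r4⟩⟩
  rw [vkFold_act hn] at hy
  obtain ⟨hy, -, -⟩ := hy
  unfold vkFoldα
  split_ifs with h1 h2
  · rw [hp.glue _ hd', r3, ← h1, hp.glue y hy]
  · rw [hp.glue _ hd, r2, ← hm, ← h2, hp.glue y hy]
  · exact hp.glue y hy

lemma vkFold_planar (hn : (oa ++ k :: k' :: ob).Nodup) (h : VKInv T (oa ++ k :: k' :: ob) α)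
    (hp : VKPlanar T (oa ++ k :: k' :: ob) α) : VKPlanar T (oa ++ ob) (vkFoldα α k k') := by
  intro z' h1 h2 h3
  have hd : vkAct T (oa ++ k :: k' :: ob) (.inr k) := by simp
  have hd' : vkAct T (oa ++ k :: k' :: ob) (.inr k') := by simp
  have hkk : (Sum.inr k : VKD) ≠ .inr k' := by simpa using vkFold_ne hn
  set z : VKD → VKZ := fun y => if y = .inr k ∨ y = .inr k' then z' (α (.inr k)) else z' y
    with hz
  have hzz : ∀ y, vkAct T (oa ++ ob) y → z y = z' y := by
    intro y hy
    rw [vkFold_act hn] at hy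
    simp [hz, hy.2.1, hy.2.2]
  have zk : z (.inr k) = z' (α (.inr k)) := by simp [hz]
  have zk' : z (.inr k') = z' (α (.inr k)) := by simp [hz]
  suffices H : ∃ f c, VKPot T (oa ++ k :: k' :: ob) α z f c by
    obtain ⟨f, c, hf⟩ := H
    exact ⟨f, c, (vkFold_pot hn hf (by rw [zk, zk', vkz_inv])).congr fun d hd => (hzz d hd).symm⟩
  refine hp z ?_ ?_ ?_
  · have key : ∀ y, vkAct T (oa ++ k :: k' :: ob) y → y ≠ .inr k → y ≠ .inr k' →
        z (α y) = z y := by
      intro y hy hy1 hy2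
      have hy' : vkAct T (oa ++ ob) y := (vkFold_act hn y).2 ⟨hy, hy1, hy2⟩
      have e := h1 y hy'
      have e1 := h.inv y hy
      rw [hzz y hy', ← e]
      unfold vkFoldα
      split_ifs with a1 a2
      · rw [a1, zk, ← a1, e1, ← e, vkFoldα, if_pos a1]
      · rw [a2, zk']
      · simp [hz, a1, a2]
    intro y hy
    by_cases hy1 : y = .inr k ∨ y = .inr k'
    · by_cases hy2 : α y = .inr k ∨ α y = .inr k'
      · simp only [hz, hy1, hy2, if_true]
      · rw [not_or] at hy2
        have := key (α y) (h.act y hy) hy2.1 hy2.2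
        rw [h.inv y hy] at this
        exact this.symm
    · rw [not_or] at hy1
      exact key y hy hy1.1 hy1.2
  · intro t ht
    rw [hzz _ (by simpa using ht), hzz _ (by simpa using ht), hzz _ (by simpa using ht)]
    exact h2 t ht
  · have ea : (oa.map fun j => z (.inr j)) = oa.map fun j => z' (.inr j) :=
      List.map_congr_left fun j hj => hzz _ (by simp [hj])
    have eb : (ob.map fun j => z (.inr j)) = ob.map fun j => z' (.inr j) :=
      List.map_congr_left fun j hj => hzz _ (by simp [hj])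
    rw [List.map_append, List.prod_append] at h3
    rw [List.map_append, List.prod_append, List.map_cons, List.map_cons, List.prod_cons,
      List.prod_cons, zk, zk', ea, eb, ← mul_assoc (z' _), vkz_mul_self, one_mul, h3]

end fold

variable {V S C H : Type} {D : HES V S C H} {rev : H → H}

lemma vkFold {a b : List ((V ⊕ S) × Bool)} {x : (V ⊕ S) × Bool}
    {ch : (D.tp rev).Grp × {h : H // (D.lett h).2 = true} →₀ ℤ}
    (Δ : VKDiag D rev (a ++ x :: flp x :: b) ch) : Nonempty (VKDiag D rev (a ++ b) ch) := by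
  obtain ⟨T, o, nodup, lab, hw, α, inv, α_lab, ψ, pot, planar, tm, cell, chain⟩ := Δ
  obtain ⟨oa, o2, rfl, ha, h2⟩ := List.map_eq_append_iff.1 hw
  obtain ⟨k, o3, rfl, hk, h3⟩ := List.map_eq_cons_iff.1 h2
  obtain ⟨k', ob, rfl, hk', hb⟩ := List.map_eq_cons_iff.1 h3
  have hl : lab (.inr k') = flp (lab (.inr k)) := by
    rw [hk, ← vk_flp_flp (lab (.inr k')), hk', vk_flp_flp]
  have hd : vkAct T (oa ++ k :: k' :: ob) (.inr k) := by simp
  have hd' : vkAct T (oa ++ k :: k' :: ob) (.inr k') := by simp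
  refine ⟨⟨T, oa ++ ob, vkFold_nodup nodup, lab, by rw [List.map_append, ha, hb],
    vkFoldα α k k', vkFold_inv nodup inv, fun y hy => ?_, ψ,
    vkFold_pot nodup pot (by simp only [hl, vkGl_flp]), vkFold_planar nodup inv planar,
    tm, cell, chain⟩⟩
  rw [vkFold_act nodup] at hy
  have e := α_lab y hy.1
  unfold vkFoldα
  split_ifs with h1 h2
  · rw [α_lab _ hd', hl, vk_flp_flp, ← h1, e]
  · rw [α_lab _ hd, ← hl, ← h2, e]
  · exact e

end Crest.Agent.R184
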