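import Crest.Agent.R184.VKAux2

/-! Van Kampen lemma: attaching a spike. -/

set_option autoImplicit false

namespace Crest.Agent.R184

/-- update a function at two outer darts -/
def vkUp2 {X : Type} (k k' : ℕ) (a b : X) (f : VKD → X) (y : VKD) : X :=
  if y = .inr k then a else if y = .inr k' then b else f y

lemma vkUp2_fst {X : Type} (k k' : ℕ) (a b : X) (f : VKD → X) :
    vkUp2 k k' a b f (.inr k) = a := by simp [vkUp2]

lemma vkUp2_snd {X : Type} {k k' : ℕ} (h : k ≠ k') (a b : X) (f : VKD → X) :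
    vkUp2 k k' a b f (.inr k') = b := by simp [vkUp2, h.symm]

section spike

variable {T : Finset ℕ} {oa ob : List ℕ} {k k' : ℕ} {α : VKD → VKD}

lemma vkUp2_old {X : Type} (hn : (oa ++ k :: k' :: ob).Nodup) (a b : X) (f : VKD → X) {y : VKD}
    (hy : vkAct T (oa ++ ob) y) : vkUp2 k k' a b f y = f y := by
  rw [vkFold_act hn] at hy
  simp [vkUp2, hy.2.1, hy.2.2]

lemma vkSpike_cases (hn : (oa ++ k :: k' :: ob).Nodup) {y : VKD}
    (hy : vkAct T (oa ++ k :: k' :: ob) y) :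
    y = .inr k ∨ y = .inr k' ∨ vkAct T (oa ++ ob) y := by
  rw [vkFold_act hn]
  tauto

lemma vkSpike_inv (hn : (oa ++ k :: k' :: ob).Nodup) (h : VKInv T (oa ++ ob) α) :
    VKInv T (oa ++ k :: k' :: ob) (vkUp2 k k' (.inr k') (.inr k) α) := by
  have hkk := vkFold_ne hn
  refine ⟨fun y hy => ?_, fun y hy => ?_, fun y hy => ?_⟩
  all_goals
    rcases vkSpike_cases hn hy with rfl | rfl | hy'
  · rw [vkUp2_fst]; simp
  · rw [vkUp2_snd hkk]; simp
  · rw [vkUp2_old hn _ _ _ hy']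
    exact ((vkFold_act hn _).1 (h.act y hy')).1
  · rw [vkUp2_fst, vkUp2_snd hkk]
  · rw [vkUp2_snd hkk, vkUp2_fst]
  · rw [vkUp2_old hn _ _ _ hy', vkUp2_old hn _ _ _ (h.act y hy'), h.inv y hy']
  · rw [vkUp2_fst]; simpa using hkk.symm
  · rw [vkUp2_snd hkk]; simpa using hkk
  · rw [vkUp2_old hn _ _ _ hy']
    exact h.ne y hy'

lemma vkSpike_pot {M : Type} [Group M] {val φ : VKD → M} {c : M}
    (hn : (oa ++ k :: k' :: ob).Nodup) (h : VKInv T (oa ++ ob) α)
    (hp : VKPot T (oa ++ ob) α val φ c)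
    (hv : val (.inr k') = (val (.inr k))⁻¹) :
    ∃ a b, VKPot T (oa ++ k :: k' :: ob) (vkUp2 k k' (.inr k') (.inr k) α) val
      (vkUp2 k k' a b φ) c := by
  have hkk := vkFold_ne hn
  obtain ⟨m, r1, r2⟩ := (vkRun_append _ _ _ _ _ _).1 hp.run
  refine ⟨m * (val (.inr k))⁻¹, m, fun t ht i => ?_, fun y hy => ?_, ?_⟩
  · rw [vkUp2_old (T := T) hn _ _ _ (by simpa using ht),
      vkUp2_old (T := T) hn _ _ _ (by simpa using ht)]
    exact hp.tri t ht i
  · rcases vkSpike_cases hn hy with rfl | rfl | hy'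
    · rw [vkUp2_fst, vkUp2_fst, vkUp2_snd hkk]; group
    · rw [vkUp2_snd hkk, vkUp2_fst, vkUp2_snd hkk, hv]
    · rw [vkUp2_old hn _ _ _ hy', vkUp2_old hn _ _ _ hy', vkUp2_old hn _ _ _ (h.act y hy')]
      exact hp.glue y hy'
  · rw [vkRun_append]
    refine ⟨m, vkRun_congr (fun _ _ => rfl)
      (fun j hj => vkUp2_old (T := T) hn _ _ _ (by simp [hj])) r1, ?_⟩
    rw [vkRun_cons, vkRun_cons, vkUp2_fst, vkUp2_snd hkk, hv]
    exact ⟨by group, rfl, vkRun_congr (fun _ _ => rfl)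
      (fun j hj => vkUp2_old (T := T) hn _ _ _ (by simp [hj])) r2⟩

lemma vkSpike_planar (hn : (oa ++ k :: k' :: ob).Nodup) (h : VKInv T (oa ++ ob) α)
    (hp : VKPlanar T (oa ++ ob) α) :
    VKPlanar T (oa ++ k :: k' :: ob) (vkUp2 k k' (.inr k') (.inr k) α) := by
  intro z h1 h2 h3
  have e : z (.inr k') = z (.inr k) := by
    have := h1 (.inr k) (by simp)
    rwa [vkUp2_fst] at this
  suffices H : ∃ f c, VKPot T (oa ++ ob) α z f c by
    obtain ⟨f, c, hf⟩ := H
    obtain ⟨a, b, hab⟩ := vkSpike_pot hn h hf (by rw [e, vkz_inv])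
    exact ⟨_, c, hab⟩
  refine hp z (fun y hy => ?_) h2 ?_
  · have := h1 y ((vkFold_act hn _).1 hy).1
    rwa [vkUp2_old hn _ _ _ hy] at this
  · rw [List.map_append, List.prod_append, List.map_cons, List.map_cons, List.prod_cons,
      List.prod_cons, e, ← mul_assoc (z _), vkz_mul_self, one_mul] at h3
    rw [List.map_append, List.prod_append, h3]

end spike

lemma vk_fresh (o : List ℕ) : ∃ N, ∀ k ∈ o, k < N := by
  refine ⟨o.sum + 1, fun k hk => Nat.lt_succ_of_le (List.single_le_sum (by simp) k hk)⟩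

variable {V S C H : Type} {D : HES V S C H} {rev : H → H}

lemma vkSpike {a b : List ((V ⊕ S) × Bool)} (x : (V ⊕ S) × Bool)
    {ch : (D.tp rev).Grp × {h : H // (D.lett h).2 = true} →₀ ℤ}
    (Δ : VKDiag D rev (a ++ b) ch) : Nonempty (VKDiag D rev (a ++ x :: flp x :: b) ch) := by
  obtain ⟨T, o, nodup, lab, hw, α, inv, α_lab, ψ, pot, planar, tm, cell, chain⟩ := Δ
  obtain ⟨oa, ob, rfl, ha, hb⟩ := List.map_eq_append_iff.1 hw
  obtain ⟨N, hN⟩ := vk_fresh (oa ++ ob)
  have hn : (oa ++ N :: (N + 1) :: ob).Nodup := by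
    rw [List.nodup_middle, List.nodup_cons, List.nodup_middle, List.nodup_cons]
    refine ⟨fun h => ?_, fun h => ?_, nodup⟩
    · simp only [List.mem_append, List.mem_cons] at h hN
      rcases h with h | h | h
      · exact absurd (hN N (Or.inl h)) (lt_irrefl _)
      · omega
      · exact absurd (hN N (Or.inr h)) (lt_irrefl _)
    · have := hN _ h
      omega
  have hkk := vkFold_ne hn
  set lab' := vkUp2 N (N + 1) (flp x) x lab with hlab'
  have pot' : VKPot T (oa ++ ob) α (fun d => vkGl D rev (lab' d)) ψ 1 :=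
    pot.congr fun d hd => by rw [hlab', vkUp2_old hn _ _ _ hd]
  obtain ⟨p, q, hpq⟩ := vkSpike_pot hn inv pot' (by
    simp only [hlab']
    rw [vkUp2_fst, vkUp2_snd hkk, vkGl_flp, inv_inv])
  refine ⟨⟨T, oa ++ N :: (N + 1) :: ob, hn, lab', ?_, _, vkSpike_inv hn inv, fun y hy => ?_,
    _, hpq, vkSpike_planar hn inv planar, tm, fun t ht => ?_, chain⟩⟩
  · rw [List.map_append, List.map_cons, List.map_cons, hlab', vkUp2_fst, vkUp2_snd hkk,
      vk_flp_flp, ← ha, ← hb]
    congr 1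
    · exact List.map_congr_left fun j hj => by
        rw [vkUp2_old (T := T) hn _ _ _ (by simp [hj])]
    · congr 2
      exact List.map_congr_left fun j hj => by
        rw [vkUp2_old (T := T) hn _ _ _ (by simp [hj])]
  · rw [hlab']
    rcases vkSpike_cases hn hy with rfl | rfl | hy'
    · rw [vkUp2_fst, vkUp2_fst, vkUp2_snd hkk, vk_flp_flp]
    · rw [vkUp2_snd hkk, vkUp2_fst, vkUp2_snd hkk]
    · rw [vkUp2_old hn _ _ _ hy', vkUp2_old hn _ _ _ hy', vkUp2_old hn _ _ _ (inv.act y hy')]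
      exact α_lab y hy'
  · obtain ⟨h, e1, e2⟩ := cell t ht
    refine ⟨h, fun i => ?_, ?_⟩
    · rw [hlab', vkUp2_old (T := T) hn _ _ _ (by simpa using ht), e1]
    · rw [vkUp2_old (T := T) hn _ _ _ (by simpa using ht), e2]

/-- the existence of a diagram only depends on the element of the free group -/
lemma vk_of_mk_eq {w w' : List ((V ⊕ S) × Bool)}
    {ch : (D.tp rev).Grp × {h : H // (D.lett h).2 = true} →₀ ℤ}
    (h : FreeGroup.mk w = FreeGroup.mk w') (Δ : Nonempty (VKDiag D rev w ch)) :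
    Nonempty (VKDiag D rev w' ch) := by
  have key : ∀ u u' : List ((V ⊕ S) × Bool), Relation.EqvGen FreeGroup.Red.Step u u' →
      (Nonempty (VKDiag D rev u ch) ↔ Nonempty (VKDiag D rev u' ch)) := by
    intro u u' hu
    induction hu with
    | rel u u' hs =>
      cases hs with
      | @not a b x c =>
        exact ⟨fun ⟨Δ⟩ => vkFold (x := (x, c)) Δ, fun ⟨Δ⟩ => vkSpike (x, c) Δ⟩
    | refl => rfl
    | symm _ _ _ ih => exact ih.symm
    | trans _ _ _ _ _ ih1 ih2 => exact ih1.trans ih2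
  exact (key w w' (Quot.eqvGen_exact h)).1 Δ

end Crest.Agent.R184
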