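import Crest.Agent.R184.VKAux4

/-! Van Kampen lemma: cancelling a pair of mirror triangles. -/

set_option autoImplicit false

namespace Crest.Agent.R184

/-- darts of the two triangles -/
def vkPair (t t' : ℕ) : VKD → Prop
  | .inl x => x.1 = t ∨ x.1 = t'
  | .inr _ => False

instance (t t' : ℕ) : DecidablePred (vkPair t t')
  | .inl x => inferInstanceAs (Decidable (x.1 = t ∨ x.1 = t'))
  | .inr _ => inferInstanceAs (Decidable False)

/-- the mirror -/
def vkMir (t t' : ℕ) : VKD → VKD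
  | .inl (s, j) => if s = t then .inl (t', j.rev) else .inl (t, j.rev)
  | .inr k => .inr k

/-- the gluing after cancelling -/
def vkCanα (t t' : ℕ) (α : VKD → VKD) (y : VKD) : VKD :=
  if vkPair t t' (α y) then α (vkMir t t' (α y)) else α y

section cancel

variable {T : Finset ℕ} {o : List ℕ} {t t' : ℕ} {α : VKD → VKD}

lemma vkPair_fst (j : Fin 3) : vkPair t t' (.inl (t, j)) := Or.inl rfl

lemma vkPair_snd (j : Fin 3) : vkPair t t' (.inl (t', j)) := Or.inr rfl

lemma vkPair_cases {e : VKD} (he : vkPair t t' e) :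
    (∃ j, e = .inl (t, j)) ∨ ∃ j : Fin 3, e = .inl (t', j.rev) := by
  rcases e with ⟨s, j⟩ | k
  · rcases he with rfl | rfl
    · exact Or.inl ⟨j, rfl⟩
    · exact Or.inr ⟨j.rev, by simp⟩
  · exact he.elim

lemma vkMir_fst (j : Fin 3) : vkMir t t' (.inl (t, j)) = .inl (t', j.rev) := by simp [vkMir]

lemma vkMir_snd (htt : t ≠ t') (j : Fin 3) : vkMir t t' (.inl (t', j.rev)) = .inl (t, j) := by
  simp [vkMir, htt.symm]

lemma vkMir_pair (htt : t ≠ t') {e : VKD} (he : vkPair t t' e) : vkPair t t' (vkMir t t' e) := by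
  rcases vkPair_cases he with ⟨j, rfl⟩ | ⟨j, rfl⟩
  · rw [vkMir_fst]; exact vkPair_snd _
  · rw [vkMir_snd htt]; exact vkPair_fst _

lemma vkMir_mir (htt : t ≠ t') {e : VKD} (he : vkPair t t' e) :
    vkMir t t' (vkMir t t' e) = e := by
  rcases vkPair_cases he with ⟨j, rfl⟩ | ⟨j, rfl⟩
  · rw [vkMir_fst, vkMir_snd htt]
  · rw [vkMir_snd htt, vkMir_fst]

lemma vkMir_ne (htt : t ≠ t') {e : VKD} (he : vkPair t t' e) : vkMir t t' e ≠ e := by
  rcases vkPair_cases he with ⟨j, rfl⟩ | ⟨j, rfl⟩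
  · rw [vkMir_fst]; simp [htt.symm]
  · rw [vkMir_snd htt]; simp [htt]

lemma vkPair_act (ht : t ∈ T) (ht' : t' ∈ T) {e : VKD} (he : vkPair t t' e) : vkAct T o e := by
  rcases vkPair_cases he with ⟨j, rfl⟩ | ⟨j, rfl⟩
  · exact ht
  · exact ht'

lemma vkCan_act (y : VKD) :
    vkAct ((T.erase t).erase t') o y ↔ vkAct T o y ∧ ¬ vkPair t t' y := by
  rcases y with ⟨s, j⟩ | k
  · simp only [vkAct_inl, Finset.mem_erase, vkPair]
    tauto
  · simp [vkPair]

/-- the hypotheses for cancelling -/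
structure VKCan (T : Finset ℕ) (o : List ℕ) (α : VKD → VKD) (t t' : ℕ) (i : Fin 3) : Prop where
  inv : VKInv T o α
  ht : t ∈ T
  ht' : t' ∈ T
  htt : t ≠ t'
  hi : α (.inl (t, i)) = .inl (t', i.rev)
  hP : ∀ e, vkPair t t' e → vkPair t t' (α e) → α e = vkMir t t' e

variable {i : Fin 3}

lemma VKCan.out (h : VKCan T o α t t' i) {y : VKD} (hy : vkAct T o y) (hy' : ¬ vkPair t t' y)
    (he : vkPair t t' (α y)) : ¬ vkPair t t' (α (vkMir t t' (α y))) := by
  intro h2
  have hm := vkMir_pair h.htt he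
  have e1 := h.hP _ hm h2
  rw [vkMir_mir h.htt he] at e1
  have e2 := congrArg α e1
  rw [h.inv.inv _ (vkPair_act h.ht h.ht' hm), h.inv.inv y hy] at e2
  exact hy' (e2 ▸ hm)

lemma vkCan_inv (h : VKCan T o α t t' i) :
    VKInv ((T.erase t).erase t') o (vkCanα t t' α) := by
  refine ⟨fun y hy => ?_, fun y hy => ?_, fun y hy => ?_⟩
  all_goals
    rw [vkCan_act] at hy
    obtain ⟨hy, hy'⟩ := hy
  · rw [vkCan_act, vkCanα]
    split_ifs with he
    · exact ⟨h.inv.act _ (vkPair_act h.ht h.ht' (vkMir_pair h.htt he)), h.out hy hy' he⟩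
    · exact ⟨h.inv.act y hy, he⟩
  · by_cases he : vkPair t t' (α y)
    · have hm := vkMir_pair h.htt he
      have e1 : vkCanα t t' α y = α (vkMir t t' (α y)) := if_pos he
      rw [e1, vkCanα, h.inv.inv _ (vkPair_act h.ht h.ht' hm), if_pos hm, vkMir_mir h.htt he,
        h.inv.inv y hy]
    · have e1 : vkCanα t t' α y = α y := if_neg he
      rw [e1, vkCanα, h.inv.inv y hy, if_neg hy']
  · rw [vkCanα]
    split_ifs with he
    · intro e1
      have e2 := congrArg α e1
      rw [h.inv.inv _ (vkPair_act h.ht h.ht' (vkMir_pair h.htt he))] at e2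
      exact vkMir_ne h.htt he e2
    · exact h.inv.ne y hy

lemma vkCan_mir {M : Type} [Group M] {val φ : VKD → M} {c : M} (h : VKCan T o α t t' i)
    (hp : VKPot T o α val φ c)
    (hv : ∀ j : Fin 3, val (.inl (t', j.rev)) = (val (.inl (t, j)))⁻¹) (j : Fin 3) :
    φ (.inl (t', j.rev)) = φ (.inl (t, j + 1)) := by
  have step : ∀ j : Fin 3, φ (.inl (t', (j + 1).rev)) = φ (.inl (t, j + 1 + 1)) →
      φ (.inl (t', j.rev)) = φ (.inl (t, j + 1)) := by
    intro j hj
    have e : j.rev = (j + 1).rev + 1 := (by decide : ∀ j : Fin 3, j.rev = (j + 1).rev + 1) j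
    rw [e, hp.tri t' h.ht', hj, hv, hp.tri t h.ht (j + 1), mul_inv_cancel_right]
  have base : φ (.inl (t', i.rev)) = φ (.inl (t, i + 1)) := by
    rw [← h.hi, hp.glue _ (by exact h.ht), hp.tri t h.ht]
  have hcase : j = i ∨ j + 1 = i ∨ j + 1 + 1 = i :=
    (by decide : ∀ i j : Fin 3, j = i ∨ j + 1 = i ∨ j + 1 + 1 = i) i j
  rcases hcase with rfl | rfl | rfl
  · exact base
  · exact step j base
  · exact step j (step _ base)

lemma vkCan_pot {M : Type} [Group M] {val φ : VKD → M} {c : M} (h : VKCan T o α t t' i)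
    (hp : VKPot T o α val φ c)
    (hv : ∀ j : Fin 3, val (.inl (t', j.rev)) = (val (.inl (t, j)))⁻¹) :
    VKPot ((T.erase t).erase t') o (vkCanα t t' α) val φ c := by
  refine ⟨fun s hs => hp.tri s (Finset.mem_of_mem_erase (Finset.mem_of_mem_erase hs)),
    fun y hy => ?_, hp.run⟩
  rw [vkCan_act] at hy
  obtain ⟨hy, hy'⟩ := hy
  rw [vkCanα]
  split_ifs with he
  · rw [hp.glue _ (vkPair_act h.ht h.ht' (vkMir_pair h.htt he)), ← hp.glue y hy]
    rcases vkPair_cases he with ⟨j, hj⟩ | ⟨j, hj⟩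
    · rw [hj, vkMir_fst, vkCan_mir h hp hv, hv, hp.tri t h.ht, mul_inv_cancel_right]
    · rw [hj, vkMir_snd h.htt, vkCan_mir h hp hv, hp.tri t h.ht]
  · exact hp.glue y hy

lemma vk_zeta (g : Fin 3 → VKZ) (i : Fin 3) :
    ∃ ζ : Fin 3 → VKZ, (∀ j, j ≠ i → ζ j = g j) ∧ ζ 0 * ζ 1 * ζ 2 = 1 := by
  refine ⟨Function.update g i (g (i + 1) * g (i + 2)), fun j hj => Function.update_of_ne hj _ _, ?_⟩
  revert g i
  decide

lemma vkCan_planar (h : VKCan T o α t t' i) (hp : VKPlanar T o α) :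
    VKPlanar ((T.erase t).erase t') o (vkCanα t t' α) := by
  intro z' h1 h2 h3
  obtain ⟨ζ, hζ, hζ3⟩ := vk_zeta (fun j => z' (α (.inl (t, j)))) i
  let z : VKD → VKZ := fun y => match y with
    | .inl (s, j) => if s = t then ζ j else if s = t' then ζ j.rev else z' (.inl (s, j))
    | .inr k => z' (.inr k)
  have z1 : ∀ j, z (.inl (t, j)) = ζ j := fun j => by simp [z]
  have z2 : ∀ j : Fin 3, z (.inl (t', j.rev)) = ζ j := fun j => by simp [z, h.htt.symm]
  have z3 : ∀ y, ¬ vkPair t t' y → z y = z' y := by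
    rintro (⟨s, j⟩ | k) hy
    · simp only [vkPair, not_or] at hy
      simp [z, hy.1, hy.2]
    · rfl
  suffices H : ∃ f c, VKPot T o α z f c by
    obtain ⟨f, c, hf⟩ := H
    exact ⟨f, c, (vkCan_pot h hf (fun j => by rw [z1, z2, vkz_inv])).congr
      fun d hd => (z3 d ((vkCan_act d).1 hd).2).symm⟩
  refine hp z ?_ (fun s hs => ?_) h3
  · have key : ∀ e, vkPair t t' e → z (α e) = z e := by
      intro e he
      have hea := vkPair_act (o := o) h.ht h.ht' he
      by_cases he' : vkPair t t' (α e)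
      · rw [h.hP e he he']
        rcases vkPair_cases he with ⟨j, rfl⟩ | ⟨j, rfl⟩
        · rw [vkMir_fst, z1, z2]
        · rw [vkMir_snd h.htt, z1, z2]
      · rw [z3 _ he']
        rcases vkPair_cases he with ⟨j, rfl⟩ | ⟨j, rfl⟩
        · rw [z1, hζ j]
          rintro rfl
          exact he' (h.hi ▸ vkPair_snd _)
        · have e1 := h1 (α (.inl (t', j.rev))) ((vkCan_act _).2 ⟨h.inv.act _ hea, he'⟩)
          rw [vkCanα, h.inv.inv _ hea, if_pos he, vkMir_snd h.htt] at e1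
          rw [z2, hζ j, e1]
          rintro rfl
          apply he'
          rw [← h.hi, h.inv.inv _ (by exact h.ht)]
          exact vkPair_fst _
    intro y hy
    by_cases hy' : vkPair t t' y
    · exact key y hy'
    · by_cases he : vkPair t t' (α y)
      · have := key _ he
        rw [h.inv.inv y hy] at this
        exact this.symm
      · have e1 := h1 y ((vkCan_act _).2 ⟨hy, hy'⟩)
        rw [vkCanα, if_neg he] at e1
        rw [z3 _ he, z3 _ hy', e1]
  · by_cases a1 : s = t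
    · rw [a1, z1, z1, z1, hζ3]
    · by_cases a2 : s = t'
      · have e0 : z (.inl (t', 0)) = ζ 2 := z2 2
        have e1 : z (.inl (t', 1)) = ζ 1 := z2 1
        have e2 : z (.inl (t', 2)) = ζ 0 := z2 0
        rw [a2, e0, e1, e2, ← hζ3, mul_comm (ζ 2 * ζ 1), mul_comm (ζ 2), mul_assoc]
      · have hn : ∀ j, ¬ vkPair t t' (.inl (s, j)) := fun j hj => hj.elim a1 a2
        rw [z3 _ (hn _), z3 _ (hn _), z3 _ (hn _)]
        exact h2 s (by simp [a1, a2, hs])

end cancel

variable {V S C H : Type} {D : HES V S C H} {rev : H → H}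

lemma vk_side_rev (hc : D.IsConf rev) (h : H) (j : Fin 3) :
    D.side rev (rev h) j.rev = flp (D.side rev h j) := by
  fin_cases j
  · show ((Sum.inl (D.vert (rev (rev h))), false) : (V ⊕ S) × Bool) = _
    rw [hc.invol]; rfl
  · show ((Sum.inr (D.lett (rev h)).1, (D.lett (rev h)).2) : (V ⊕ S) × Bool) = _
    rw [hc.lett_rev]; rfl
  · rfl

lemma vk_side_inj {h h' : H} (e : ∀ j, D.side rev h j = D.side rev h' j) : h = h' := by
  have e0 := e 0
  have e1 := e 1
  simp only [HES.side, Matrix.cons_val_zero, Matrix.cons_val_one, Prod.mk.injEq, Sum.inl.injEq,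
    Sum.inr.injEq, and_true] at e0 e1
  exact D.inj _ _ e0 (Prod.ext e1.1 e1.2)

lemma vk_vert_ne (hg : D.Girth rev 1) (h : H) : D.vert (rev h) ≠ D.vert h :=
  hg (fun _ => h) 0 Nat.zero_lt_one fun i hi => absurd hi (by omega)

lemma vk_side_inj_idx {h h' : H} {j j' : Fin 3} (e : D.side rev h j = D.side rev h' j') :
    j = j' := by
  fin_cases j <;> fin_cases j' <;> simp [HES.side] at e ⊢

lemma vk_side_ne (hc : D.IsConf rev) (hg : D.Girth rev 1) (h : H) (j : Fin 3) :
    D.side rev (rev h) j ≠ D.side rev h j := by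
  have h1 := vk_vert_ne hg h
  fin_cases j
  · simpa [HES.side] using h1
  · simp [HES.side, hc.lett_rev, flp]
  · simpa [HES.side, hc.invol] using h1.symm

lemma vk_term_rev (hc : D.IsConf rev) (g : (D.tp rev).Grp) (h : H) :
    D.term rev g h + D.term rev g (rev h) = 0 := by
  unfold HES.term
  by_cases hb : (D.lett h).2 = true
  · have hb' : ¬ (D.lett (rev h)).2 = true := by rw [hc.lett_rev, flp, hb]; simp
    have hb'' : (D.lett (rev (rev h))).2 = true := by rw [hc.invol, hb]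
    rw [dif_pos hb, dif_neg hb', dif_pos hb'']
    simp only [hc.invol, add_neg_cancel]
  · have hb' : (D.lett (rev h)).2 = true := by rw [hc.lett_rev, flp]; simpa using hb
    rw [dif_neg hb, dif_pos hb', dif_pos hb', neg_add_cancel]

/-- reduced diagrams -/
def VKDiag.Red {w : List ((V ⊕ S) × Bool)}
    {ch : (D.tp rev).Grp × {h : H // (D.lett h).2 = true} →₀ ℤ} (Δ : VKDiag D rev w ch) : Prop :=
  ∀ t ∈ Δ.T, ∀ i t' i' h, Δ.α (.inl (t, i)) = .inl (t', i') →
    (∀ j, Δ.lab (.inl (t, j)) = D.side rev h j) →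
    ¬ ∀ j, Δ.lab (.inl (t', j)) = D.side rev (rev h) j

lemma vkCancel (hc : D.IsConf rev) (hg : D.Girth rev 1) {w : List ((V ⊕ S) × Bool)}
    {ch : (D.tp rev).Grp × {h : H // (D.lett h).2 = true} →₀ ℤ} (Δ : VKDiag D rev w ch)
    (hΔ : ¬ Δ.Red) : ∃ Δ' : VKDiag D rev w ch, Δ'.T.card < Δ.T.card := by
  unfold VKDiag.Red at hΔ
  push Not at hΔ
  obtain ⟨T, o, nodup, lab, hw, α, inv, α_lab, ψ, pot, planar, tm, cell, chain⟩ := Δ
  obtain ⟨t, ht, i, t', i', h, hi, l1, l2⟩ := hΔ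
  dsimp only at ht hi l1 l2 ⊢
  have ht' : t' ∈ T := by
    have := inv.act (.inl (t, i)) ht
    rwa [hi] at this
  have htt : t ≠ t' := by
    rintro rfl
    exact vk_side_ne hc hg h 0 ((l2 0).symm.trans (l1 0))
  have lm : ∀ j : Fin 3, lab (.inl (t', j.rev)) = flp (lab (.inl (t, j))) := fun j => by
    rw [l1, l2, vk_side_rev hc]
  have lm' : ∀ e, vkPair t t' e → lab (vkMir t t' e) = flp (lab e) := by
    intro e he
    rcases vkPair_cases he with ⟨j, rfl⟩ | ⟨j, rfl⟩
    · rw [vkMir_fst, lm]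
    · rw [vkMir_snd htt, lm, vk_flp_flp]
  have linj : ∀ e e', vkPair t t' e → vkPair t t' e' → lab e = lab e' → e = e' := by
    intro e e' he he' hl
    rcases vkPair_cases he with ⟨j, rfl⟩ | ⟨j, rfl⟩ <;>
      rcases vkPair_cases he' with ⟨j', rfl⟩ | ⟨j', rfl⟩
    · rw [l1, l1] at hl
      rw [vk_side_inj_idx hl]
    · rw [l1, l2] at hl
      rw [vk_side_inj_idx hl] at hl
      exact absurd hl.symm (vk_side_ne hc hg h _)
    · rw [l1, l2] at hl
      rw [vk_side_inj_idx hl] at hl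
      exact absurd hl (vk_side_ne hc hg h _)
    · rw [l2, l2] at hl
      rw [vk_side_inj_idx hl]
  have hP : ∀ e, vkPair t t' e → vkPair t t' (α e) → α e = vkMir t t' e := fun e he he' =>
    linj _ _ he' (vkMir_pair htt he) (by rw [lm' e he, α_lab e (vkPair_act ht ht' he)])
  have hcan : VKCan T o α t t' i := ⟨inv, ht, ht', htt, by
    rw [hP _ (vkPair_fst i) (hi ▸ vkPair_snd i'), vkMir_fst], hP⟩
  have hv : ∀ j : Fin 3, vkGl D rev (lab (.inl (t', j.rev))) =
      (vkGl D rev (lab (.inl (t, j))))⁻¹ := fun j => by rw [lm, vkGl_flp]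
  refine ⟨⟨(T.erase t).erase t', o, nodup, lab, hw, vkCanα t t' α, vkCan_inv hcan,
    fun y hy => ?_, ψ, vkCan_pot hcan pot hv, vkCan_planar hcan planar, tm,
    fun s hs => cell s (Finset.mem_of_mem_erase (Finset.mem_of_mem_erase hs)), ?_⟩, ?_⟩
  · rw [vkCan_act] at hy
    rw [vkCanα]
    split_ifs with he
    · rw [α_lab _ (vkPair_act ht ht' (vkMir_pair htt he)), lm' _ he, vk_flp_flp, α_lab y hy.1]
    · exact α_lab y hy.1
  · rw [← chain, ← Finset.add_sum_erase T tm ht,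
      ← Finset.add_sum_erase (T.erase t) tm (Finset.mem_erase.2 ⟨htt.symm, ht'⟩), ← add_assoc]
    obtain ⟨h1, a1, b1⟩ := cell t ht
    obtain ⟨h2, a2, b2⟩ := cell t' ht'
    have e1 : h1 = h := vk_side_inj fun j => (a1 j).symm.trans (l1 j)
    have e2 : h2 = rev h := vk_side_inj fun j => (a2 j).symm.trans (l2 j)
    have e3 : ψ (.inl (t', 0)) = ψ (.inl (t, 0)) := vkCan_mir hcan pot hv 2
    rw [b1, b2, e1, e2, e3, vk_term_rev hc, zero_add]
  · exact lt_of_le_of_lt (Finset.card_erase_le) (Finset.card_erase_lt_of_mem ht)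

lemma vk_reduce (hc : D.IsConf rev) (hg : D.Girth rev 1) {w : List ((V ⊕ S) × Bool)}
    {ch : (D.tp rev).Grp × {h : H // (D.lett h).2 = true} →₀ ℤ} (Δ : VKDiag D rev w ch) :
    ∃ Δ' : VKDiag D rev w ch, Δ'.Red := by
  induction hn : Δ.T.card using Nat.strong_induction_on generalizing Δ with
  | _ n ih =>
    by_cases hΔ : Δ.Red
    · exact ⟨Δ, hΔ⟩
    · obtain ⟨Δ', h'⟩ := vkCancel hc hg Δ hΔ
      exact ih _ (hn ▸ h') Δ' rfl

end Crest.Agent.R184
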